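import Crest.Agent.R300.U.Defs

set_option autoImplicit false

/-!
Row 300, upper bound: calculus of `Bd`, `PE`, `dev`, and of the composite functionals.
-/

namespace Crest.Agent.R300U

open Finset

section mono

variable {n : ℕ}

theorem mono_apply (S : Finset (Fin n)) (x : Fin n → Bool) :
    mono S x = if (∀ i ∈ S, x i = true) then (1 : ℂ) else 0 := rfl

@[simp] theorem mono_empty : mono (∅ : Finset (Fin n)) = 1 := by
  funext x; simp [mono]

theorem mono_mul_mono (S T : Finset (Fin n)) : mono S * mono T = mono (S ∪ T) := by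
  funext x
  simp only [Pi.mul_apply, mono_apply]
  by_cases h1 : ∀ j ∈ S, x j = true
  · by_cases h2 : ∀ j ∈ T, x j = true
    · have h3 : ∀ j ∈ S ∪ T, x j = true := fun j hj =>
        (Finset.mem_union.mp hj).elim (h1 j) (h2 j)
      rw [if_pos h1, if_pos h2, if_pos h3, mul_one]
    · have h3 : ¬ ∀ j ∈ S ∪ T, x j = true := fun h =>
        h2 fun j hj => h j (Finset.mem_union_right _ hj)
      rw [if_neg h2, if_neg h3, mul_zero]
  · have h3 : ¬ ∀ j ∈ S ∪ T, x j = true := fun h =>
      h1 fun j hj => h j (Finset.mem_union_left _ hj)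
    rw [if_neg h1, if_neg h3, zero_mul]

theorem mono_mul_self (S : Finset (Fin n)) : mono S * mono S = mono S := by
  rw [mono_mul_mono, Finset.union_self]

theorem star_mono (S : Finset (Fin n)) : star (mono S) = mono S := by
  funext x
  simp only [Pi.star_apply, mono_apply]
  split_ifs <;> simp

theorem norm_mono_le (S : Finset (Fin n)) (x : Fin n → Bool) : ‖mono S x‖ ≤ 1 := by
  rw [mono_apply]; split_ifs <;> simp

theorem xv_eq_mono {u : ℕ} (h : u < n) : (xv u : R n) = mono {⟨u, h⟩} := by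
  funext x; simp [xv, mono, h]

theorem xv_eq_zero {u : ℕ} (h : ¬ u < n) : (xv u : R n) = 0 := by
  funext x; simp [xv, h]


theorem star_xv (u : ℕ) : star (xv u : R n) = xv u := by
  by_cases h : u < n
  · rw [xv_eq_mono h, star_mono]
  · rw [xv_eq_zero h, star_zero]

@[simp] theorem cst_apply (z : ℂ) (x : Fin n → Bool) : (cst z : R n) x = z := rfl

theorem cst_eq_smul (z : ℂ) : (cst z : R n) = z • 1 := by
  funext x; simp

@[simp] theorem cst_zero : (cst 0 : R n) = 0 := rfl

@[simp] theorem cst_one : (cst 1 : R n) = 1 := rfl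



end mono

section Bd

variable {n d e : ℕ} {c c' : ℝ} {P Q : R n}

theorem Bd.nonneg (h : Bd d c P) : 0 ≤ c := by
  obtain ⟨a, -, h, -⟩ := h
  exact (Finset.sum_nonneg fun _ _ => norm_nonneg _).trans h

theorem Bd.mono (h : Bd d c P) (hd : d ≤ e) (hc : c ≤ c') : Bd e c' P := by
  obtain ⟨a, h1, h2, h3⟩ := h
  exact ⟨a, fun S hS => h1 S (lt_of_le_of_lt hd hS), h2.trans hc, h3⟩

theorem Bd.mono_deg (h : Bd d c P) (hd : d ≤ e) : Bd e c P := h.mono hd le_rfl

theorem Bd.mono_mass (h : Bd d c P) (hc : c ≤ c') : Bd d c' P := h.mono le_rfl hc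

theorem Bd.zero (hc : 0 ≤ c) : Bd d c (0 : R n) :=
  ⟨0, by simp, by simpa using hc, by simp⟩

theorem Bd.smul_mono {S : Finset (Fin n)} (hd : S.card ≤ d) (z : ℂ) :
    Bd d ‖z‖ (z • R300U.mono S) := by
  refine ⟨fun T => if T = S then z else 0, ?_, ?_, ?_⟩
  · intro T hT
    by_cases h : T = S
    · subst h; omega
    · simp [h]
  · apply le_of_eq
    simp only [apply_ite norm, norm_zero, Finset.sum_ite_eq', Finset.mem_univ, if_true]
  · simp only [ite_smul, zero_smul, Finset.sum_ite_eq', Finset.mem_univ, if_true]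

theorem Bd.of_mono {S : Finset (Fin n)} (hd : S.card ≤ d) : Bd d 1 (R300U.mono S) := by
  have := Bd.smul_mono hd 1
  simpa using this

theorem Bd.xv (u : ℕ) (hd : 1 ≤ d) : Bd d 1 (xv u : R n) := by
  by_cases h : u < n
  · rw [xv_eq_mono h]
    exact Bd.of_mono (by simpa using hd)
  · rw [xv_eq_zero h]
    exact Bd.zero zero_le_one

theorem Bd.cst (z : ℂ) : Bd d ‖z‖ (cst z : R n) := by
  have h := Bd.smul_mono (S := (∅ : Finset (Fin n))) (d := d) (by simp) z
  rwa [mono_empty, ← cst_eq_smul] at h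

theorem Bd.one : Bd d 1 (1 : R n) := by
  have h := Bd.cst (n := n) (d := d) 1
  simpa using h

theorem Bd.add (hP : Bd d c P) (hQ : Bd d c' Q) : Bd d (c + c') (P + Q) := by
  obtain ⟨a, h1, h3, h2⟩ := hP
  obtain ⟨b, k1, k3, k2⟩ := hQ
  refine ⟨a + b, ?_, ?_, ?_⟩
  · intro S hS
    simp [h1 S hS, k1 S hS]
  · calc ∑ S, ‖(a + b) S‖ ≤ ∑ S, (‖a S‖ + ‖b S‖) := Finset.sum_le_sum fun S _ => norm_add_le _ _
      _ = ∑ S, ‖a S‖ + ∑ S, ‖b S‖ := Finset.sum_add_distrib
      _ ≤ c + c' := add_le_add h3 k3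
  · rw [h2, k2, ← Finset.sum_add_distrib]
    exact Finset.sum_congr rfl fun S _ => by simp [add_smul]

theorem Bd.smul (hP : Bd d c P) (z : ℂ) : Bd d (‖z‖ * c) (z • P) := by
  obtain ⟨a, h1, h3, h2⟩ := hP
  refine ⟨fun S => z * a S, ?_, ?_, ?_⟩
  · intro S hS
    simp [h1 S hS]
  · simp only [norm_mul, ← Finset.mul_sum]
    exact mul_le_mul_of_nonneg_left h3 (norm_nonneg _)
  · rw [h2, Finset.smul_sum]
    exact Finset.sum_congr rfl fun S _ => by rw [smul_smul]

theorem Bd.neg (hP : Bd d c P) : Bd d c (-P) := by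
  have := hP.smul (-1)
  simpa using this

theorem Bd.sub (hP : Bd d c P) (hQ : Bd d c' Q) : Bd d (c + c') (P - Q) := by
  rw [sub_eq_add_neg]
  exact hP.add hQ.neg

theorem Bd.sum {κ : Type*} (s : Finset κ) (c : κ → ℝ) (P : κ → R n)
    (h : ∀ k ∈ s, Bd d (c k) (P k)) : Bd d (∑ k ∈ s, c k) (∑ k ∈ s, P k) := by
  classical
  induction s using Finset.induction_on with
  | empty => simpa using Bd.zero (d := d) le_rfl
  | insert k s hk ih =>
    rw [Finset.sum_insert hk, Finset.sum_insert hk]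
    exact (h k (Finset.mem_insert_self _ _)).add
      (ih fun j hj => h j (Finset.mem_insert_of_mem hj))

theorem Bd.star (hP : Bd d c P) : Bd d c (star P) := by
  obtain ⟨a, h1, h3, h2⟩ := hP
  refine ⟨fun S => Star.star (a S), ?_, ?_, ?_⟩
  · intro S hS
    simp [h1 S hS]
  · simpa using h3
  · rw [h2, star_sum]
    refine Finset.sum_congr rfl fun S _ => ?_
    rw [star_smul, star_mono]

theorem Bd.cj (hP : Bd d c P) (b : Bool) : Bd d c (cj b P) := by
  cases b
  · exact hP
  · exact hP.star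

theorem Bd.mul (hP : Bd d c P) (hQ : Bd e c' Q) : Bd (d + e) (c * c') (P * Q) := by
  obtain ⟨a, h1, h3, h2⟩ := hP
  obtain ⟨b, k1, k3, k2⟩ := hQ
  have hPQ : P * Q = ∑ S, ∑ T, (a S * b T) • R300U.mono (S ∪ T) := by
    rw [h2, k2, Finset.sum_mul]
    refine Finset.sum_congr rfl fun S _ => ?_
    rw [Finset.mul_sum]
    refine Finset.sum_congr rfl fun T _ => ?_
    rw [smul_mul_smul_comm, mono_mul_mono]
  rw [hPQ]
  have hterm : ∀ S T, Bd (d + e) (‖a S‖ * ‖b T‖) ((a S * b T) • R300U.mono (S ∪ T)) := by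
    intro S T
    by_cases ha : d < S.card
    · simpa [h1 S ha] using Bd.zero (n := n) (d := d + e) le_rfl
    by_cases hb : e < T.card
    · simpa [k1 T hb] using Bd.zero (n := n) (d := d + e) le_rfl
    have := Bd.smul_mono (S := S ∪ T) (d := d + e)
      ((Finset.card_union_le _ _).trans (by omega)) (a S * b T)
    rwa [norm_mul] at this
  have h := Bd.sum Finset.univ _ _ fun S _ => Bd.sum Finset.univ _ _ fun T _ => hterm S T
  refine h.mono_mass ?_
  rw [← Finset.sum_mul_sum]
  exact mul_le_mul h3 k3 (Finset.sum_nonneg fun _ _ => norm_nonneg _)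
    ((Finset.sum_nonneg fun _ _ => norm_nonneg _).trans h3)

theorem Bd.prod {κ : Type*} (s : Finset κ) (d : κ → ℕ) (c : κ → ℝ) (P : κ → R n)
    (h : ∀ k ∈ s, Bd (d k) (c k) (P k)) :
    Bd (∑ k ∈ s, d k) (∏ k ∈ s, c k) (∏ k ∈ s, P k) := by
  classical
  induction s using Finset.induction_on with
  | empty => simpa using Bd.one (n := n) (d := 0)
  | insert k s hk ih =>
    rw [Finset.sum_insert hk, Finset.prod_insert hk, Finset.prod_insert hk]
    exact (h k (Finset.mem_insert_self _ _)).mul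
      (ih fun j hj => h j (Finset.mem_insert_of_mem hj))

theorem Bd.pow (hP : Bd d c P) (k : ℕ) : Bd (k * d) (c ^ k) (P ^ k) := by
  have := Bd.prod (Finset.range k) (fun _ => d) (fun _ => c) (fun _ => P) (fun _ _ => hP)
  simpa using this

theorem Bd.norm_le (hP : Bd d c P) (x : Fin n → Bool) : ‖P x‖ ≤ c := by
  obtain ⟨a, h1, h3, h2⟩ := hP
  rw [h2, Finset.sum_apply]
  refine (norm_sum_le _ _).trans (le_trans (Finset.sum_le_sum fun S _ => ?_) h3)
  rw [Pi.smul_apply, norm_smul]
  exact mul_le_of_le_one_right (norm_nonneg _) (norm_mono_le _ _)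

theorem Bd.dev (hP : Bd d c P) (x : Fin n → Bool) : Bd d (2 * c) (dev x P) := by
  have h := hP.sub ((Bd.cst (d := d) (P x)).mono_mass (hP.norm_le x))
  rw [two_mul]
  exact h

end Bd

/-! ### coefficients -/

section coef

variable {n : ℕ}

/-- the point `1_T`. -/
def ptOf (T : Finset (Fin n)) : Fin n → Bool := fun i => decide (i ∈ T)

theorem mono_ptOf (S T : Finset (Fin n)) : mono S (ptOf T) = if S ⊆ T then (1 : ℂ) else 0 := by
  rw [mono_apply]
  simp only [ptOf, decide_eq_true_eq, Finset.subset_iff]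

/-- `a ↦ ∑ a_S x_S`. -/
noncomputable def monoSum (n : ℕ) : (Finset (Fin n) → ℂ) →ₗ[ℂ] R n :=
  Fintype.linearCombination ℂ (mono : Finset (Fin n) → R n)

theorem monoSum_apply (a : Finset (Fin n) → ℂ) : monoSum n a = ∑ S, a S • mono S := rfl

theorem monoSum_injective (n : ℕ) : Function.Injective (monoSum n) := by
  rw [← LinearMap.ker_eq_bot, LinearMap.ker_eq_bot']
  intro a ha
  have key : ∀ T : Finset (Fin n), a T = 0 := by
    intro T
    induction T using Finset.strongInduction with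
    | H T ih =>
      have h1 := congrFun ha (ptOf T)
      rw [monoSum_apply, Finset.sum_apply] at h1
      simp only [Pi.smul_apply, smul_eq_mul, mono_ptOf, Pi.zero_apply] at h1
      rw [Finset.sum_eq_single T] at h1
      · simpa using h1
      · intro S _ hST
        by_cases hS : S ⊆ T
        · rw [ih S (Finset.ssubset_iff_subset_ne.mpr ⟨hS, hST⟩), zero_mul]
        · rw [if_neg hS, mul_zero]
      · intro h; exact absurd (Finset.mem_univ _) h
  funext T
  exact key T

/-- coefficients of a function of a word. -/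
noncomputable def coefEquiv (n : ℕ) : (Finset (Fin n) → ℂ) ≃ₗ[ℂ] R n :=
  LinearMap.linearEquivOfInjective (monoSum n) (monoSum_injective n) (by
    rw [Module.finrank_fintype_fun_eq_card, Module.finrank_fintype_fun_eq_card]
    simp)

/-- the coefficient of `x_S` in `P`. -/
noncomputable def coef (P : R n) (S : Finset (Fin n)) : ℂ := (coefEquiv n).symm P S

theorem coef_sum_eq (P : R n) : ∑ S, coef P S • mono S = P := by
  have h := (coefEquiv n).apply_symm_apply P
  exact h

theorem coef_monoSum (a : Finset (Fin n) → ℂ) (S : Finset (Fin n)) :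
    coef (∑ T, a T • mono T : R n) S = a S := by
  have h : (∑ T, a T • mono T : R n) = coefEquiv n a := rfl
  rw [h]
  unfold coef
  rw [LinearEquiv.symm_apply_apply]

theorem Bd_iff_coef {d : ℕ} {c : ℝ} {P : R n} :
    Bd d c P ↔ (∀ S, d < S.card → coef P S = 0) ∧ ∑ S, ‖coef P S‖ ≤ c := by
  constructor
  · rintro ⟨a, h1, h2, h3⟩
    subst h3
    simp only [coef_monoSum]
    exact ⟨h1, h2⟩
  · rintro ⟨h1, h2⟩
    exact ⟨coef P, h1, h2, (coef_sum_eq P).symm⟩

/-- the coefficient as a continuous linear functional. -/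
noncomputable def coefCLM (S : Finset (Fin n)) : R n →L[ℂ] ℂ :=
  LinearMap.toContinuousLinearMap ((LinearMap.proj S).comp (coefEquiv n).symm.toLinearMap)

theorem coefCLM_apply (S : Finset (Fin n)) (P : R n) : coefCLM S P = coef P S := rfl

theorem coef_integral {α : Type*} [MeasurableSpace α] {μ : MeasureTheory.Measure α}
    {F : α → R n} (hF : MeasureTheory.Integrable F μ) (S : Finset (Fin n)) :
    coef (∫ y, F y ∂μ) S = ∫ y, coef (F y) S ∂μ := by
  rw [← coefCLM_apply, ← ContinuousLinearMap.integral_comp_comm _ hF]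
  rfl

end coef

/-- Degree `≤ d` is preserved by integrals (no bound on the mass). -/
theorem exists_Bd_integral {n d : ℕ} {α : Type*} [MeasurableSpace α]
    {μ : MeasureTheory.Measure α} {F : α → R n}
    (hdeg : ∀ y, ∃ c, Bd d c (F y)) : ∃ c, Bd d c (∫ y, F y ∂μ) := by
  by_cases hF : MeasureTheory.Integrable F μ
  · refine ⟨∑ S, ‖coef (∫ y, F y ∂μ) S‖, Bd_iff_coef.mpr ⟨fun S hS => ?_, le_rfl⟩⟩
    rw [coef_integral hF]
    have : ∀ y, coef (F y) S = 0 := fun y => by
      obtain ⟨c, hc⟩ := hdeg y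
      exact (Bd_iff_coef.mp hc).1 S hS
    simp only [this, MeasureTheory.integral_zero]
  · rw [MeasureTheory.integral_undef hF]
    exact ⟨0, Bd.zero le_rfl⟩


/-! ### deviation -/

section dev

variable {n : ℕ} (x : Fin n → Bool) (P Q : R n)

theorem dev_apply (y : Fin n → Bool) : dev x P y = P y - P x := rfl

theorem dev_add : dev x (P + Q) = dev x P + dev x Q := by
  funext y; simp only [dev_apply, Pi.add_apply]; ring



theorem dev_smul (z : ℂ) : dev x (z • P) = z • dev x P := by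
  funext y; simp only [dev_apply, Pi.smul_apply, smul_eq_mul]; ring

@[simp] theorem dev_zero : dev x (0 : R n) = 0 := by
  funext y; simp [dev_apply]

@[simp] theorem dev_cst (z : ℂ) : dev x (cst z) = 0 := by
  funext y; simp [dev_apply]

@[simp] theorem dev_one : dev x (1 : R n) = 0 := by
  funext y; simp [dev_apply]

theorem dev_sum {κ : Type*} (s : Finset κ) (P : κ → R n) :
    dev x (∑ k ∈ s, P k) = ∑ k ∈ s, dev x (P k) := by
  funext y
  simp only [dev_apply, Finset.sum_apply, Finset.sum_sub_distrib]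

theorem dev_star : dev x (star P) = star (dev x P) := by
  funext y; simp only [dev_apply, Pi.star_apply, star_sub]


theorem dev_mul : dev x (P * Q) = P * dev x Q + (Q x) • dev x P := by
  funext y
  simp only [dev_apply, Pi.mul_apply, Pi.add_apply, Pi.smul_apply, smul_eq_mul]; ring



end dev

section cj

variable {n : ℕ}

@[simp] theorem cj_false (P : R n) : cj false P = P := rfl
@[simp] theorem cj_true (P : R n) : cj true P = star P := rfl






end cj

namespace PE

variable {n D : ℕ} (E : PE n D)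
variable {d e : ℕ} {c c' : ℝ} {P Q : R n}

theorem N_nonneg (P : R n) : 0 ≤ E.N P := Real.sqrt_nonneg _

theorem L_self_im (P : R n) : (E.L (star P * P)).im = 0 := by
  have h := E.herm (star P * P)
  rw [star_mul, star_star] at h
  have h2 := congrArg Complex.im h
  simp at h2
  linarith

theorem L_self_eq (P : R n) : E.L (star P * P) = ((E.L (star P * P)).re : ℂ) := by
  apply Complex.ext
  · simp
  · simpa using E.L_self_im P

theorem N_sq (hP : Bd D c P) : E.N P ^ 2 = (E.L (star P * P)).re := by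
  unfold N
  rw [Real.sq_sqrt (E.pos P c hP)]

theorem N_star (P : R n) : E.N (star P) = E.N P := by
  unfold N
  rw [star_star, mul_comm]


theorem N_smul (z : ℂ) (P : R n) : E.N (z • P) = ‖z‖ * E.N P := by
  unfold N
  have h : star (z • P) * (z • P) = (star z * z) • (star P * P) := by
    rw [star_smul, smul_mul_smul_comm]
  rw [h, map_smul, smul_eq_mul]
  have h2 : star z * z = ((‖z‖ ^ 2 : ℝ) : ℂ) := by
    have := Complex.conj_mul' z
    simpa using this
  rw [h2, Complex.re_ofReal_mul, Real.sqrt_mul (by positivity), Real.sqrt_sq (norm_nonneg _)]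

theorem N_neg (P : R n) : E.N (-P) = E.N P := by
  have := E.N_smul (-1) P
  simpa using this

@[simp] theorem N_zero : E.N 0 = 0 := by
  unfold N
  simp

@[simp] theorem N_one : E.N 1 = 1 := by
  unfold N
  simp [E.one]

@[simp] theorem N_cst (z : ℂ) : E.N (cst z) = ‖z‖ := by
  rw [cst_eq_smul, E.N_smul, E.N_one, mul_one]

/-- Cauchy-Schwarz. -/
theorem cauchy (hP : Bd D c P) (hQ : Bd D c' Q) : ‖E.L (star P * Q)‖ ≤ E.N P * E.N Q := by
  set z := E.L (star P * Q) with hz
  have key : ∀ t : ℝ, 0 ≤ E.N P ^ 2 * t ^ 2 - 2 * t * ‖z‖ + E.N Q ^ 2 := by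
    intro t
    obtain ⟨w, hw1, hw2⟩ : ∃ w : ℂ, ‖w‖ = 1 ∧ star w * z = (‖z‖ : ℂ) := by
      by_cases h0 : z = 0
      · exact ⟨1, by simp, by simp [h0]⟩
      · refine ⟨z / ‖z‖, ?_, ?_⟩
        · rw [norm_div]
          simp [h0]
        · have hne : (‖z‖ : ℂ) ≠ 0 := by
            simpa using h0
          have h5 : star z * z = (‖z‖ : ℂ) ^ 2 := by
            have := Complex.conj_mul' z
            simpa using this
          have h6 : star (z / (‖z‖ : ℂ)) = star z / (‖z‖ : ℂ) := by
            simp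
          rw [h6, div_mul_eq_mul_div, h5]
          field_simp
    set R : R n := ((t : ℂ) * w) • P - Q with hR
    have hRdeg := (hP.smul ((t : ℂ) * w)).sub hQ
    have hpos := E.pos R _ hRdeg
    have e1 : star R * R = (star ((t : ℂ) * w) * ((t : ℂ) * w)) • (star P * P)
        - (star ((t : ℂ) * w)) • (star P * Q) - ((t : ℂ) * w) • (star Q * P) + star Q * Q := by
      rw [hR]
      simp only [star_sub, star_smul]
      funext x
      simp only [Pi.mul_apply, Pi.sub_apply, Pi.add_apply, Pi.smul_apply, Pi.star_apply,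
        smul_eq_mul]
      ring
    have e2 : E.L (star Q * P) = star z := by
      rw [hz, ← E.herm, star_mul, star_star]
    rw [e1, map_add, map_sub, map_sub, map_smul, map_smul, map_smul, e2, ← hz, E.L_self_eq P,
      E.L_self_eq Q, ← E.N_sq hP, ← E.N_sq hQ] at hpos
    have e3 : star ((t : ℂ) * w) * ((t : ℂ) * w) = ((t ^ 2 : ℝ) : ℂ) := by
      have h7 : star w * w = 1 := by
        have := Complex.conj_mul' w
        rw [hw1] at this
        simpa using this
      have h8 : star ((t : ℂ) * w) = (t : ℂ) * star w := by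
        simp
      rw [h8]
      calc (t : ℂ) * star w * ((t : ℂ) * w) = (t : ℂ) ^ 2 * (star w * w) := by ring
        _ = _ := by rw [h7]; push_cast; ring
    have e4 : star ((t : ℂ) * w) * z = ((t * ‖z‖ : ℝ) : ℂ) := by
      have h8 : star ((t : ℂ) * w) = (t : ℂ) * star w := by
        simp
      rw [h8, mul_assoc, hw2]
      push_cast
      ring
    have e5 : (t : ℂ) * w * star z = ((t * ‖z‖ : ℝ) : ℂ) := by
      have := congrArg star e4
      rw [star_mul, star_star] at this
      rw [mul_comm, this]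
      simp
    simp only [smul_eq_mul] at hpos
    rw [e3, e4, e5] at hpos
    simp only [Complex.add_re, Complex.sub_re, ← Complex.ofReal_mul, Complex.ofReal_re] at hpos
    nlinarith
  have hd := discrim_le_zero (a := E.N P ^ 2) (b := -(2 * ‖z‖)) (c := E.N Q ^ 2) (by
    intro t
    have := key t
    nlinarith)
  unfold discrim at hd
  have h9 : ‖z‖ ^ 2 ≤ (E.N P * E.N Q) ^ 2 := by nlinarith
  exact le_of_sq_le_sq h9 (mul_nonneg (E.N_nonneg _) (E.N_nonneg _))

theorem N_add_le (hP : Bd D c P) (hQ : Bd D c' Q) : E.N (P + Q) ≤ E.N P + E.N Q := by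
  have h1 : E.N (P + Q) ^ 2 ≤ (E.N P + E.N Q) ^ 2 := by
    rw [E.N_sq (hP.add hQ)]
    have e1 : star (P + Q) * (P + Q) = star P * P + star P * Q + star Q * P + star Q * Q := by
      rw [star_add]; ring
    rw [e1, map_add, map_add, map_add]
    simp only [Complex.add_re]
    rw [← E.N_sq hP, ← E.N_sq hQ]
    have h2 := (Complex.re_le_norm (E.L (star P * Q))).trans (E.cauchy hP hQ)
    have h3 := (Complex.re_le_norm (E.L (star Q * P))).trans (E.cauchy hQ hP)
    nlinarith
  exact le_of_sq_le_sq h1 (add_nonneg (E.N_nonneg _) (E.N_nonneg _))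

theorem N_sub_le (hP : Bd D c P) (hQ : Bd D c' Q) : E.N (P - Q) ≤ E.N P + E.N Q := by
  rw [sub_eq_add_neg]
  refine (E.N_add_le hP hQ.neg).trans ?_
  rw [E.N_neg]


theorem N_sum_le {κ : Type*} (s : Finset κ) (c : κ → ℝ) (P : κ → R n)
    (h : ∀ k ∈ s, Bd D (c k) (P k)) :
    E.N (∑ k ∈ s, P k) ≤ ∑ k ∈ s, E.N (P k) := by
  classical
  induction s using Finset.induction_on with
  | empty => simp [E.N_zero]
  | insert k s hk ih =>
    rw [Finset.sum_insert hk, Finset.sum_insert hk]
    have h1 := fun j hj => h j (Finset.mem_insert_of_mem (a := j) (b := k) hj)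
    exact (E.N_add_le (h k (Finset.mem_insert_self _ _)) (Bd.sum s c P h1)).trans
      (add_le_add le_rfl (ih h1))

theorem norm_L_le (hP : Bd D c P) : ‖E.L P‖ ≤ E.N P := by
  have := E.cauchy (Bd.one (d := D)) hP
  rw [star_one, one_mul, E.N_one, one_mul] at this
  exact this

/-- Lemma M: multiplication by a monomial is a contraction. -/
theorem N_mono_mul_le {S : Finset (Fin n)} (hP : Bd d c P) (hd : S.card + d ≤ D) :
    E.N (mono S * P) ≤ E.N P := by
  have hPD : Bd D c P := hP.mono_deg (le_trans (Nat.le_add_left _ _) hd)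
  have h1 : Bd D (1 * c) (mono S * P) := ((Bd.of_mono le_rfl).mul hP).mono_deg hd
  have h2 : Bd D ((1 + 1) * c) ((1 - mono S) * P) :=
    (((Bd.one (d := S.card)).sub (Bd.of_mono le_rfl)).mul hP).mono_deg hd
  have h4 : E.N (mono S * P) ^ 2 ≤ E.N P ^ 2 := by
    rw [E.N_sq h1, E.N_sq hPD]
    have hpos := E.pos _ _ h2
    have e1 : star ((1 - mono S) * P) * ((1 - mono S) * P) =
        star P * P - star (mono S * P) * (mono S * P) := by
      simp only [star_mul', star_sub, star_one, star_mono]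
      have := mono_mul_self S
      calc (1 - mono S) * star P * ((1 - mono S) * P)
          = star P * P * (1 - 2 * mono S + mono S * mono S) := by ring
        _ = star P * P * (1 - 2 * (mono S * mono S) + mono S * mono S) := by rw [this]
        _ = _ := by ring
    rw [e1, map_sub, Complex.sub_re] at hpos
    linarith
  exact le_of_sq_le_sq h4 (E.N_nonneg _)

/-- multiplication by a polynomial of mass `c` has norm `≤ c`. -/
theorem N_mul_le (hQ : Bd d c Q) (hP : Bd e c' P) (hd : d + e ≤ D) :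
    E.N (Q * P) ≤ c * E.N P := by
  obtain ⟨a, h1, h3, h2⟩ := hQ
  have hterm : ∀ S : Finset (Fin n), Bd D (‖a S‖ * (1 * c')) (a S • (mono S * P)) ∧
      E.N (a S • (mono S * P)) ≤ ‖a S‖ * E.N P := by
    intro S
    by_cases ha : d < S.card
    · rw [h1 S ha, zero_smul, E.N_zero]
      exact ⟨by simpa using Bd.zero (n := n) (d := D) le_rfl, by simp⟩
    · have hcard : S.card ≤ d := by omega
      refine ⟨(((Bd.of_mono hcard).mul hP).mono_deg hd).smul _, ?_⟩
      rw [E.N_smul]
      exact mul_le_mul_of_nonneg_left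
        (E.N_mono_mul_le hP (le_trans (Nat.add_le_add_right hcard _) hd)) (norm_nonneg _)
  have e1 : Q * P = ∑ S, a S • (mono S * P) := by
    rw [h2, Finset.sum_mul]
    exact Finset.sum_congr rfl fun S _ => by rw [smul_mul_assoc]
  rw [e1]
  refine (E.N_sum_le _ _ _ fun S _ => (hterm S).1).trans ?_
  refine (Finset.sum_le_sum fun S _ => (hterm S).2).trans ?_
  rw [← Finset.sum_mul]
  exact mul_le_mul_of_nonneg_right h3 (E.N_nonneg _)

theorem N_mul_le_right (hP : Bd e c' P) (hQ : Bd d c Q) (hd : e + d ≤ D) :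
    E.N (P * Q) ≤ c * E.N P := by
  rw [mul_comm]
  exact E.N_mul_le hQ hP (by omega)

theorem N_le_of_Bd (hQ : Bd d c Q) (hd : d ≤ D) : E.N Q ≤ c := by
  have := E.N_mul_le hQ (Bd.one (d := 0)) (by simpa using hd)
  rwa [mul_one, E.N_one, mul_one] at this



/-- The seminorm of an integral is at most the integral of the seminorm. -/
theorem N_integral_le {α : Type*} [MeasurableSpace α] {μ : MeasureTheory.Measure α}
    {F : α → R n} (hF : MeasureTheory.Integrable F μ) (hdeg : ∀ y, ∃ c, Bd D c (F y))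
    {g : α → ℝ} (hg : MeasureTheory.Integrable g μ) (hle : ∀ᵐ y ∂μ, E.N (F y) ≤ g y) :
    E.N (∫ y, F y ∂μ) ≤ ∫ y, g y ∂μ := by
  set Q : R n := ∫ y, F y ∂μ with hQ
  obtain ⟨c0, hc0⟩ : ∃ c, Bd D c Q := exists_Bd_integral hdeg
  have hg0 : 0 ≤ ∫ y, g y ∂μ := by
    refine MeasureTheory.integral_nonneg_of_ae ?_
    filter_upwards [hle] with y hy
    exact (E.N_nonneg _).trans hy
  let T : R n →ₗ[ℂ] ℂ := E.L.comp (LinearMap.mulLeft ℂ (star Q))
  have hT : ∀ P, (LinearMap.toContinuousLinearMap T) P = E.L (star Q * P) := fun _ => rfl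
  have h1 : E.L (star Q * Q) = ∫ y, E.L (star Q * F y) ∂μ := by
    have h := ContinuousLinearMap.integral_comp_comm (LinearMap.toContinuousLinearMap T) hF
    rw [← hQ] at h
    exact h.symm
  have h2 : ‖∫ y, E.L (star Q * F y) ∂μ‖ ≤ ∫ y, E.N Q * g y ∂μ := by
    refine MeasureTheory.norm_integral_le_of_norm_le (hg.const_mul _) ?_
    filter_upwards [hle] with y hy
    obtain ⟨c, hc⟩ := hdeg y
    exact (E.cauchy hc0 hc).trans (mul_le_mul_of_nonneg_left hy (E.N_nonneg _))
  rw [MeasureTheory.integral_const_mul, ← h1, E.L_self_eq, ← E.N_sq hc0, Complex.norm_real,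
    Real.norm_of_nonneg (sq_nonneg _)] at h2
  rcases (E.N_nonneg Q).eq_or_lt with h0 | h0
  · rw [← h0]; exact hg0
  · have : E.N Q * E.N Q ≤ E.N Q * ∫ y, g y ∂μ := by rw [← sq]; exact h2
    exact le_of_mul_le_mul_left this h0

end PE

/-- `dev` commutes with integrals. -/
theorem dev_integral {n : ℕ} (x : Fin n → Bool) {α : Type*} [MeasurableSpace α]
    {μ : MeasureTheory.Measure α} {F : α → R n} (hF : MeasureTheory.Integrable F μ) :
    dev x (∫ y, F y ∂μ) = ∫ y, dev x (F y) ∂μ := by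
  let T : R n →ₗ[ℂ] R n :=
    { toFun := dev x
      map_add' := fun P Q => dev_add x P Q
      map_smul' := fun z P => dev_smul x P z }
  have h := ContinuousLinearMap.integral_comp_comm (LinearMap.toContinuousLinearMap T) hF
  exact h.symm

/-! ### known polynomials -/

/-- `P` (of degree `≤ d`) is known: its deviation is null, also after multiplication by
polynomials (within the total degree `D`). -/
def Kn {n D : ℕ} (E : PE n D) (x : Fin n → Bool) (d : ℕ) (P : R n) : Prop :=
  (∃ c, Bd d c P) ∧ ∀ (e : ℕ) (c' : ℝ) (Q : R n), d + e ≤ D → Bd e c' Q → E.N (dev x P * Q) = 0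

section Kn

variable {n D : ℕ} {E : PE n D} {x : Fin n → Bool} {d e t : ℕ} {P Q : R n}

theorem Kn.N_dev (h : Kn E x d P) (hd : d ≤ D) : E.N (dev x P) = 0 := by
  have := h.2 0 1 1 (by simpa using hd) Bd.one
  rwa [mul_one] at this

theorem Kn.mono (h : Kn E x d P) (hd : d ≤ e) : Kn E x e P :=
  ⟨h.1.imp fun _ hc => hc.mono_deg hd, fun f c' Q hf hQ => h.2 f c' Q (by omega) hQ⟩

theorem Kn.cst (z : ℂ) : Kn E x d (cst z) :=
  ⟨⟨_, Bd.cst z⟩, fun f c' Q _ _ => by rw [dev_cst, zero_mul, E.N_zero]⟩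

theorem Kn.one : Kn E x d (1 : R n) := by
  have := Kn.cst (E := E) (x := x) (d := d) 1
  simpa using this

theorem Kn.zero : Kn E x d (0 : R n) := by
  have := Kn.cst (E := E) (x := x) (d := d) 0
  simpa using this

theorem Kn.add (hP : Kn E x d P) (hQ : Kn E x d Q) : Kn E x d (P + Q) := by
  obtain ⟨⟨c, hc⟩, h1⟩ := hP
  obtain ⟨⟨c', hc'⟩, h2⟩ := hQ
  refine ⟨⟨_, hc.add hc'⟩, fun f k T hf hT => ?_⟩
  rw [dev_add, add_mul]
  refine le_antisymm ?_ (E.N_nonneg _)
  refine (E.N_add_le (((hc.dev x).mul hT).mono_deg hf) (((hc'.dev x).mul hT).mono_deg hf)).trans ?_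
  rw [h1 f k T hf hT, h2 f k T hf hT, add_zero]

theorem Kn.smul (hP : Kn E x d P) (z : ℂ) : Kn E x d (z • P) := by
  obtain ⟨⟨c, hc⟩, h1⟩ := hP
  refine ⟨⟨_, hc.smul z⟩, fun f k T hf hT => ?_⟩
  rw [dev_smul, smul_mul_assoc, E.N_smul, h1 f k T hf hT, mul_zero]

theorem Kn.neg (hP : Kn E x d P) : Kn E x d (-P) := by
  have := hP.smul (-1)
  simpa using this

theorem Kn.sub (hP : Kn E x d P) (hQ : Kn E x d Q) : Kn E x d (P - Q) := by
  rw [sub_eq_add_neg]; exact hP.add hQ.neg

theorem Kn.sum {κ : Type*} (s : Finset κ) (P : κ → R n) (h : ∀ k ∈ s, Kn E x d (P k)) :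
    Kn E x d (∑ k ∈ s, P k) := by
  classical
  induction s using Finset.induction_on with
  | empty => simpa using Kn.zero (E := E) (x := x) (d := d)
  | insert k s hk ih =>
    rw [Finset.sum_insert hk]
    exact (h k (Finset.mem_insert_self _ _)).add
      (ih fun j hj => h j (Finset.mem_insert_of_mem hj))

theorem Kn.star (hP : Kn E x d P) : Kn E x d (star P) := by
  obtain ⟨⟨c, hc⟩, h1⟩ := hP
  refine ⟨⟨_, hc.star⟩, fun f k T hf hT => ?_⟩
  have h2 : dev x (Star.star P) * T = Star.star (dev x P * Star.star T) := by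
    rw [dev_star, star_mul', star_star]
  rw [h2, E.N_star]
  exact h1 f k _ hf hT.star

theorem Kn.cj (hP : Kn E x d P) (b : Bool) : Kn E x d (cj b P) := by
  cases b
  · exact hP
  · exact hP.star

theorem Kn.mul (hP : Kn E x d P) (hQ : Kn E x e Q) : Kn E x (d + e) (P * Q) := by
  obtain ⟨⟨c, hc⟩, h1⟩ := hP
  obtain ⟨⟨c', hc'⟩, h2⟩ := hQ
  refine ⟨⟨_, hc.mul hc'⟩, fun f k T hf hT => ?_⟩
  have e1 : dev x (P * Q) * T = dev x Q * (P * T) + (Q x) • (dev x P * T) := by
    rw [dev_mul]
    funext y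
    simp only [Pi.mul_apply, Pi.add_apply, Pi.smul_apply, smul_eq_mul]
    ring
  rw [e1]
  have hk1 : Bd D (2 * c' * (c * k)) (dev x Q * (P * T)) :=
    ((hc'.dev x).mul (hc.mul hT)).mono_deg (by omega)
  have hk2 : Bd D (‖Q x‖ * (2 * c * k)) ((Q x) • (dev x P * T)) :=
    (((hc.dev x).mul hT).smul _).mono_deg (by omega)
  refine le_antisymm ?_ (E.N_nonneg _)
  refine (E.N_add_le hk1 hk2).trans ?_
  rw [h2 (d + f) _ _ (by omega) (hc.mul hT), E.N_smul, h1 f k T (by omega) hT]
  simp

theorem Kn.prod {κ : Type*} (s : Finset κ) (d : κ → ℕ) (P : κ → R n)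
    (h : ∀ k ∈ s, Kn E x (d k) (P k)) : Kn E x (∑ k ∈ s, d k) (∏ k ∈ s, P k) := by
  classical
  induction s using Finset.induction_on with
  | empty => simpa using Kn.one (E := E) (x := x) (d := 0)
  | insert k s hk ih =>
    rw [Finset.sum_insert hk, Finset.prod_insert hk]
    exact (h k (Finset.mem_insert_self _ _)).mul
      (ih fun j hj => h j (Finset.mem_insert_of_mem hj))

theorem Kn.xv (h : Prefix E x t) {u : ℕ} (hu : u < t) : Kn E x 1 (xv u : R n) := by
  refine ⟨⟨_, Bd.xv u le_rfl⟩, fun f k T hf hT => ?_⟩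
  refine le_antisymm ?_ (E.N_nonneg _)
  have := E.N_mul_le_right ((Bd.xv (n := n) u le_rfl).dev x) hT hf
  rwa [h u hu, mul_zero] at this


end Kn

/-! ### Gaussian sums -/

/-- `∑_{u ∈ s} exp(-τ (u-a)²/2) ≤ 1 + sqrt (2π/τ)` for every finite set of naturals. -/
theorem gauss_sum_le {τ : ℝ} (hτ : 0 < τ) (a : ℝ) (s : Finset ℕ) :
    ∑ u ∈ s, Real.exp (-(τ * ((u : ℝ) - a) ^ 2 / 2)) ≤ Wt τ := by
  set g : ℝ → ℝ := fun x => Real.exp (-(τ * (x - a) ^ 2 / 2)) with hg
  have hg0 : ∀ x, 0 < g x := fun x => Real.exp_pos _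
  have hg1 : ∀ x, g x ≤ 1 := fun x => by
    rw [hg]; apply Real.exp_le_one_iff.mpr; have := mul_nonneg hτ.le (sq_nonneg (x - a)); linarith
  have hmono : ∀ x y, x ≤ y → y ≤ a → g x ≤ g y := by
    intro x y hxy hya
    apply Real.exp_le_exp.mpr
    have : (y - a) ^ 2 ≤ (x - a) ^ 2 := by nlinarith
    have := mul_le_mul_of_nonneg_left this hτ.le
    linarith
  have hanti : ∀ x y, a ≤ x → x ≤ y → g y ≤ g x := by
    intro x y hax hxy
    apply Real.exp_le_exp.mpr
    have : (x - a) ^ 2 ≤ (y - a) ^ 2 := by nlinarith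
    have := mul_le_mul_of_nonneg_left this hτ.le
    linarith
  have hcont : Continuous g := by rw [hg]; fun_prop
  have hgi : MeasureTheory.Integrable g := by
    have h := (integrable_exp_neg_mul_sq (b := τ / 2) (by positivity)).comp_sub_right a
    refine h.congr (Filter.Eventually.of_forall fun x => ?_)
    simp only [hg]
    congr 1
    ring
  have hgint : ∫ x, g x = Real.sqrt (2 * Real.pi / τ) := by
    have h1 : ∫ x, g x = ∫ x : ℝ, Real.exp (-(τ / 2) * x ^ 2) := by
      rw [← MeasureTheory.integral_sub_right_eq_self (fun x : ℝ => Real.exp (-(τ / 2) * x ^ 2)) a]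
      congr 1
      funext x
      simp only [hg]
      congr 1
      ring
    rw [h1, integral_gaussian]
    congr 1
    field_simp
  have hii : ∀ u v : ℝ, IntervalIntegrable g MeasureTheory.volume u v := fun u v =>
    hcont.intervalIntegrable u v
  have hle_all : ∀ u v : ℝ, u ≤ v → ∫ x in u..v, g x ≤ Real.sqrt (2 * Real.pi / τ) := by
    intro u v huv
    rw [intervalIntegral.integral_of_le huv, ← hgint]
    exact MeasureTheory.setIntegral_le_integral hgi
      (Filter.Eventually.of_forall fun x => (hg0 x).le)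
  -- enlarge `s` to a range
  set m : ℕ := ⌊a⌋₊ with hm
  obtain ⟨N, hN⟩ : ∃ N, s ⊆ Finset.range (m + 2 + N) := by
    refine ⟨s.sup id + 1, fun u hu => ?_⟩
    have := Finset.le_sup (f := id) hu
    simp only [id] at this
    rw [Finset.mem_range]; omega
  refine (Finset.sum_le_sum_of_subset_of_nonneg hN fun _ _ _ => (Real.exp_pos _).le).trans ?_
  change ∑ u ∈ Finset.range (m + 2 + N), g u ≤ 1 + Real.sqrt (2 * Real.pi / τ)
  rcases lt_or_ge a 0 with ha | ha
  · -- antitone everywhere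
    have h1 : ∑ u ∈ Finset.range (m + 2 + N), g u =
        ∑ i ∈ Finset.range (m + 1 + N), g ((0 : ℝ) + ((i + 1 : ℕ) : ℝ)) + g 0 := by
      have : m + 2 + N = (m + 1 + N) + 1 := by ring
      rw [this, Finset.sum_range_succ']
      simp
    have h2 := AntitoneOn.sum_le_integral (f := g) (x₀ := 0) (a := m + 1 + N) (by
      intro x hx y hy hxy
      exact hanti x y (by linarith [hx.1]) hxy)
    rw [h1]
    have h3 := hle_all 0 ((0 : ℝ) + ((m + 1 + N : ℕ) : ℝ)) (by positivity)
    linarith [hg1 0]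
  · have hma : (m : ℝ) ≤ a := Nat.floor_le ha
    have ham : a < (m : ℝ) + 1 := Nat.lt_floor_add_one a
    have h1 : ∑ u ∈ Finset.range (m + 2 + N), g u =
        ∑ u ∈ Finset.range m, g ((0 : ℝ) + u) + g m + g (m + 1) +
          ∑ i ∈ Finset.range N, g (((m : ℝ) + 1) + ((i + 1 : ℕ) : ℝ)) := by
      rw [Finset.sum_range_add, Finset.sum_range_succ, Finset.sum_range_succ]
      congr 1
      · simp
      · refine Finset.sum_congr rfl fun i _ => ?_
        congr 1
        push_cast
        ring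
    have h2 := MonotoneOn.sum_le_integral (f := g) (x₀ := 0) (a := m) (by
      intro x hx y hy hxy
      exact hmono x y hxy (by
        have := hy.2
        linarith))
    have h3 := AntitoneOn.sum_le_integral (f := g) (x₀ := (m : ℝ) + 1) (a := N) (by
      intro x hx y hy hxy
      exact hanti x y (by linarith [hx.1]) hxy)
    have h4 : g m + g (m + 1) ≤ 1 + ∫ x in (m : ℝ)..((m : ℝ) + 1), g x := by
      have h5 : min (g m) (g (m + 1)) ≤ ∫ x in (m : ℝ)..((m : ℝ) + 1), g x := by
        have h6 : ∫ x in (m : ℝ)..((m : ℝ) + 1), min (g m) (g (m + 1)) ≤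
            ∫ x in (m : ℝ)..((m : ℝ) + 1), g x := by
          apply intervalIntegral.integral_mono_on (by linarith) (by simp) (hii _ _)
          intro x hx
          rcases le_total x a with hxa | hxa
          · exact (min_le_left _ _).trans (hmono _ _ hx.1 hxa)
          · exact (min_le_right _ _).trans (hanti _ _ hxa hx.2)
        simpa using h6
      have h7 := min_add_max (g m) (g (m + 1))
      have h8 : max (g m) (g (m + 1)) ≤ 1 := max_le (hg1 _) (hg1 _)
      linarith
    have h9 : (∫ x in (0 : ℝ)..(0 + (m : ℝ)), g x) + (∫ x in (m : ℝ)..((m : ℝ) + 1), g x) +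
        (∫ x in ((m : ℝ) + 1)..((m : ℝ) + 1 + (N : ℝ)), g x) ≤ Real.sqrt (2 * Real.pi / τ) := by
      rw [zero_add, intervalIntegral.integral_add_adjacent_intervals (hii _ _) (hii _ _),
        intervalIntegral.integral_add_adjacent_intervals (hii _ _) (hii _ _)]
      exact hle_all _ _ (by positivity)
    rw [h1]
    linarith

theorem Wt_pos {τ : ℝ} : 0 < Wt τ := by
  unfold Wt; positivity

theorem one_le_Wt {τ : ℝ} : 1 ≤ Wt τ := by
  unfold Wt
  have := Real.sqrt_nonneg (2 * Real.pi / τ)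
  linarith

/-- `∑_{d ∈ s} exp(-τ d²/2 + ρ d) ≤ Wt τ * exp(ρ₊²/(2τ))`. -/
theorem gauss_tilt_sum_le {τ : ℝ} (hτ : 0 < τ) (ρ : ℝ) (s : Finset ℕ) :
    ∑ d ∈ s, Real.exp (-(τ * (d : ℝ) ^ 2 / 2) + ρ * d) ≤
      Wt τ * Real.exp ((max ρ 0) ^ 2 / (2 * τ)) := by
  have h1 : ∀ d ∈ s, Real.exp (-(τ * (d : ℝ) ^ 2 / 2) + ρ * d) ≤
      Real.exp (-(τ * ((d : ℝ) - max ρ 0 / τ) ^ 2 / 2)) *
        Real.exp ((max ρ 0) ^ 2 / (2 * τ)) := by
    intro d _
    rw [← Real.exp_add]
    apply Real.exp_le_exp.mpr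
    have h2 : ρ * (d : ℝ) ≤ max ρ 0 * d :=
      mul_le_mul_of_nonneg_right (le_max_left _ _) (Nat.cast_nonneg _)
    have h3 : -(τ * ((d : ℝ) - max ρ 0 / τ) ^ 2 / 2) + (max ρ 0) ^ 2 / (2 * τ) =
        -(τ * (d : ℝ) ^ 2 / 2) + max ρ 0 * d := by
      field_simp
      ring
    rw [h3]
    linarith
  refine (Finset.sum_le_sum h1).trans ?_
  rw [← Finset.sum_mul]
  exact mul_le_mul_of_nonneg_right (gauss_sum_le hτ _ s) (Real.exp_pos _).le

/-! ### composite functionals -/


theorem one_le_nrm {c : Code} (hc : ∀ nd ∈ c, 0 < nd.τ ∧ 1 ≤ nd.k) : 1 ≤ nrm c := by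
  induction c with
  | nil => exact le_rfl
  | cons nd c ih =>
    have h1 := hc nd List.mem_cons_self
    have h2 := ih fun nd' h => hc nd' (List.mem_cons_of_mem _ h)
    have hk : (1 : ℝ) ≤ nd.k := by exact_mod_cast h1.2
    have e1 : 1 ≤ (1 + Real.sqrt (2 * Real.pi / nd.τ)) ^ (nd.k - 1) :=
      one_le_pow₀ (by have := Real.sqrt_nonneg (2 * Real.pi / nd.τ); linarith)
    have e2 : 1 ≤ Real.exp ((nd.k - 1) * (max nd.ρ 0) ^ 2 / (2 * nd.τ)) := by
      apply Real.one_le_exp
      have := h1.1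
      have : 0 ≤ (nd.k : ℝ) - 1 := by linarith
      positivity
    have e3 : 1 ≤ nrm c ^ nd.k := one_le_pow₀ h2
    change 1 ≤ (nd.k : ℝ) * (1 + Real.sqrt (2 * Real.pi / nd.τ)) ^ (nd.k - 1) *
      Real.exp ((nd.k - 1) * (max nd.ρ 0) ^ 2 / (2 * nd.τ)) * nrm c ^ nd.k
    exact one_le_mul_of_one_le_of_one_le
      (one_le_mul_of_one_le_of_one_le (one_le_mul_of_one_le_of_one_le hk e1) e2) e3

theorem nrm_pos {c : Code} (hc : ∀ nd ∈ c, 0 < nd.τ ∧ 1 ≤ nd.k) : 0 < nrm c :=
  lt_of_lt_of_le one_pos (one_le_nrm hc)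

theorem nrm_cons_eq (nd : Node) (c : Code) : nrm (nd :: c) =
    nd.k * Wt nd.τ ^ (nd.k - 1) *
      Real.exp ((nd.k - 1) * (max nd.ρ 0) ^ 2 / (2 * nd.τ)) * nrm c ^ nd.k := rfl

theorem val_nil {n : ℕ} (M : ℕ) : (val [] M : R n) = xv M := by
  simp only [val]

/-- tuples of delays with minimum `0`: the sum of a product weight. -/
theorem sum_min_zero_le {k : ℕ} (g : ℕ → ℝ) (hg : ∀ d, 0 ≤ g d) (hg0 : g 0 = 1)
    (s : Finset ℕ) :
    ∑ d ∈ (Fintype.piFinset (fun _ : Fin k => s)).filter (fun d => ∃ a, d a = 0),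
      ∏ a : Fin k, g (d a) ≤ k * (∑ d ∈ s, g d) ^ (k - 1) := by
  classical
  have h1 : ∑ d ∈ (Fintype.piFinset (fun _ : Fin k => s)).filter (fun d => ∃ a, d a = 0),
      ∏ a : Fin k, g (d a) ≤ ∑ d ∈ Fintype.piFinset (fun _ : Fin k => s),
        ∑ a0 : Fin k, if d a0 = 0 then ∏ a : Fin k, g (d a) else 0 := by
    rw [Finset.sum_filter]
    refine Finset.sum_le_sum fun d _ => ?_
    have hnn : ∀ a0 ∈ (Finset.univ : Finset (Fin k)),
        0 ≤ (if d a0 = 0 then ∏ a : Fin k, g (d a) else 0) := by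
      intro a0 _
      split_ifs
      · exact Finset.prod_nonneg fun _ _ => hg _
      · exact le_rfl
    split_ifs with h
    · obtain ⟨a0, ha0⟩ := h
      have := Finset.single_le_sum hnn (Finset.mem_univ a0)
      rw [if_pos ha0] at this
      exact this
    · exact Finset.sum_nonneg hnn
  refine h1.trans ?_
  rw [Finset.sum_comm]
  have h2 : ∀ a0 : Fin k, ∑ d ∈ Fintype.piFinset (fun _ : Fin k => s),
      (if d a0 = 0 then ∏ a : Fin k, g (d a) else 0) ≤ (∑ d ∈ s, g d) ^ (k - 1) := by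
    intro a0
    rw [← Finset.sum_filter]
    have hsub : (Fintype.piFinset (fun _ : Fin k => s)).filter (fun d => d a0 = 0) ⊆
        Fintype.piFinset (Function.update (fun _ : Fin k => s) a0 {0}) := by
      intro d hd
      rw [Finset.mem_filter, Fintype.mem_piFinset] at hd
      obtain ⟨hd1, ha0⟩ := hd
      rw [Fintype.mem_piFinset]
      intro a
      by_cases h : a = a0
      · subst h; simp [ha0]
      · simp [Function.update_of_ne h, hd1 a]
    refine (Finset.sum_le_sum_of_subset_of_nonneg hsub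
      fun _ _ _ => Finset.prod_nonneg fun _ _ => hg _).trans ?_
    rw [← Finset.prod_univ_sum]
    rw [← Finset.mul_prod_erase _ _ (Finset.mem_univ a0)]
    rw [Function.update_self, Finset.sum_singleton, hg0, one_mul]
    have h3 : ∀ a ∈ (Finset.univ : Finset (Fin k)).erase a0,
        ∑ j ∈ Function.update (fun _ : Fin k => s) a0 {0} a, g j = ∑ d ∈ s, g d := by
      intro a ha
      rw [Function.update_of_ne (Finset.ne_of_mem_erase ha)]
    rw [Finset.prod_congr rfl h3, Finset.prod_const, Finset.card_erase_of_mem (Finset.mem_univ _),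
      Finset.card_univ, Fintype.card_fin]
  refine (Finset.sum_le_sum fun a0 _ => h2 a0).trans ?_
  simp

theorem norm_node_exp (τ ρ f d : ℝ) :
    ‖Complex.exp (-(τ * d ^ 2 / 2 : ℝ) + ((ρ : ℂ) + Complex.I * f) * (d : ℂ))‖ =
      Real.exp (-(τ * d ^ 2 / 2) + ρ * d) := by
  rw [Complex.norm_exp]
  congr 1
  rw [Complex.add_re, ← Complex.ofReal_neg, Complex.ofReal_re, Complex.re_mul_ofReal]
  simp

/-- degree and mass of a composite functional. -/
theorem val_Bd {n : ℕ} {c : Code} (hc : ∀ nd ∈ c, 0 < nd.τ ∧ 1 ≤ nd.k) (M : ℕ) :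
    Bd (leaves c) (nrm c) (val c M : R n) := by
  induction c generalizing M with
  | nil =>
    rw [val_nil]
    exact Bd.xv M le_rfl
  | cons nd c ih =>
    have hnd := hc nd List.mem_cons_self
    have hc' : ∀ nd ∈ c, 0 < nd.τ ∧ 1 ≤ nd.k := fun nd' h => hc nd' (List.mem_cons_of_mem _ h)
    have hterm : ∀ d ∈ (Fintype.piFinset (fun _ : Fin nd.k => Finset.range (M + 1))).filter
        (fun d => ∃ a, d a = 0),
        Bd (nd.k * leaves c)
          ((∏ a : Fin nd.k, Real.exp (-(nd.τ * (d a : ℝ) ^ 2 / 2) + nd.ρ * (d a : ℝ))) *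
            nrm c ^ nd.k)
          (∏ a : Fin nd.k,
            (Complex.exp (-(nd.τ * (d a : ℝ) ^ 2 / 2 : ℝ) +
              ((nd.ρ : ℂ) + Complex.I * nd.f a) * (d a : ℂ)) •
              cj (nd.flag a) (val c (M - d a) : R n))) := by
      intro d _
      have h := Bd.prod (Finset.univ : Finset (Fin nd.k)) (fun _ => leaves c)
        (fun a => Real.exp (-(nd.τ * (d a : ℝ) ^ 2 / 2) + nd.ρ * (d a : ℝ)) * nrm c)
        (fun a => (Complex.exp (-(nd.τ * (d a : ℝ) ^ 2 / 2 : ℝ) +
              ((nd.ρ : ℂ) + Complex.I * nd.f a) * (d a : ℂ)) •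
              cj (nd.flag a) (val c (M - d a) : R n))) (fun a _ => by
          have h1 := ((ih hc' (M - d a)).cj (nd.flag a)).smul
            (Complex.exp (-(nd.τ * (d a : ℝ) ^ 2 / 2 : ℝ) +
              ((nd.ρ : ℂ) + Complex.I * nd.f a) * (d a : ℂ)))
          have h2 := norm_node_exp nd.τ nd.ρ (nd.f a) (d a)
          rw [Complex.ofReal_natCast] at h2
          rwa [h2] at h1)
      rw [Finset.prod_mul_distrib, Finset.prod_const, Finset.card_univ, Fintype.card_fin,
        Finset.sum_const, Finset.card_univ, Fintype.card_fin, smul_eq_mul] at h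
      exact h
    have h := Bd.sum _ _ _ hterm
    have hval : (val (nd :: c) M : R n) =
      ∑ d ∈ (Fintype.piFinset (fun _ : Fin nd.k => Finset.range (M + 1))).filter
          (fun d => ∃ a, d a = 0),
        ∏ a : Fin nd.k,
          (Complex.exp (-(nd.τ * (d a : ℝ) ^ 2 / 2 : ℝ) +
            ((nd.ρ : ℂ) + Complex.I * nd.f a) * (d a : ℂ)) •
            cj (nd.flag a) (val c (M - d a))) := by
      simp only [val]
    rw [hval]
    change Bd (nd.k * leaves c) _ _
    refine h.mono_mass ?_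
    rw [← Finset.sum_mul, nrm_cons_eq]
    refine mul_le_mul_of_nonneg_right ?_ (pow_nonneg (nrm_pos hc').le _)
    refine (sum_min_zero_le
      (fun d : ℕ => Real.exp (-(nd.τ * (d : ℝ) ^ 2 / 2) + nd.ρ * (d : ℝ)))
      (fun _ => (Real.exp_pos _).le) (by simp) (Finset.range (M + 1))).trans ?_
    rw [mul_assoc]
    refine mul_le_mul_of_nonneg_left ?_ (Nat.cast_nonneg _)
    have h3 := gauss_tilt_sum_le hnd.1 nd.ρ (Finset.range (M + 1))
    refine (pow_le_pow_left₀ (Finset.sum_nonneg fun _ _ => (Real.exp_pos _).le) h3 _).trans ?_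
    rw [mul_pow, ← Real.exp_nat_mul]
    apply le_of_eq
    congr 2
    rw [Nat.cast_sub hnd.2]
    push_cast
    ring

/-- degree and mass of the windowed transform. -/
theorem V_Bd {n : ℕ} {c : Code} (hc : ∀ nd ∈ c, 0 < nd.τ ∧ 1 ≤ nd.k) (t : ℕ) {τ : ℝ}
    (hτ : 0 < τ) (ν : ℝ) : Bd (leaves c) (nrm c * Wt τ) (V c t τ ν : R n) := by
  have h := Bd.sum (Finset.range n)
    (fun u : ℕ => Real.exp (-(τ * ((u : ℝ) - t) ^ 2 / 2)) * nrm c)
    (fun u : ℕ => Complex.exp (-(τ * ((u : ℝ) - t) ^ 2 / 2 : ℝ) +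
      Complex.I * ν * ((u : ℂ) - t)) • (val c u : R n)) (fun u _ => by
      have h1 := (val_Bd (n := n) hc u).smul
        (Complex.exp (-(τ * ((u : ℝ) - t) ^ 2 / 2 : ℝ) + Complex.I * ν * ((u : ℂ) - t)))
      have h2 : ‖Complex.exp (-(τ * ((u : ℝ) - t) ^ 2 / 2 : ℝ) +
          Complex.I * ν * ((u : ℂ) - t))‖ = Real.exp (-(τ * ((u : ℝ) - t) ^ 2 / 2)) := by
        rw [Complex.norm_exp]
        congr 1
        have h3 : ((u : ℂ) - t) = (((u : ℝ) - t : ℝ) : ℂ) := by push_cast; ring
        rw [h3, Complex.add_re, ← Complex.ofReal_neg, Complex.ofReal_re, Complex.re_mul_ofReal]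
        simp
      rwa [h2] at h1)
  refine h.mono_mass ?_
  rw [← Finset.sum_mul, mul_comm]
  exact mul_le_mul_of_nonneg_left (gauss_sum_le hτ _ _) (nrm_pos hc).le


/-- composite functionals located in the known prefix are known. -/
theorem Kn.val {n D : ℕ} {E : PE n D} {x : Fin n → Bool} {t : ℕ} (h : Prefix E x t)
    (c : Code) {u : ℕ} (hu : u < t) : Kn E x (leaves c) (val c u) := by
  induction c generalizing u with
  | nil =>
    rw [val_nil]
    exact Kn.xv h hu
  | cons nd c ih =>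
    simp only [R300U.val, leaves]
    refine Kn.sum _ _ fun d _ => ?_
    have h1 := Kn.prod (E := E) (x := x) (Finset.univ : Finset (Fin nd.k)) (fun _ => leaves c)
      (fun a => (Complex.exp (-(nd.τ * (d a : ℝ) ^ 2 / 2 : ℝ) +
            ((nd.ρ : ℂ) + Complex.I * nd.f a) * (d a : ℂ)) •
            R300U.cj (nd.flag a) (R300U.val c (u - d a))))
      (fun a _ => ((ih (u := u - d a) (by omega)).cj (nd.flag a)).smul _)
    rw [Finset.sum_const, Finset.card_univ, Fintype.card_fin, smul_eq_mul] at h1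
    exact h1

/-- the one-sided part has degree `leaves c` and mass `≤ 2 nrm c * Wt τ` for `Re s ≤ 0`. -/
theorem Udev_Bd {n : ℕ} {c : Code} (hc : ∀ nd ∈ c, 0 < nd.τ ∧ 1 ≤ nd.k) (x : Fin n → Bool)
    (t : ℕ) {τ : ℝ} (hτ : 0 < τ) {s : ℂ} (hs : s.re ≤ 0) :
    Bd (leaves c) (2 * (nrm c * Wt τ)) (Udev x c t τ s : R n) := by
  have h := Bd.sum (Finset.Ico t n)
    (fun u : ℕ => Real.exp (-(τ * ((u : ℝ) - t) ^ 2 / 2)) * (2 * nrm c))
    (fun u : ℕ => Complex.exp (-(τ * ((u : ℝ) - t) ^ 2 / 2 : ℝ) +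
      s * ((u : ℂ) - t)) • dev x (val c u : R n)) (fun u hu => by
      have h0 := (val_Bd (n := n) hc u).dev x
      have h1 := h0.smul
        (Complex.exp (-(τ * ((u : ℝ) - t) ^ 2 / 2 : ℝ) + s * ((u : ℂ) - t)))
      refine h1.mono_mass (mul_le_mul_of_nonneg_right ?_ h0.nonneg)
      rw [Complex.norm_exp]
      apply Real.exp_le_exp.mpr
      have h2 : (t : ℝ) ≤ u := by exact_mod_cast (Finset.mem_Ico.mp hu).1
      have h3 : (-(τ * ((u : ℝ) - t) ^ 2 / 2 : ℝ) + s * ((u : ℂ) - t) : ℂ).re =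
          -(τ * ((u : ℝ) - t) ^ 2 / 2) + s.re * ((u : ℝ) - t) := by
        rw [Complex.add_re, ← Complex.ofReal_neg, Complex.ofReal_re]
        congr 1
        have : ((u : ℂ) - t) = (((u : ℝ) - t : ℝ) : ℂ) := by push_cast; ring
        rw [this, Complex.re_mul_ofReal]
      rw [h3]
      have := mul_nonpos_of_nonpos_of_nonneg hs (by linarith : 0 ≤ (u : ℝ) - t)
      linarith)
  refine h.mono_mass ?_
  rw [← Finset.sum_mul]
  have := mul_le_mul_of_nonneg_right (gauss_sum_le hτ (t : ℝ) (Finset.Ico t n))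
    (by have := (nrm_pos hc).le; positivity : 0 ≤ 2 * nrm c)
  linarith

/-- `dev V` is the one-sided part up to a null polynomial. -/
theorem dev_V_eq {n : ℕ} (x : Fin n → Bool) (c : Code) {t : ℕ} (ht : t ≤ n) (τ ν : ℝ) :
    dev x (V c t τ ν : R n) =
      (∑ u ∈ Finset.range t, Complex.exp (-(τ * ((u : ℝ) - t) ^ 2 / 2 : ℝ) +
        Complex.I * ν * ((u : ℂ) - t)) • dev x (val c u)) + Udev x c t τ (Complex.I * ν) := by
  unfold V Udev
  rw [dev_sum, ← Finset.sum_range_add_sum_Ico _ ht]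
  simp only [dev_smul]

/-- conjugation of the transform. -/
theorem cj_V {n : ℕ} (b : Bool) (c : Code) (t : ℕ) (τ ν : ℝ) :
    cj b (V c t τ ν : R n) = ∑ u ∈ Finset.range n,
      Complex.exp (-(τ * ((u : ℝ) - t) ^ 2 / 2 : ℝ) +
        Complex.I * (if b then -ν else ν : ℝ) * ((u : ℂ) - t)) • cj b (val c u) := by
  cases b
  · simp only [V, cj_false, Bool.false_eq_true, if_false]
  · simp only [V, cj_true, if_true, star_sum]
    refine Finset.sum_congr rfl fun u _ => ?_
    rw [star_smul]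
    congr 1
    rw [Complex.star_def, ← Complex.exp_conj]
    congr 1
    simp only [map_add, map_neg, map_mul, map_sub, Complex.conj_ofReal, Complex.conj_I,
      Complex.conj_natCast, Complex.ofReal_neg]
    ring

/-- tuples grouped by their maximum `M` and the delays `d = M - u`. -/
theorem sum_tuples_eq {β : Type*} [AddCommMonoid β] {k : ℕ} (hk : 1 ≤ k) (n : ℕ)
    (F : (Fin k → ℕ) → β) :
    ∑ u ∈ Fintype.piFinset (fun _ : Fin k => Finset.range n), F u =
      ∑ M ∈ Finset.range n,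
        ∑ d ∈ (Fintype.piFinset (fun _ : Fin k => Finset.range (M + 1))).filter
          (fun d => ∃ a, d a = 0), F (fun a => M - d a) := by
  rw [Finset.sum_sigma']
  have hne : (Finset.univ : Finset (Fin k)).Nonempty := ⟨⟨0, hk⟩, Finset.mem_univ _⟩
  refine Finset.sum_bij' (fun u _ => ⟨Finset.univ.sup u, fun a => Finset.univ.sup u - u a⟩)
    (fun Md _ => fun a => Md.1 - Md.2 a) ?_ ?_ ?_ ?_ ?_
  · intro u hu
    rw [Fintype.mem_piFinset] at hu
    obtain ⟨a0, -, ha0⟩ := Finset.exists_mem_eq_sup _ hne u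
    rw [Finset.mem_sigma, Finset.mem_filter, Fintype.mem_piFinset]
    refine ⟨?_, ?_, ⟨a0, ?_⟩⟩
    · simp only
      rw [ha0]; exact hu a0
    · intro a
      rw [Finset.mem_range]
      simp only
      omega
    · simp only
      rw [ha0]; omega
  · rintro ⟨M, d⟩ hMd
    rw [Finset.mem_sigma, Finset.mem_filter, Fintype.mem_piFinset] at hMd
    rw [Fintype.mem_piFinset]
    intro a
    have := Finset.mem_range.mp hMd.1
    rw [Finset.mem_range]
    simp only at this ⊢
    omega
  · intro u hu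
    funext a
    have := Finset.le_sup (f := u) (Finset.mem_univ a)
    simp only
    omega
  · rintro ⟨M, d⟩ hMd
    rw [Finset.mem_sigma, Finset.mem_filter, Fintype.mem_piFinset] at hMd
    obtain ⟨hM, hd, a0, ha0⟩ := hMd
    simp only at hM hd ha0
    have hsup : (Finset.univ.sup fun a => M - d a) = M := by
      apply le_antisymm
      · exact Finset.sup_le fun a _ => Nat.sub_le _ _
      · have := Finset.le_sup (f := fun a => M - d a) (Finset.mem_univ a0)
        simp only [ha0] at this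
        simpa using this
    simp only
    congr 1
    · rw [hsup]
      funext a
      have := Finset.mem_range.mp (hd a)
      omega
  · intro u hu
    congr 1
    funext a
    have := Finset.le_sup (f := u) (Finset.mem_univ a)
    simp only
    omega

/-- The product of transforms, grouped by the maximal location `M` and the delays `d`. -/
theorem Pr_expand {n : ℕ} (c : Code) (t : ℕ) (τ : ℝ) {k : ℕ} (hk : 1 ≤ k) (flag : Fin k → Bool)
    (ν : Fin k → ℝ) :
    (Pr c t τ flag ν : R n) = ∑ M ∈ Finset.range n,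
      ∑ d ∈ (Fintype.piFinset (fun _ : Fin k => Finset.range (M + 1))).filter
        (fun d => ∃ a, d a = 0),
      ∏ a : Fin k,
        (Complex.exp (-(τ * ((M : ℝ) - d a - t) ^ 2 / 2 : ℝ) +
            Complex.I * (if flag a then -ν a else ν a : ℝ) * ((M : ℂ) - d a - t)) •
          cj (flag a) (val c (M - d a))) := by
  have h1 : (Pr c t τ flag ν : R n) = ∑ u ∈ Fintype.piFinset (fun _ : Fin k => Finset.range n),
      ∏ a : Fin k, (Complex.exp (-(τ * ((u a : ℝ) - t) ^ 2 / 2 : ℝ) +
        Complex.I * (if flag a then -ν a else ν a : ℝ) * ((u a : ℂ) - t)) •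
          cj (flag a) (val c (u a))) := by
    unfold Pr
    have h0 := Finset.prod_univ_sum (fun _ : Fin k => Finset.range n)
      (fun (a : Fin k) (u : ℕ) => (Complex.exp (-(τ * ((u : ℝ) - t) ^ 2 / 2 : ℝ) +
        Complex.I * (if flag a then -ν a else ν a : ℝ) * ((u : ℂ) - t)) •
          cj (flag a) (val c u) : R n))
    rw [← h0]
    exact Finset.prod_congr rfl fun a _ => cj_V (flag a) c t τ (ν a)
  rw [h1, sum_tuples_eq hk]
  refine Finset.sum_congr rfl fun M _ => Finset.sum_congr rfl fun d hd => ?_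
  rw [Finset.mem_filter, Fintype.mem_piFinset] at hd
  refine Finset.prod_congr rfl fun a _ => ?_
  have h2 : d a ≤ M := by
    have := Finset.mem_range.mp (hd.1 a)
    omega
  rw [Nat.cast_sub h2, Nat.cast_sub h2]


end Crest.Agent.R300U
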