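import Crest.Agent.R300.U.Defs
import Crest.Agent.R300.U.Calc
import Crest.Agent.R300.U.Iface

-- ▼ part R300/U/Bridge
section
/-!
Row 300, upper bound, machine side (M-B): from an approximate solution of the moment
inequalities to an exact pseudo-expectation, by mixing with the uniform distribution.
-/
set_option autoImplicit false

namespace Crest.Agent.R300U

open scoped BigOperators

namespace Br

variable {n : ℕ}

theorem sum_prod_bool (g : Fin n → Bool → ℝ) :
    ∑ x : Fin n → Bool, ∏ i, g i (x i) = ∏ i, (g i true + g i false) := by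
  have h := Finset.prod_univ_sum (fun _ : Fin n => (Finset.univ : Finset Bool)) g
  rw [Fintype.piFinset_univ] at h
  rw [← h]
  apply Finset.prod_congr rfl
  intro i _
  simp

/-- real monomial -/
def mr (S : Finset (Fin n)) (x : Fin n → Bool) : ℝ :=
  ∏ i, (if i ∈ S then (if x i then 1 else 0) else 1)

/-- Moebius functional -/
def mob (S : Finset (Fin n)) (x : Fin n → Bool) : ℝ :=
  ∏ i, (if i ∈ S then (if x i then 1 else -1) else (if x i then 0 else 1))

/-- Walsh function -/
def chi (S : Finset (Fin n)) (x : Fin n → Bool) : ℝ :=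
  ∏ i, (if i ∈ S then (if x i then -1 else 1) else 1)

theorem mr_eq (S : Finset (Fin n)) (x : Fin n → Bool) :
    mr S x = if (∀ i ∈ S, x i = true) then 1 else 0 := by
  unfold mr
  split_ifs with h
  · apply Finset.prod_eq_one
    intro i _
    by_cases hi : i ∈ S
    · simp [hi, h i hi]
    · simp [hi]
  · push Not at h
    obtain ⟨i, hi, hx⟩ := h
    apply Finset.prod_eq_zero (Finset.mem_univ i)
    simp [hi, hx]

theorem mono_eq (S : Finset (Fin n)) (x : Fin n → Bool) : (mono S x : ℂ) = ((mr S x : ℝ) : ℂ) := by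
  rw [mr_eq]
  unfold mono
  split_ifs <;> simp

theorem mr_mul (S T : Finset (Fin n)) (x : Fin n → Bool) : mr S x * mr T x = mr (S ∪ T) x := by
  unfold mr
  rw [← Finset.prod_mul_distrib]
  apply Finset.prod_congr rfl
  intro i _
  by_cases h1 : i ∈ S <;> by_cases h2 : i ∈ T <;> by_cases h3 : x i = true <;>
    simp [h1, h2, h3]

theorem sum_mob_mr (S T : Finset (Fin n)) :
    ∑ x, mob S x * mr T x = if S = T then 1 else 0 := by
  unfold mob mr
  simp_rw [← Finset.prod_mul_distrib]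
  rw [sum_prod_bool (fun i b => (if i ∈ S then (if b then (1 : ℝ) else -1) else (if b then 0 else 1)) *
    (if i ∈ T then (if b then 1 else 0) else 1))]
  by_cases h : S = T
  · rw [if_pos h]
    subst h
    apply Finset.prod_eq_one
    intro i _
    by_cases hi : i ∈ S <;> simp [hi]
  · rw [if_neg h]
    have h1 : ∃ i, ¬ (i ∈ S ↔ i ∈ T) := by
      by_contra hcon
      push Not at hcon
      exact h (Finset.ext hcon)
    obtain ⟨i, hi⟩ := h1
    apply Finset.prod_eq_zero (Finset.mem_univ i)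
    by_cases h1 : i ∈ S <;> by_cases h2 : i ∈ T <;> simp [h1, h2] at hi ⊢

theorem sum_mr (S : Finset (Fin n)) : ∑ x, mr S x = 2 ^ n * (1 / 2) ^ S.card := by
  unfold mr
  rw [sum_prod_bool (fun i b => (if i ∈ S then (if b then (1 : ℝ) else 0) else 1))]
  have h : ∀ i : Fin n, ((if i ∈ S then (if true then (1 : ℝ) else 0) else 1) +
      (if i ∈ S then (if false then (1 : ℝ) else 0) else 1)) =
      2 * (if i ∈ S then (1 / 2 : ℝ) else 1) := by
    intro i
    by_cases hi : i ∈ S <;> simp [hi]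
    norm_num
  refine (Finset.prod_congr rfl (fun i _ => h i)).trans ?_
  rw [Finset.prod_mul_distrib]
  simp

theorem sum_chi_chi (S T : Finset (Fin n)) :
    ∑ x, chi S x * chi T x = if S = T then 2 ^ n else 0 := by
  unfold chi
  simp_rw [← Finset.prod_mul_distrib]
  rw [sum_prod_bool (fun i b => (if i ∈ S then (if b then (-1 : ℝ) else 1) else 1) *
    (if i ∈ T then (if b then -1 else 1) else 1))]
  by_cases h : S = T
  · rw [if_pos h]
    subst h
    have : ∀ i ∈ (Finset.univ : Finset (Fin n)), ((if i ∈ S then (if true then (-1 : ℝ) else 1) else 1) *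
      (if i ∈ S then (if true then -1 else 1) else 1)) + ((if i ∈ S then (if false then (-1 : ℝ) else 1) else 1) *
      (if i ∈ S then (if false then -1 else 1) else 1)) = 2 := by
      intro i _
      by_cases hi : i ∈ S <;> simp [hi] <;> norm_num
    refine (Finset.prod_congr rfl this).trans ?_
    simp
  · rw [if_neg h]
    have h1 : ∃ i, ¬ (i ∈ S ↔ i ∈ T) := by
      by_contra hcon
      push Not at hcon
      exact h (Finset.ext hcon)
    obtain ⟨i, hi⟩ := h1
    apply Finset.prod_eq_zero (Finset.mem_univ i)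
    by_cases h1 : i ∈ S <;> by_cases h2 : i ∈ T <;> simp [h1, h2] at hi ⊢

theorem sum_chi_mr (S T : Finset (Fin n)) :
    ∑ x, chi S x * mr T x =
      2 ^ n * (1 / 2) ^ T.card * ∏ i, (if i ∈ S then (if i ∈ T then (-1 : ℝ) else 0) else 1) := by
  unfold chi mr
  simp_rw [← Finset.prod_mul_distrib]
  rw [sum_prod_bool (fun i b => (if i ∈ S then (if b then (-1 : ℝ) else 1) else 1) *
    (if i ∈ T then (if b then 1 else 0) else 1))]
  have e : (2 : ℝ) ^ n * (1 / 2) ^ T.card = ∏ i : Fin n, (2 * (if i ∈ T then (1 / 2 : ℝ) else 1)) := by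
    rw [Finset.prod_mul_distrib]
    simp
  rw [e, ← Finset.prod_mul_distrib]
  apply Finset.prod_congr rfl
  intro i _
  by_cases h1 : i ∈ S <;> by_cases h2 : i ∈ T <;> simp [h1, h2]
  norm_num

/-- alternating sum over an interval of sets -/
theorem sum_interval (S U : Finset (Fin n)) :
    ∑ T : Finset (Fin n), (if S ⊆ T then (∏ i, (if i ∈ T then (if i ∈ U then (-1 : ℝ) else 0) else 1))
      else 0) = if S = U then (-1) ^ S.card else 0 := by
  have h := Finset.prod_add (fun i : Fin n => (if i ∈ U then (-1 : ℝ) else 0))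
    (fun i : Fin n => (if i ∈ S then (0 : ℝ) else 1)) Finset.univ
  rw [Finset.powerset_univ] at h
  have e1 : ∀ T ∈ (Finset.univ : Finset (Finset (Fin n))),
      (∏ i ∈ T, (if i ∈ U then (-1 : ℝ) else 0)) * (∏ i ∈ Finset.univ \ T, (if i ∈ S then (0 : ℝ) else 1)) =
      (if S ⊆ T then (∏ i, (if i ∈ T then (if i ∈ U then (-1 : ℝ) else 0) else 1)) else 0) := by
    intro T _
    split_ifs with hST
    · have e2 : ∏ i ∈ Finset.univ \ T, (if i ∈ S then (0 : ℝ) else 1) = 1 := by
        apply Finset.prod_eq_one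
        intro i hi
        have : i ∉ S := fun h => (Finset.mem_sdiff.mp hi).2 (hST h)
        simp [this]
      rw [e2, mul_one]
      rw [Finset.prod_ite_mem]
      simp
    · obtain ⟨i, hi1, hi2⟩ := Finset.not_subset.mp hST
      have e2 : ∏ i ∈ Finset.univ \ T, (if i ∈ S then (0 : ℝ) else 1) = 0 := by
        apply Finset.prod_eq_zero (i := i)
        · simp [hi2]
        · simp [hi1]
      rw [e2, mul_zero]
  rw [← Finset.sum_congr rfl e1, ← h]
  split_ifs with hSU
  · subst hSU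
    have e3 : ∀ i ∈ (Finset.univ : Finset (Fin n)),
        (if i ∈ S then (-1 : ℝ) else 0) + (if i ∈ S then (0 : ℝ) else 1) =
        (if i ∈ S then (-1 : ℝ) else 1) := by
      intro i _
      by_cases hi : i ∈ S <;> simp [hi]
    rw [Finset.prod_congr rfl e3, Finset.prod_ite_mem]
    simp
  · have h1 : ∃ i, ¬ (i ∈ S ↔ i ∈ U) := by
      by_contra hcon
      push Not at hcon
      exact hSU (Finset.ext hcon)
    obtain ⟨i, hi⟩ := h1
    apply Finset.prod_eq_zero (Finset.mem_univ i)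
    by_cases h1 : i ∈ S <;> by_cases h2 : i ∈ U <;> simp [h1, h2] at hi ⊢

/-- number of small sets -/
theorem card_small (D : ℕ) :
    (Finset.univ.filter (fun T : Finset (Fin n) => T.card ≤ D)).card ≤ (n + 1) ^ D := by
  have h1 : (Finset.univ.filter (fun T : Finset (Fin n) => T.card ≤ D)) =
      (Finset.range (D + 1)).biUnion (fun k => Finset.powersetCard k (Finset.univ : Finset (Fin n))) := by
    ext T
    simp [Finset.mem_powersetCard, Nat.lt_succ_iff]
  rw [h1]
  refine Finset.card_biUnion_le.trans ?_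
  rw [add_pow]
  apply Finset.sum_le_sum
  intro k hk
  rw [Finset.card_powersetCard, Finset.card_univ, Fintype.card_fin, one_pow, mul_one]
  have h2 : n.choose k ≤ n ^ k := Nat.choose_le_pow n k
  have h3 : 1 ≤ D.choose k := Nat.choose_pos (Nat.lt_succ_iff.mp (Finset.mem_range.mp hk))
  simp only [Nat.cast_id]
  calc n.choose k ≤ n ^ k := h2
    _ = n ^ k * 1 := (mul_one _).symm
    _ ≤ n ^ k * D.choose k := Nat.mul_le_mul_left _ h3

/-- dual function of the monomial `x_S` -/
def phi (D : ℕ) (S : Finset (Fin n)) (x : Fin n → Bool) : ℝ :=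
  ∑ T ∈ Finset.univ.filter (fun T : Finset (Fin n) => S ⊆ T ∧ T.card ≤ D), (-2) ^ S.card * chi T x

theorem sum_phi_sq (D : ℕ) (S : Finset (Fin n)) (hS : S.card ≤ D) :
    ∑ x, phi D S x ^ 2 ≤ 4 ^ D * (n + 1) ^ D * 2 ^ n := by
  set A := Finset.univ.filter (fun T : Finset (Fin n) => S ⊆ T ∧ T.card ≤ D) with hA
  have h1 : ∑ x, phi D S x ^ 2 = 4 ^ S.card * (A.card * 2 ^ n) := by
    calc ∑ x, phi D S x ^ 2 = ∑ x, ∑ T ∈ A, ∑ T' ∈ A, (4 : ℝ) ^ S.card * (chi T x * chi T' x) := by
          apply Finset.sum_congr rfl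
          intro x _
          unfold phi
          rw [sq, Finset.sum_mul_sum]
          apply Finset.sum_congr rfl
          intro T _
          apply Finset.sum_congr rfl
          intro T' _
          have e : (4 : ℝ) ^ S.card = (-2) ^ S.card * (-2) ^ S.card := by
            rw [← mul_pow]; norm_num
          rw [e]; ring
      _ = ∑ T ∈ A, ∑ T' ∈ A, ∑ x, (4 : ℝ) ^ S.card * (chi T x * chi T' x) := by
          rw [Finset.sum_comm]
          apply Finset.sum_congr rfl
          intro T _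
          rw [Finset.sum_comm]
      _ = ∑ T ∈ A, ∑ T' ∈ A, (4 : ℝ) ^ S.card * (if T = T' then 2 ^ n else 0) := by
          apply Finset.sum_congr rfl
          intro T _
          apply Finset.sum_congr rfl
          intro T' _
          rw [← Finset.mul_sum, sum_chi_chi]
      _ = ∑ T ∈ A, (4 : ℝ) ^ S.card * 2 ^ n := by
          apply Finset.sum_congr rfl
          intro T hT
          rw [← Finset.mul_sum, Finset.sum_ite_eq, if_pos hT]
      _ = 4 ^ S.card * (A.card * 2 ^ n) := by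
          rw [Finset.sum_const, nsmul_eq_mul]; ring
  rw [h1]
  have h2 : A.card ≤ (n + 1) ^ D := by
    refine le_trans (Finset.card_le_card ?_) (card_small (n := n) D)
    intro T hT
    simp only [hA, Finset.mem_filter, Finset.mem_univ, true_and] at hT ⊢
    exact hT.2
  have h3 : (A.card : ℝ) ≤ (n + 1) ^ D := by exact_mod_cast h2
  have h4 : (4 : ℝ) ^ S.card ≤ 4 ^ D := pow_le_pow_right₀ (by norm_num) hS
  calc (4 : ℝ) ^ S.card * (A.card * 2 ^ n) ≤ 4 ^ D * ((n + 1) ^ D * 2 ^ n) := by gcongr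
    _ = _ := by ring

theorem sum_phi_mr (D : ℕ) (S U : Finset (Fin n)) (hU : U.card ≤ D) :
    ∑ x, phi D S x * mr U x = if S = U then 2 ^ n else 0 := by
  have h1 : ∑ x, phi D S x * mr U x =
      ∑ T ∈ Finset.univ.filter (fun T : Finset (Fin n) => S ⊆ T ∧ T.card ≤ D),
        (-2) ^ S.card * (2 ^ n * (1 / 2) ^ U.card *
          ∏ i, (if i ∈ T then (if i ∈ U then (-1 : ℝ) else 0) else 1)) := by
    unfold phi
    simp_rw [Finset.sum_mul]
    rw [Finset.sum_comm]
    apply Finset.sum_congr rfl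
    intro T _
    rw [← sum_chi_mr, Finset.mul_sum]
    apply Finset.sum_congr rfl
    intro x _
    ring
  rw [h1]
  have h2 : ∑ T ∈ Finset.univ.filter (fun T : Finset (Fin n) => S ⊆ T ∧ T.card ≤ D),
        (-2) ^ S.card * (2 ^ n * (1 / 2) ^ U.card *
          ∏ i, (if i ∈ T then (if i ∈ U then (-1 : ℝ) else 0) else 1)) =
      ∑ T : Finset (Fin n), (-2) ^ S.card * (2 ^ n * (1 / 2) ^ U.card) *
        (if S ⊆ T then (∏ i, (if i ∈ T then (if i ∈ U then (-1 : ℝ) else 0) else 1)) else 0) := by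
    rw [Finset.sum_filter]
    apply Finset.sum_congr rfl
    intro T _
    by_cases hST : S ⊆ T
    · by_cases hT : T.card ≤ D
      · rw [if_pos ⟨hST, hT⟩, if_pos hST]; ring
      · rw [if_neg (fun h => hT h.2), if_pos hST]
        have : ¬ T ⊆ U := fun h => hT ((Finset.card_le_card h).trans hU)
        obtain ⟨i, hi1, hi2⟩ := Finset.not_subset.mp this
        have e : ∏ i, (if i ∈ T then (if i ∈ U then (-1 : ℝ) else 0) else 1) = 0 := by
          apply Finset.prod_eq_zero (Finset.mem_univ i)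
          simp [hi1, hi2]
        rw [e]; ring
    · rw [if_neg (fun h => hST h.1), if_neg hST]; ring
  rw [h2, ← Finset.mul_sum, sum_interval]
  split_ifs with h
  · subst h
    have e : (-2 : ℝ) ^ S.card * (2 ^ n * (1 / 2) ^ S.card) * (-1) ^ S.card =
        2 ^ n * ((-2) * (1 / 2) * (-1)) ^ S.card := by
      rw [mul_pow, mul_pow]; ring
    rw [e]; norm_num
  · ring

/-- quadratic form of a signed weight -/
theorem quad_eq (w : (Fin n → Bool) → ℝ) (p : Finset (Fin n) → ℝ) :
    ∑ x, w x * (∑ S, p S * mr S x) ^ 2 = ∑ S, ∑ T, p S * p T * ∑ x, w x * mr (S ∪ T) x := by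
  calc ∑ x, w x * (∑ S, p S * mr S x) ^ 2
      = ∑ x, ∑ S, ∑ T, p S * p T * (w x * mr (S ∪ T) x) := by
        apply Finset.sum_congr rfl
        intro x _
        rw [sq, Finset.sum_mul_sum, Finset.mul_sum]
        apply Finset.sum_congr rfl
        intro S _
        rw [Finset.mul_sum]
        apply Finset.sum_congr rfl
        intro T _
        rw [← mr_mul]; ring
    _ = _ := by
        rw [Finset.sum_comm]
        apply Finset.sum_congr rfl
        intro S _
        rw [Finset.sum_comm]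
        apply Finset.sum_congr rfl
        intro T _
        rw [Finset.mul_sum]

/-- strong positivity of the uniform distribution on polynomials of degree `≤ D` -/
theorem unif_pos {D : ℕ} (p : Finset (Fin n) → ℝ) (hp : ∀ S, D < S.card → p S = 0) :
    ∑ S, p S ^ 2 ≤ 4 ^ D * (n + 1) ^ (2 * D) * ∑ S, ∑ T, p S * p T * (1 / 2) ^ (S ∪ T).card := by
  set F : (Fin n → Bool) → ℝ := fun x => ∑ S, p S * mr S x with hF
  have h1 : ∑ x, F x ^ 2 = 2 ^ n * ∑ S, ∑ T, p S * p T * (1 / 2) ^ (S ∪ T).card := by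
    have h := quad_eq (fun _ => (1 : ℝ)) p
    simp only [one_mul] at h
    rw [hF]
    simp only
    rw [h, Finset.mul_sum]
    apply Finset.sum_congr rfl
    intro S _
    rw [Finset.mul_sum]
    apply Finset.sum_congr rfl
    intro T _
    rw [sum_mr]; ring
  have h2 : ∀ S : Finset (Fin n), S.card ≤ D → 2 ^ n * p S = ∑ x, phi D S x * F x := by
    intro S hS
    have e : ∑ x, phi D S x * F x = ∑ U, p U * ∑ x, phi D S x * mr U x := by
      rw [hF]
      simp only
      simp_rw [Finset.mul_sum]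
      rw [Finset.sum_comm]
      apply Finset.sum_congr rfl
      intro U _
      apply Finset.sum_congr rfl
      intro x _
      ring
    rw [e]
    have e2 : ∀ U ∈ (Finset.univ : Finset (Finset (Fin n))), p U * ∑ x, phi D S x * mr U x =
        if S = U then 2 ^ n * p U else 0 := by
      intro U _
      by_cases hU : U.card ≤ D
      · rw [sum_phi_mr D S U hU]
        split_ifs <;> ring
      · rw [hp U (by omega)]
        have : S ≠ U := fun h => hU (h ▸ hS)
        rw [if_neg this]; ring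
    rw [Finset.sum_congr rfl e2, Finset.sum_ite_eq, if_pos (Finset.mem_univ S)]
  have h3 : ∀ S : Finset (Fin n), S.card ≤ D →
      p S ^ 2 ≤ 4 ^ D * (n + 1) ^ D * (∑ S, ∑ T, p S * p T * (1 / 2) ^ (S ∪ T).card) := by
    intro S hS
    have hcs := Finset.sum_mul_sq_le_sq_mul_sq Finset.univ (fun x => phi D S x) F
    rw [← h2 S hS, h1] at hcs
    have h4 := sum_phi_sq D S hS
    have h5 : 0 ≤ 2 ^ n * ∑ S, ∑ T, p S * p T * (1 / 2) ^ (S ∪ T).card := by
      rw [← h1]; exact Finset.sum_nonneg fun x _ => sq_nonneg _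
    have h6 : (2 ^ n * p S) ^ 2 ≤ (4 ^ D * (n + 1) ^ D * 2 ^ n) *
        (2 ^ n * ∑ S, ∑ T, p S * p T * (1 / 2) ^ (S ∪ T).card) :=
      hcs.trans (mul_le_mul_of_nonneg_right h4 h5)
    have h7 : (0 : ℝ) < (2 ^ n) ^ 2 := by positivity
    have h8 : (2 ^ n) ^ 2 * p S ^ 2 ≤ (2 ^ n) ^ 2 *
        (4 ^ D * (n + 1) ^ D * (∑ S, ∑ T, p S * p T * (1 / 2) ^ (S ∪ T).card)) := by
      calc (2 ^ n) ^ 2 * p S ^ 2 = (2 ^ n * p S) ^ 2 := by ring
        _ ≤ _ := h6
        _ = _ := by ring
    exact le_of_mul_le_mul_left h8 h7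
  set Q := ∑ S, ∑ T, p S * p T * (1 / 2) ^ (S ∪ T).card with hQ
  have hQ0 : 0 ≤ Q := by
    have h5 : 0 ≤ 2 ^ n * Q := by
      rw [← h1]; exact Finset.sum_nonneg fun x _ => sq_nonneg _
    have h7 : (0 : ℝ) < 2 ^ n := by positivity
    exact nonneg_of_mul_nonneg_right h5 h7
  calc ∑ S, p S ^ 2 = ∑ S ∈ Finset.univ.filter (fun T : Finset (Fin n) => T.card ≤ D), p S ^ 2 := by
        rw [Finset.sum_filter]
        apply Finset.sum_congr rfl
        intro S _
        split_ifs with h
        · rfl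
        · rw [hp S (by omega)]; ring
    _ ≤ ∑ S ∈ Finset.univ.filter (fun T : Finset (Fin n) => T.card ≤ D),
        4 ^ D * (n + 1) ^ D * Q := by
        apply Finset.sum_le_sum
        intro S hS
        exact h3 S (Finset.mem_filter.mp hS).2
    _ = (Finset.univ.filter (fun T : Finset (Fin n) => T.card ≤ D)).card *
        (4 ^ D * (n + 1) ^ D * Q) := by
        rw [Finset.sum_const, nsmul_eq_mul]
    _ ≤ ((n + 1) ^ D) * (4 ^ D * (n + 1) ^ D * Q) := by
        apply mul_le_mul_of_nonneg_right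
        · exact_mod_cast card_small (n := n) D
        · positivity
    _ = 4 ^ D * (n + 1) ^ (2 * D) * Q := by
        rw [two_mul, pow_add]; ring

end Br

open Br in
/-- **Bridge**: approximate moments give an exact pseudo-expectation. -/
theorem exists_PE {N D : ℕ} (μ : Finset (Fin N) → ℝ) (ε : ℝ) (hε : 0 ≤ ε) (h0 : |μ ∅ - 1| ≤ 1 / 4)
    (hpsd : ∀ a : Finset (Fin N) → ℝ, (∀ S, D < S.card → a S = 0) →
      -ε * ∑ S, a S ^ 2 ≤ ∑ S, ∑ T, a S * a T * μ (S ∪ T))
    (hδ : 2 * ε * 4 ^ D * (N + 1) ^ (2 * D) ≤ 1) :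
    ∃ E : PE N D, ∀ S : Finset (Fin N), S.card ≤ 2 * D →
      E.L (mono S) = (((1 - 2 * ε * 4 ^ D * (N + 1) ^ (2 * D)) * (μ S / μ ∅) +
        2 * ε * 4 ^ D * (N + 1) ^ (2 * D) * (1 / 2) ^ S.card : ℝ) : ℂ) := by
  set δ := 2 * ε * 4 ^ D * (N + 1) ^ (2 * D) with hδdef
  have hδ0 : 0 ≤ δ := by rw [hδdef]; positivity
  have hμ0 : 3 / 4 ≤ μ ∅ := by
    have := (abs_le.mp h0).1
    linarith
  set ν : Finset (Fin N) → ℝ := fun S => (1 - δ) * (μ S / μ ∅) + δ * (1 / 2) ^ S.card with hν
  set w : (Fin N → Bool) → ℝ := fun x => ∑ S, ν S * mob S x with hw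
  have hwm : ∀ T : Finset (Fin N), ∑ x, w x * mr T x = ν T := by
    intro T
    calc ∑ x, w x * mr T x = ∑ x, ∑ S, ν S * (mob S x * mr T x) := by
          apply Finset.sum_congr rfl
          intro x _
          rw [hw]
          simp only
          rw [Finset.sum_mul]
          apply Finset.sum_congr rfl
          intro S _
          ring
      _ = ∑ S, ν S * ∑ x, mob S x * mr T x := by
          rw [Finset.sum_comm]
          apply Finset.sum_congr rfl
          intro S _
          rw [Finset.mul_sum]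
      _ = ν T := by
          simp_rw [sum_mob_mr]
          simp
  have hνe : ν ∅ = 1 := by
    rw [hν]
    simp only [Finset.card_empty, pow_zero, mul_one]
    rw [div_self (by linarith)]
    ring
  have hpos : ∀ p : Finset (Fin N) → ℝ, (∀ S, D < S.card → p S = 0) →
      0 ≤ ∑ x, w x * (∑ S, p S * mr S x) ^ 2 := by
    intro p hp
    rw [quad_eq]
    simp_rw [hwm]
    have e1 : ∑ S, ∑ T, p S * p T * ν (S ∪ T) =
        (1 - δ) / μ ∅ * (∑ S, ∑ T, p S * p T * μ (S ∪ T)) +
          δ * ∑ S, ∑ T, p S * p T * (1 / 2) ^ (S ∪ T).card := by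
      rw [Finset.mul_sum, Finset.mul_sum, ← Finset.sum_add_distrib]
      apply Finset.sum_congr rfl
      intro S _
      rw [Finset.mul_sum, Finset.mul_sum, ← Finset.sum_add_distrib]
      apply Finset.sum_congr rfl
      intro T _
      rw [hν]
      simp only
      ring
    rw [e1]
    have h1 := hpsd p hp
    have h2 := unif_pos p hp
    set P2 := ∑ S, p S ^ 2 with hP2
    set Q := ∑ S, ∑ T, p S * p T * (1 / 2) ^ (S ∪ T).card with hQ
    have hP20 : 0 ≤ P2 := Finset.sum_nonneg fun S _ => sq_nonneg _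
    have h3 : 0 ≤ (1 - δ) / μ ∅ := div_nonneg (by linarith) (by linarith)
    have h4 : (1 - δ) / μ ∅ ≤ 4 / 3 := by
      rw [div_le_iff₀ (by linarith)]
      linarith
    have h5 : (1 - δ) / μ ∅ * (-ε * P2) ≤ (1 - δ) / μ ∅ * ∑ S, ∑ T, p S * p T * μ (S ∪ T) :=
      mul_le_mul_of_nonneg_left h1 h3
    have h6 : -(4 / 3 * (ε * P2)) ≤ (1 - δ) / μ ∅ * (-ε * P2) := by
      have : (1 - δ) / μ ∅ * (ε * P2) ≤ 4 / 3 * (ε * P2) :=
        mul_le_mul_of_nonneg_right h4 (mul_nonneg hε hP20)
      linarith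
    have h7 : 2 * (ε * P2) ≤ δ * Q := by
      have := mul_le_mul_of_nonneg_left h2 (by linarith : (0 : ℝ) ≤ 2 * ε)
      calc 2 * (ε * P2) = 2 * ε * P2 := by ring
        _ ≤ 2 * ε * (4 ^ D * (N + 1) ^ (2 * D) * Q) := this
        _ = δ * Q := by rw [hδdef]; ring
    have h8 : 0 ≤ ε * P2 := mul_nonneg hε hP20
    linarith
  let L : R N →ₗ[ℂ] ℂ :=
    { toFun := fun f => ∑ x, ((w x : ℝ) : ℂ) * f x
      map_add' := by
        intro f g
        rw [← Finset.sum_add_distrib]
        apply Finset.sum_congr rfl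
        intro x _
        simp only [Pi.add_apply]; ring
      map_smul' := by
        intro z f
        simp only [RingHom.id_apply, smul_eq_mul]
        rw [Finset.mul_sum]
        apply Finset.sum_congr rfl
        intro x _
        simp only [Pi.smul_apply, smul_eq_mul]; ring }
  have hL : ∀ f, L f = ∑ x, ((w x : ℝ) : ℂ) * f x := fun _ => rfl
  have hLm : ∀ S : Finset (Fin N), L (mono S) = ((ν S : ℝ) : ℂ) := by
    intro S
    rw [hL, ← hwm S]
    push_cast
    apply Finset.sum_congr rfl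
    intro x _
    rw [mono_eq]
  refine ⟨⟨L, ?_, ?_, ?_⟩, ?_⟩
  · have h1 : (1 : R N) = mono ∅ := by
      funext x; simp [mono]
    rw [h1, hLm, hνe]; simp
  · intro f
    rw [hL, hL]
    simp only [star_sum, star_mul', Pi.star_apply]
    apply Finset.sum_congr rfl
    intro x _
    congr 1
    exact (Complex.conj_ofReal _).symm
  · rintro P c ⟨a, ha, -, hP⟩
    rw [hL]
    have h1 : ∀ x, P x = ((∑ S, (a S).re * mr S x : ℝ) : ℂ) + ((∑ S, (a S).im * mr S x : ℝ) : ℂ) * Complex.I := by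
      intro x
      rw [hP]
      simp only [Finset.sum_apply, Pi.smul_apply, smul_eq_mul]
      push_cast
      rw [Finset.sum_mul, ← Finset.sum_add_distrib]
      apply Finset.sum_congr rfl
      intro S _
      rw [mono_eq]
      conv_lhs => rw [← Complex.re_add_im (a S)]
      ring
    have h2 : ∀ x, (((w x : ℝ) : ℂ) * (star P * P) x).re =
        w x * (∑ S, (a S).re * mr S x) ^ 2 + w x * (∑ S, (a S).im * mr S x) ^ 2 := by
      intro x
      rw [Pi.mul_apply, Pi.star_apply, Complex.re_ofReal_mul]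
      have h3 : (star (P x) * P x).re = Complex.normSq (P x) := by
        rw [Complex.star_def, ← Complex.normSq_eq_conj_mul_self, Complex.ofReal_re]
      rw [h3, h1 x, Complex.normSq_add_mul_I]
      ring
    rw [Complex.re_sum]
    rw [Finset.sum_congr rfl (fun x _ => h2 x), Finset.sum_add_distrib]
    apply add_nonneg
    · apply hpos
      intro S hS
      rw [ha S hS]; rfl
    · apply hpos
      intro S hS
      rw [ha S hS]; rfl
  · intro S _
    exact hLm S

end Crest.Agent.R300U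
end

-- ▼ part R300/U/DecSound

/-!
# Row 300, upper bound: soundness of one decoding step (program independent)

`glue x t h y` is the word with the letters of `x` before `t` and the letters of `y` from `t` on;
`gluePE` transports a pseudo-expectation on the tail to a pseudo-expectation on the whole word
that satisfies the prefix condition.
-/

set_option autoImplicit false

namespace Crest.Agent.R300U

open Finset

/-- the word with the letters of `x` before `t` and those of `y` from `t` on. -/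
def glue {n : ℕ} (x : Fin n → Bool) (t : ℕ) {N : ℕ} (h : t + N = n) (y : Fin N → Bool) :
    Fin n → Bool :=
  fun i => if hi : (i : ℕ) < t then x i else y ⟨i - t, by omega⟩

/-- substitution of the prefix -/
noncomputable def gsub {n : ℕ} (x : Fin n → Bool) (t : ℕ) {N : ℕ} (h : t + N = n) (P : R n) : R N :=
  fun y => P (glue x t h y)

section glue

variable {n : ℕ} (x : Fin n → Bool) (t : ℕ) {N : ℕ} (h : t + N = n)

theorem gsub_add (P Q : R n) : gsub x t h (P + Q) = gsub x t h P + gsub x t h Q := rfl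

theorem gsub_smul (z : ℂ) (P : R n) : gsub x t h (z • P) = z • gsub x t h P := rfl

theorem gsub_star (P : R n) : gsub x t h (star P) = star (gsub x t h P) := rfl

theorem gsub_mul (P Q : R n) : gsub x t h (P * Q) = gsub x t h P * gsub x t h Q := rfl

theorem gsub_one : gsub x t h (1 : R n) = 1 := rfl

theorem gsub_sum {κ : Type*} (s : Finset κ) (P : κ → R n) :
    gsub x t h (∑ k ∈ s, P k) = ∑ k ∈ s, gsub x t h (P k) := by
  funext y
  simp [gsub, Finset.sum_apply]

/-- tail part of a set of positions -/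
def tailSet (S : Finset (Fin n)) : Finset (Fin N) :=
  Finset.univ.filter fun j : Fin N => (⟨t + j, by omega⟩ : Fin n) ∈ S

theorem card_tailSet_le (S : Finset (Fin n)) : (tailSet t h S).card ≤ S.card := by
  refine Finset.card_le_card_of_injOn (fun j : Fin N => (⟨t + j, by omega⟩ : Fin n)) ?_ ?_
  · intro j hj
    simpa [tailSet] using hj
  · intro i _ j _ hij
    simp only [Fin.mk.injEq, Nat.add_left_cancel_iff] at hij
    exact Fin.ext hij

theorem gsub_mono (S : Finset (Fin n)) :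
    gsub x t h (mono S) = (if ∀ i ∈ S, (i : ℕ) < t → x i = true then (1 : ℂ) else 0) •
      mono (tailSet t h S) := by
  funext y
  simp only [gsub, mono_apply, Pi.smul_apply, smul_eq_mul]
  by_cases h1 : ∀ i ∈ S, (i : ℕ) < t → x i = true
  · rw [if_pos h1, one_mul]
    by_cases h2 : ∀ j ∈ tailSet t h S, y j = true
    · rw [if_pos h2, if_pos]
      intro i hi
      unfold glue
      split_ifs with hit
      · exact h1 i hi hit
      · refine h2 _ ?_
        simp only [tailSet, Finset.mem_filter, Finset.mem_univ, true_and]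
        convert hi using 1
        apply Fin.ext
        simp
        omega
    · rw [if_neg h2, if_neg]
      intro h3
      apply h2
      intro j hj
      simp only [tailSet, Finset.mem_filter, Finset.mem_univ, true_and] at hj
      have := h3 _ hj
      unfold glue at this
      simpa using this
  · rw [if_neg h1, zero_mul, if_neg]
    intro h3
    apply h1
    intro i hi hit
    have := h3 i hi
    unfold glue at this
    rwa [dif_pos hit] at this

theorem Bd.gsub {d : ℕ} {c : ℝ} {P : R n} (hP : Bd d c P) : Bd d c (gsub x t h P) := by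
  obtain ⟨a, h1, h3, h2⟩ := hP
  have e1 : R300U.gsub x t h P = ∑ S, (a S * (if ∀ i ∈ S, (i : ℕ) < t → x i = true then (1 : ℂ)
      else 0)) • R300U.mono (tailSet t h S) := by
    rw [h2, gsub_sum]
    refine Finset.sum_congr rfl fun S _ => ?_
    rw [gsub_smul, gsub_mono, smul_smul]
  rw [e1]
  have h4 := Bd.sum (n := N) (d := d) Finset.univ (fun S : Finset (Fin n) => ‖a S‖)
    (fun S => (a S * (if ∀ i ∈ S, (i : ℕ) < t → x i = true then (1 : ℂ)
      else 0)) • R300U.mono (tailSet t h S)) ?_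
  · exact h4.mono_mass h3
  · intro S _
    by_cases hS : d < S.card
    · rw [h1 S hS]
      simpa using Bd.zero (n := N) (d := d) le_rfl
    · refine (Bd.smul_mono ((card_tailSet_le t h S).trans (by omega)) _).mono_mass ?_
      rw [norm_mul]
      refine mul_le_of_le_one_right (norm_nonneg _) ?_
      split_ifs <;> simp

/-- transport of a pseudo-expectation on the tail -/
noncomputable def gluePE {D : ℕ} (E : PE N D) : PE n D where
  L :=
    { toFun := fun f => E.L (gsub x t h f)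
      map_add' := fun f g => by rw [gsub_add, map_add]
      map_smul' := fun z f => by rw [gsub_smul, map_smul, RingHom.id_apply] }
  one := by
    show E.L (gsub x t h 1) = 1
    rw [gsub_one, E.one]
  herm := fun f => by
    show E.L (gsub x t h (star f)) = star (E.L (gsub x t h f))
    rw [gsub_star, E.herm]
  pos := fun P c hP => by
    show 0 ≤ (E.L (gsub x t h (star P * P))).re
    rw [gsub_mul, gsub_star]
    exact E.pos _ c (hP.gsub x t h)

variable {x t h}

theorem gluePE_L {D : ℕ} (E : PE N D) (f : R n) : (gluePE x t h E).L f = E.L (gsub x t h f) := rfl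

theorem gluePE_N {D : ℕ} (E : PE N D) (f : R n) : (gluePE x t h E).N f = E.N (gsub x t h f) := by
  unfold PE.N
  rw [gluePE_L, gsub_mul, gsub_star]

theorem gsub_xv_lt {u : ℕ} (hu : u < t) : gsub x t h (xv u) = cst ((xv u : R n) x) := by
  funext y
  simp only [gsub, xv, cst, glue]
  have : u < n := by omega
  simp [this, hu]

theorem gluePE_prefix {D : ℕ} (E : PE N D) : Prefix (gluePE x t h E) x t := by
  intro u hu
  rw [gluePE_N]
  have : gsub x t h (dev x (xv u)) = 0 := by
    unfold dev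
    funext y
    have h1 := congrFun (gsub_xv_lt (x := x) (h := h) hu) y
    simp only [gsub, cst] at h1
    simp only [gsub, Pi.sub_apply, cst, Pi.zero_apply]
    rw [h1, sub_self]
  rw [this, PE.N_zero]

theorem gsub_xv_self (hN : 0 < N) : gsub x t h (xv t) = mono {(⟨0, hN⟩ : Fin N)} := by
  funext y
  have htn : t < n := by omega
  simp [gsub, xv, mono, glue, htn]

end glue

section step

variable {n : ℕ} {x : Fin n → Bool} {t : ℕ} {N : ℕ} {h : t + N = n} {D : ℕ}

/-- the letter is recovered by rounding. -/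
theorem round_of_N (E : PE n D) (hD : 1 ≤ D) (ht : t < n) (hN : E.N (dev x (xv t)) < 1 / 2) :
    (x ⟨t, ht⟩ = true → 1 / 2 < (E.L (xv t)).re) ∧ (x ⟨t, ht⟩ = false → (E.L (xv t)).re < 1 / 2) := by
  have h1 := E.norm_L_le (((Bd.xv (n := n) t le_rfl).dev x).mono_deg hD)
  have h2 : E.L (dev x (xv t)) = E.L (xv t) - (xv t : R n) x := by
    unfold dev
    rw [map_sub, cst_eq_smul, map_smul, E.one, smul_eq_mul, mul_one]
  have h3 : |(E.L (xv t) - (xv t : R n) x).re| < 1 / 2 := by
    rw [← h2]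
    exact (Complex.abs_re_le_norm _).trans_lt (h1.trans_lt hN)
  rw [abs_lt] at h3
  constructor
  · intro hx
    have : (xv t : R n) x = 1 := by simp [xv, ht, hx]
    rw [this, Complex.sub_re, Complex.one_re] at h3
    linarith [h3.1]
  · intro hx
    have : (xv t : R n) x = 0 := by simp [xv, ht, hx]
    rw [this, sub_zero] at h3
    linarith [h3.2]

/-- quadratic form of a real coefficient vector against the moment vector -/
theorem N_sq_of_coeff (E : PE N D) (v : Finset (Fin N) → ℝ) (hv : ∀ S, D < S.card → v S = 0) :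
    E.N (∑ S, ((v S : ℝ) : ℂ) • mono S) ^ 2
      = ∑ S, ∑ S', v S * v S' * (E.L (mono (S ∪ S'))).re := by
  have hB : Bd D (∑ S, |v S|) (∑ S, ((v S : ℝ) : ℂ) • (mono S : R N)) :=
    ⟨fun S => ((v S : ℝ) : ℂ), fun S hS => by simp [hv S hS], by simp, rfl⟩
  rw [E.N_sq hB]
  have e1 : star (∑ S, ((v S : ℝ) : ℂ) • (mono S : R N)) * ∑ S, ((v S : ℝ) : ℂ) • (mono S : R N)
      = ∑ S, ∑ S', ((v S * v S' : ℝ) : ℂ) • mono (S ∪ S') := by
    rw [star_sum, Finset.sum_mul]
    refine Finset.sum_congr rfl fun S _ => ?_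
    rw [Finset.mul_sum]
    refine Finset.sum_congr rfl fun S' _ => ?_
    rw [star_smul, star_mono, smul_mul_smul_comm, mono_mul_mono]
    congr 1
    simp
  rw [e1, map_sum, Complex.re_sum]
  refine Finset.sum_congr rfl fun S _ => ?_
  rw [map_sum, Complex.re_sum]
  refine Finset.sum_congr rfl fun S' _ => ?_
  rw [map_smul, smul_eq_mul, Complex.re_ofReal_mul]

/-- value of a real combination of monomials as an element of `R N`. -/
theorem comb_apply (v : Finset (Fin N) → ℝ) (y : Fin N → Bool) :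
    (∑ S, ((v S : ℝ) : ℂ) • (mono S : R N)) y
      = ((∑ S, v S * (if ∀ i ∈ S, y i = true then 1 else 0) : ℝ) : ℂ) := by
  rw [Finset.sum_apply]
  push_cast
  refine Finset.sum_congr rfl fun S _ => ?_
  rw [Pi.smul_apply, smul_eq_mul, mono_apply]
  split_ifs <;> simp

/-- `0 ≤ T_a(x) ≤ 1`. -/
theorem TT_mem {p : ℝ} (h0 : 0 ≤ p) (h1 : p ≤ 1) (a : Finset ℕ) (y : Fin n → Bool) :
    0 ≤ TT p a y ∧ TT p a y ≤ 1 := by
  have hw : ∀ keep : Fin n → Bool, 0 ≤ Crest.FinProb.bernoulliWeight p keep := by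
    intro keep
    unfold Crest.FinProb.bernoulliWeight
    refine Finset.prod_nonneg fun i _ => ?_
    split_ifs
    · exact h0
    · linarith
  have hs : ∑ keep : Fin n → Bool, Crest.FinProb.bernoulliWeight p keep = 1 := by
    have e : ∑ keep : Fin n → Bool, Crest.FinProb.bernoulliWeight p keep
        = ∏ i : Fin n, ∑ b : Bool, (if b then p else 1 - p) := by
      rw [Finset.prod_univ_sum]
      simp only [Crest.FinProb.bernoulliWeight, Fintype.piFinset_univ]
    rw [e]
    simp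
  have hst : ∀ z : List Bool, 0 ≤ stat a z ∧ stat a z ≤ 1 := by
    intro z; unfold stat; split_ifs <;> norm_num
  constructor
  · exact Finset.sum_nonneg fun keep _ => mul_nonneg (hw keep) (hst _).1
  · rw [← hs]
    exact Finset.sum_le_sum fun keep _ => mul_le_of_le_one_right (hw keep) (hst _).2

/-- the uniform average of a monomial -/
theorem unif_mono (S : Finset (Fin N)) :
    ∑ y : Fin N → Bool, (if ∀ i ∈ S, y i = true then (1 : ℝ) else 0)
      = 2 ^ N * (1 / 2 : ℝ) ^ S.card := by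
  classical
  have e1 : ∀ y : Fin N → Bool, (if ∀ i ∈ S, y i = true then (1 : ℝ) else 0)
      = ∏ i : Fin N, (if i ∈ S then (if y i = true then 1 else 0) else 1) := by
    intro y
    by_cases hy : ∀ i ∈ S, y i = true
    · rw [if_pos hy, Finset.prod_eq_one]
      intro i _
      split_ifs with h1 h2
      · rfl
      · exact absurd (hy i h1) h2
      · rfl
    · rw [if_neg hy]
      push Not at hy
      obtain ⟨i, hi, hyi⟩ := hy
      refine (Finset.prod_eq_zero (Finset.mem_univ i) ?_).symm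
      rw [if_pos hi, if_neg hyi]
  simp_rw [e1]
  have e2 : ∑ y : Fin N → Bool, ∏ i : Fin N, (if i ∈ S then (if y i = true then (1 : ℝ) else 0) else 1)
      = ∏ i : Fin N, ∑ b : Bool, (if i ∈ S then (if b = true then (1 : ℝ) else 0) else 1) := by
    rw [Finset.prod_univ_sum]
    simp only [Fintype.piFinset_univ]
  rw [e2]
  have e3 : ∀ i : Fin N, ∑ b : Bool, (if i ∈ S then (if b = true then (1 : ℝ) else 0) else 1)
      = 2 * (if i ∈ S then (1 / 2 : ℝ) else 1) := by
    intro i
    split_ifs <;> norm_num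
  simp_rw [e3]
  rw [Finset.prod_mul_distrib, Finset.prod_const, Finset.card_univ, Fintype.card_fin]
  congr 1
  rw [Finset.prod_ite_mem_eq, Finset.prod_const]

/-- uniform average of the square of a combination of monomials -/
theorem unif_sq (v : Finset (Fin N) → ℝ) :
    ∑ S, ∑ S', v S * v S' * (1 / 2 : ℝ) ^ (S ∪ S').card
      = (1 / 2 : ℝ) ^ N * ∑ y : Fin N → Bool,
        (∑ S, v S * (if ∀ i ∈ S, y i = true then (1 : ℝ) else 0)) ^ 2 := by
  classical
  have e1 : ∀ y : Fin N → Bool, (∑ S, v S * (if ∀ i ∈ S, y i = true then (1 : ℝ) else 0)) ^ 2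
      = ∑ S, ∑ S', v S * v S' * (if ∀ i ∈ S ∪ S', y i = true then (1 : ℝ) else 0) := by
    intro y
    rw [sq, Finset.sum_mul_sum]
    refine Finset.sum_congr rfl fun S _ => Finset.sum_congr rfl fun S' _ => ?_
    by_cases h1 : ∀ i ∈ S, y i = true
    · by_cases h2 : ∀ i ∈ S', y i = true
      · have h3 : ∀ i ∈ S ∪ S', y i = true := fun i hi =>
          (Finset.mem_union.1 hi).elim (h1 i) (h2 i)
        rw [if_pos h1, if_pos h2, if_pos h3]; ring
      · have h3 : ¬ ∀ i ∈ S ∪ S', y i = true := fun h =>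
          h2 fun i hi => h i (Finset.mem_union_right _ hi)
        rw [if_neg h2, if_neg h3]; ring
    · have h3 : ¬ ∀ i ∈ S ∪ S', y i = true := fun h =>
        h1 fun i hi => h i (Finset.mem_union_left _ hi)
      rw [if_neg h1, if_neg h3]; ring
  simp_rw [e1]
  have e2 : ∑ y : Fin N → Bool, ∑ S, ∑ S', v S * v S' *
      (if ∀ i ∈ S ∪ S', y i = true then (1 : ℝ) else 0)
      = ∑ S, ∑ S', v S * v S' * (2 ^ N * (1 / 2 : ℝ) ^ (S ∪ S').card) := by
    rw [Finset.sum_comm]
    refine Finset.sum_congr rfl fun S _ => ?_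
    rw [Finset.sum_comm]
    refine Finset.sum_congr rfl fun S' _ => ?_
    rw [← unif_mono, Finset.mul_sum]
  rw [e2, Finset.mul_sum]
  refine Finset.sum_congr rfl fun S _ => ?_
  rw [Finset.mul_sum]
  refine Finset.sum_congr rfl fun S' _ => ?_
  have : (1 / 2 : ℝ) ^ N * 2 ^ N = 1 := by rw [← mul_pow]; norm_num
  calc v S * v S' * (1 / 2 : ℝ) ^ (S ∪ S').card
      = ((1 / 2 : ℝ) ^ N * 2 ^ N) * (v S * v S' * (1 / 2 : ℝ) ^ (S ∪ S').card) := by
        rw [this, one_mul]
    _ = _ := by ring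

/-- **data condition from the machine's constraint** -/
theorem data_of_mu (E : PE N D) {mu : Finset (Fin N) → ℝ} {δ : ℝ} (hδ0 : 0 ≤ δ) (hδ1 : δ ≤ 1)
    (hmu0 : 3 / 4 ≤ mu ∅)
    (hE : ∀ S : Finset (Fin N), S.card ≤ 2 * D →
      E.L (mono S) = (((1 - δ) * (mu S / mu ∅) + δ * (1 / 2) ^ S.card : ℝ) : ℂ))
    {p : ℝ} (hp0 : 0 ≤ p) (hp1 : p ≤ 1) {a : Finset ℕ} {co : Finset (Fin N) → ℝ}
    (hco : ∀ S, D < S.card → co S = 0)
    (hrep : ∀ y : Fin N → Bool, TT p a (glue x t h y)
      = ∑ S, co S * (if ∀ i ∈ S, y i = true then 1 else 0))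
    {That β₁ : ℝ} (hThat0 : 0 ≤ That) (hThat1 : That ≤ 1)
    (hdata : |∑ S, ∑ S', (co S - if S = ∅ then That else 0) *
      (co S' - if S' = ∅ then That else 0) * mu (S ∪ S')| ≤ 3 * β₁ ^ 2)
    (hδβ : δ ≤ β₁ ^ 2) (hβ₁ : |That - TT p a x| ≤ β₁) :
    (gluePE x t h E).N (dev x (Tc p a)) ≤ 8 * β₁ := by
  classical
  have hβ0 : 0 ≤ β₁ := (abs_nonneg _).trans hβ₁
  set v : Finset (Fin N) → ℝ := fun S => co S - if S = ∅ then That else 0 with hvdef
  have hv : ∀ S, D < S.card → v S = 0 := by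
    intro S hS
    have hne : S ≠ ∅ := by
      rintro rfl
      simp at hS
    simp [hvdef, hco S hS, hne]
  have hval : ∀ y : Fin N → Bool, ∑ S, v S * (if ∀ i ∈ S, y i = true then (1 : ℝ) else 0)
      = TT p a (glue x t h y) - That := by
    intro y
    rw [hrep y]
    simp only [hvdef, sub_mul, Finset.sum_sub_distrib]
    congr 1
    rw [Finset.sum_eq_single ∅]
    · simp
    · intro S _ hS
      simp [hS]
    · simp
  set W : R N := ∑ S, ((v S : ℝ) : ℂ) • mono S with hW
  have hWB : Bd D (∑ S, |v S|) W :=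
    ⟨fun S => ((v S : ℝ) : ℂ), fun S hS => by simp [hv S hS], by simp, rfl⟩
  -- the norm of `W`
  have hN2 : E.N W ^ 2 ≤ 5 * β₁ ^ 2 := by
    rw [hW, N_sq_of_coeff E v hv]
    have h1 : ∑ S, ∑ S', v S * v S' * (E.L (mono (S ∪ S'))).re
        = (1 - δ) / mu ∅ * (∑ S, ∑ S', v S * v S' * mu (S ∪ S'))
          + δ * ∑ S, ∑ S', v S * v S' * (1 / 2 : ℝ) ^ (S ∪ S').card := by
      rw [Finset.mul_sum, Finset.mul_sum, ← Finset.sum_add_distrib]
      refine Finset.sum_congr rfl fun S _ => ?_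
      rw [Finset.mul_sum, Finset.mul_sum, ← Finset.sum_add_distrib]
      refine Finset.sum_congr rfl fun S' _ => ?_
      by_cases hS : D < S.card
      · simp [hv S hS]
      by_cases hS' : D < S'.card
      · simp [hv S' hS']
      have hcard : (S ∪ S').card ≤ 2 * D := (Finset.card_union_le _ _).trans (by omega)
      rw [hE _ hcard, Complex.ofReal_re]
      ring
    have h2 : (1 - δ) / mu ∅ * (∑ S, ∑ S', v S * v S' * mu (S ∪ S')) ≤ 4 * β₁ ^ 2 := by
      have h3 : 0 ≤ (1 - δ) / mu ∅ := div_nonneg (by linarith) (by linarith)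
      have h4 : (1 - δ) / mu ∅ ≤ 4 / 3 := by
        rw [div_le_div_iff₀ (by linarith) (by norm_num)]
        linarith
      have h5 := (le_abs_self _).trans hdata
      calc (1 - δ) / mu ∅ * (∑ S, ∑ S', v S * v S' * mu (S ∪ S'))
          ≤ (1 - δ) / mu ∅ * (3 * β₁ ^ 2) := mul_le_mul_of_nonneg_left h5 h3
        _ ≤ 4 / 3 * (3 * β₁ ^ 2) := mul_le_mul_of_nonneg_right h4 (by positivity)
        _ = 4 * β₁ ^ 2 := by ring
    have h3 : ∑ S, ∑ S', v S * v S' * (1 / 2 : ℝ) ^ (S ∪ S').card ≤ 1 := by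
      rw [unif_sq]
      have h4 : ∑ y : Fin N → Bool,
          (∑ S, v S * (if ∀ i ∈ S, y i = true then (1 : ℝ) else 0)) ^ 2 ≤ 2 ^ N := by
        calc ∑ y : Fin N → Bool, (∑ S, v S * (if ∀ i ∈ S, y i = true then (1 : ℝ) else 0)) ^ 2
            ≤ ∑ _y : Fin N → Bool, (1 : ℝ) := by
              refine Finset.sum_le_sum fun y _ => ?_
              rw [hval y]
              have := TT_mem hp0 hp1 a (glue x t h y)
              have h6 : |TT p a (glue x t h y) - That| ≤ 1 := by
                rw [abs_le]; constructor <;> linarith [this.1, this.2]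
              rw [← sq_abs]
              exact pow_le_one₀ (abs_nonneg _) h6
          _ = 2 ^ N := by simp
      have h5 : (0 : ℝ) ≤ (1 / 2 : ℝ) ^ N := by positivity
      calc (1 / 2 : ℝ) ^ N * _ ≤ (1 / 2 : ℝ) ^ N * 2 ^ N := mul_le_mul_of_nonneg_left h4 h5
        _ = 1 := by rw [← mul_pow]; norm_num
    rw [h1]
    have h4 : δ * ∑ S, ∑ S', v S * v S' * (1 / 2 : ℝ) ^ (S ∪ S').card ≤ δ * 1 :=
      mul_le_mul_of_nonneg_left h3 hδ0
    linarith
  have hNW : E.N W ≤ 3 * β₁ := by
    refine le_of_sq_le_sq ?_ (by positivity)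
    nlinarith [sq_nonneg β₁]
  -- relation with the deviation
  rw [gluePE_N]
  have hrel : gsub x t h (dev x (Tc p a)) = W + cst ((That - TT p a x : ℝ) : ℂ) := by
    funext y
    have h5 := comb_apply v y
    rw [← hW] at h5
    simp only [gsub, dev_apply, Tc, Pi.add_apply, cst_apply]
    rw [h5, hval y]
    push_cast
    ring
  rw [hrel]
  refine (E.N_add_le hWB (Bd.cst _)).trans ?_
  rw [E.N_cst, Complex.norm_real, Real.norm_eq_abs]
  linarith

/-- **soundness of one decoding step** from an exact pseudo-expectation on the tail. -/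
theorem step_sound_aux {K : ℕ} (hK : 1 ≤ K) (ht : t < n) {p : ℝ} (hp0 : 0 ≤ p) (hp1 : p ≤ 1)
    {β₁ : ℝ}
    (hIdent : ∀ (E : PE n (2 * K)), Prefix E x t → Data E x p K (8 * β₁) →
      E.N (dev x (xv t)) < 1 / 2)
    (E : PE N (2 * K)) {mu : Finset (Fin N) → ℝ} {δ : ℝ} (hδ0 : 0 ≤ δ) (hδ1 : δ ≤ 1)
    (hmu0 : 3 / 4 ≤ mu ∅)
    (hE : ∀ S : Finset (Fin N), S.card ≤ 2 * (2 * K) →
      E.L (mono S) = (((1 - δ) * (mu S / mu ∅) + δ * (1 / 2) ^ S.card : ℝ) : ℂ))
    (hδβ : δ ≤ β₁ ^ 2) {co : Finset ℕ → Finset (Fin N) → ℝ} {That : Finset ℕ → ℝ}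
    (hco : ∀ a : Finset ℕ, a.card ≤ K → (∀ j ∈ a, j < n) → ∀ S, K < S.card → co a S = 0)
    (hrep : ∀ a : Finset ℕ, a.card ≤ K → (∀ j ∈ a, j < n) → ∀ y : Fin N → Bool,
      TT p a (glue x t h y) = ∑ S, co a S * (if ∀ i ∈ S, y i = true then 1 else 0))
    (hThat : ∀ a : Finset ℕ, a.card ≤ K → (∀ j ∈ a, j < n) →
      0 ≤ That a ∧ That a ≤ 1 ∧ |That a - TT p a x| ≤ β₁)
    (hdata : ∀ a : Finset ℕ, a.card ≤ K → (∀ j ∈ a, j < n) →
      |∑ S, ∑ S', (co a S - if S = ∅ then That a else 0) *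
        (co a S' - if S' = ∅ then That a else 0) * mu (S ∪ S')| ≤ 3 * β₁ ^ 2)
    (hN : 0 < N) :
    (x ⟨t, ht⟩ = true ↔ mu ∅ < 2 * mu {(⟨0, hN⟩ : Fin N)}) := by
  have hdat : Data (gluePE x t h E) x p K (8 * β₁) := by
    intro a ha hj
    obtain ⟨h1, h2, h3⟩ := hThat a ha hj
    exact data_of_mu E hδ0 hδ1 hmu0 hE hp0 hp1 (fun S hS => hco a ha hj S (by omega))
      (hrep a ha hj) h1 h2 (hdata a ha hj) hδβ h3
  have hlt := hIdent (gluePE x t h E) (gluePE_prefix E) hdat
  obtain ⟨r1, r2⟩ := round_of_N (gluePE x t h E) (by omega) ht hlt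
  have hL : ((gluePE x t h E).L (xv t)).re
      = (1 - δ) * (mu {(⟨0, hN⟩ : Fin N)} / mu ∅) + δ * (1 / 2) := by
    rw [gluePE_L, gsub_xv_self hN, hE _ (by simp; omega), Complex.ofReal_re]
    simp
  rw [hL] at r1 r2
  have hm : 0 < mu ∅ := by linarith
  constructor
  · intro hx
    have h1 := r1 hx
    have h2 : 0 < (1 - δ) * (mu {(⟨0, hN⟩ : Fin N)} / mu ∅ - 1 / 2) := by linarith
    have h3 : 0 < mu {(⟨0, hN⟩ : Fin N)} / mu ∅ - 1 / 2 := by
      by_contra hcon
      push Not at hcon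
      have := mul_nonpos_of_nonneg_of_nonpos (by linarith : 0 ≤ 1 - δ) hcon
      linarith
    have h4 : 1 / 2 < mu {(⟨0, hN⟩ : Fin N)} / mu ∅ := by linarith
    rw [lt_div_iff₀ hm] at h4
    linarith
  · intro hlt2
    by_contra hx
    have hx' : x ⟨t, ht⟩ = false := by simpa using hx
    have h1 := r2 hx'
    have h4 : 1 / 2 < mu {(⟨0, hN⟩ : Fin N)} / mu ∅ := by
      rw [lt_div_iff₀ hm]; linarith
    have h2 : 0 ≤ (1 - δ) * (mu {(⟨0, hN⟩ : Fin N)} / mu ∅ - 1 / 2) :=
      mul_nonneg (by linarith) (by linarith)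
    linarith

/-- the statement of helper333's bridge -/
def ExistsPE : Prop :=
  ∀ (N D : ℕ) (μ : Finset (Fin N) → ℝ) (ε : ℝ), 0 ≤ ε → |μ ∅ - 1| ≤ 1 / 4 →
    (∀ a : Finset (Fin N) → ℝ, (∀ S, D < S.card → a S = 0) →
      -ε * ∑ S, a S ^ 2 ≤ ∑ S, ∑ T, a S * a T * μ (S ∪ T)) →
    2 * ε * 4 ^ D * ((N : ℝ) + 1) ^ (2 * D) ≤ 1 →
    ∃ E : PE N D, ∀ S : Finset (Fin N), S.card ≤ 2 * D →
      E.L (mono S) = (((1 - 2 * ε * 4 ^ D * ((N : ℝ) + 1) ^ (2 * D)) * (μ S / μ ∅) +
        2 * ε * 4 ^ D * ((N : ℝ) + 1) ^ (2 * D) * (1 / 2) ^ S.card : ℝ) : ℂ)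

variable (h) in
/-- **soundness of one decoding step** from an approximate moment vector. -/
theorem step_sound_of (hEx : ExistsPE) {K m : ℕ} (hK : 1 ≤ K) (ht : t < n) {p : ℝ} (hp0 : 0 ≤ p)
    (hp1 : p ≤ 1) {β₁ : ℝ} (hβ0 : 0 ≤ β₁) (hβ1 : β₁ ≤ 1)
    (hIdent : ∀ (E : PE n (2 * K)), Prefix E x t → Data E x p K (8 * β₁) →
      E.N (dev x (xv t)) < 1 / 2)
    {mu : Finset (Fin N) → ℝ} (hm : 3 / (m : ℝ) ≤ 1 / 4) (h0 : |mu ∅ - 1| ≤ 3 / (m : ℝ))
    (hpsd : ∀ c : Finset (Fin N) → ℝ, (∀ S, 2 * K < S.card → c S = 0) →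
      -(1 / (m : ℝ)) * ∑ S, c S ^ 2 ≤ ∑ S, ∑ T, c S * c T * mu (S ∪ T))
    (hnum : 2 * (1 / (m : ℝ)) * 4 ^ (2 * K) * ((N : ℝ) + 1) ^ (4 * K) ≤ β₁ ^ 2)
    {gl : (Fin N → Bool) → Fin n → Bool}
    (hgl1 : ∀ (y : Fin N → Bool) (i : Fin n), (i : ℕ) < t → gl y i = x i)
    (hgl2 : ∀ (y : Fin N → Bool) (i : Fin n) (hi : ¬ (i : ℕ) < t),
      gl y i = y ⟨i - t, by omega⟩)
    {co : Finset ℕ → Finset (Fin N) → ℝ} {That : Finset ℕ → ℝ}
    (hco : ∀ a : Finset ℕ, a.card ≤ K → (∀ j ∈ a, j < n) → ∀ S, K < S.card → co a S = 0)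
    (hrep : ∀ a : Finset ℕ, a.card ≤ K → (∀ j ∈ a, j < n) → ∀ y : Fin N → Bool,
      TT p a (gl y) = ∑ S, co a S * (if ∀ i ∈ S, y i = true then 1 else 0))
    (hThat : ∀ a : Finset ℕ, a.card ≤ K → (∀ j ∈ a, j < n) →
      0 ≤ That a ∧ That a ≤ 1 ∧ |That a - TT p a x| ≤ β₁)
    (hdata : ∀ a : Finset ℕ, a.card ≤ K → (∀ j ∈ a, j < n) →
      |∑ S, ∑ S', (co a S - if S = ∅ then That a else 0) *
        (co a S' - if S' = ∅ then That a else 0) * mu (S ∪ S')| ≤ 3 * β₁ ^ 2)
    (hN : 0 < N) :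
    (x ⟨t, ht⟩ = true ↔ mu ∅ < 2 * mu {(⟨0, hN⟩ : Fin N)}) := by
  have hglue : ∀ y : Fin N → Bool, gl y = glue x t h y := by
    intro y
    funext i
    unfold glue
    split_ifs with hi
    · exact hgl1 y i hi
    · exact hgl2 y i hi
  have hδ : 2 * (1 / (m : ℝ)) * 4 ^ (2 * K) * ((N : ℝ) + 1) ^ (2 * (2 * K)) ≤ β₁ ^ 2 := by
    rw [show 2 * (2 * K) = 4 * K by ring]
    exact hnum
  have hδ1 : 2 * (1 / (m : ℝ)) * 4 ^ (2 * K) * ((N : ℝ) + 1) ^ (2 * (2 * K)) ≤ 1 :=
    hδ.trans (pow_le_one₀ hβ0 hβ1)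
  obtain ⟨E, hE⟩ := hEx N (2 * K) mu (1 / (m : ℝ)) (by positivity) (h0.trans hm) hpsd hδ1
  refine step_sound_aux (h := h) hK ht hp0 hp1 hIdent E (by positivity) hδ1 ?_ hE hδ hco ?_ hThat hdata hN
  · have := (abs_le.1 (h0.trans hm)).1
    linarith
  · intro a ha hj y
    rw [← hglue y]
    exact hrep a ha hj y



end step

end Crest.Agent.R300U
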