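import Mathlib
import Crest.Prelude.Def_TraceRecon
import Crest.Prelude.Def_TraceSym
import Crest.Prelude.Def_TraceDecoder
import Crest.Agent.R300.U.Iface

-- ▼ part R300/Prob
section

/-!
# Row 300, upper bounds: probability layer

* `sum_pi_prod`, `second_moment`, `conc`: Chebyshev for `m` independent samples on a finite
  weighted space, for a finite family of `[0,1]`-valued statistics at once;
* `stat`, `T`, `That`: the `k`-point trace statistics, their expectations and empirical means;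
* `good_event`, `good_event_sym`;
* `decoderSuccessProb_ge`: success probability of a decoder that is correct on an event.
-/

set_option autoImplicit false

namespace Crest.Agent.R300.Prob

open Crest.FinProb Crest.TraceRecon Finset

noncomputable section

/-- Total weight of an event. -/
def prb {Ω : Type*} [Fintype Ω] (W : Ω → ℝ) (G : Ω → Prop) : ℝ :=
  haveI := Classical.decPred G
  ∑ ω, W ω * (if G ω then 1 else 0)

theorem prb_mono {Ω : Type*} [Fintype Ω] (W : Ω → ℝ) (hW : ∀ ω, 0 ≤ W ω) {G G' : Ω → Prop}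
    (h : ∀ ω, G ω → G' ω) : prb W G ≤ prb W G' := by
  classical
  unfold prb
  refine Finset.sum_le_sum fun ω _ => mul_le_mul_of_nonneg_left ?_ (hW ω)
  by_cases h1 : G ω
  · rw [if_pos h1, if_pos (h ω h1)]
  · rw [if_neg h1]; split_ifs <;> norm_num

theorem le_prb {Ω : Type*} [Fintype Ω] (W F : Ω → ℝ) (G : Ω → Prop)
    (h1 : ∀ ω, G ω → F ω ≤ W ω) (h2 : ∀ ω, ¬ G ω → F ω ≤ 0) : ∑ ω, F ω ≤ prb W G := by
  classical
  unfold prb
  refine Finset.sum_le_sum fun ω _ => ?_
  by_cases h : G ω
  · rw [if_pos h, mul_one]; exact h1 ω h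
  · rw [if_neg h, mul_zero]; exact h2 ω h

/-! ## Independent samples from a finite weighted space -/

section General

variable {ι Ω : Type*} [Fintype ι] [DecidableEq ι] [Fintype Ω]

theorem sum_pi_prod (F : ι → Ω → ℝ) :
    ∑ ω : ι → Ω, ∏ k, F k (ω k) = ∏ k, ∑ a, F k a := by
  classical
  rw [Finset.prod_univ_sum, Fintype.piFinset_univ]

theorem sum_prod_weight (w : Ω → ℝ) (hw1 : ∑ a, w a = 1) :
    ∑ ω : ι → Ω, ∏ k, w (ω k) = 1 := by
  rw [sum_pi_prod (fun _ => w)]
  simp [hw1]

theorem cross_moment (w : Ω → ℝ) (hw1 : ∑ a, w a = 1) (g : Ω → ℝ) (hg : ∑ a, w a * g a = 0)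
    (k l : ι) :
    ∑ ω : ι → Ω, (∏ j, w (ω j)) * (g (ω k) * g (ω l))
      = if k = l then ∑ a, w a * g a ^ 2 else 0 := by
  classical
  have h1 : ∀ ω : ι → Ω, (∏ j, w (ω j)) * (g (ω k) * g (ω l))
      = ∏ j, (w (ω j) * (if j = k then g (ω j) else 1) * (if j = l then g (ω j) else 1)) := by
    intro ω
    rw [Finset.prod_mul_distrib, Finset.prod_mul_distrib]
    rw [Finset.prod_ite_eq' Finset.univ k (fun j => g (ω j)),
      Finset.prod_ite_eq' Finset.univ l (fun j => g (ω j))]
    simp only [Finset.mem_univ, if_true]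
    ring
  simp_rw [h1]
  rw [sum_pi_prod (fun j a => w a * (if j = k then g a else 1) * (if j = l then g a else 1))]
  by_cases hkl : k = l
  · subst hkl
    rw [if_pos rfl]
    rw [Finset.prod_eq_single k]
    · refine Finset.sum_congr rfl fun a _ => ?_
      simp only [if_true]; ring
    · intro j _ hj
      simp only [if_neg hj, mul_one]
      exact hw1
    · intro h; exact absurd (Finset.mem_univ k) h
  · rw [if_neg hkl]
    apply Finset.prod_eq_zero (Finset.mem_univ k)
    simp only [if_true, if_neg hkl, mul_one]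
    exact hg

theorem second_moment (w : Ω → ℝ) (hw1 : ∑ a, w a = 1) (g : Ω → ℝ)
    (hg : ∑ a, w a * g a = 0) :
    ∑ ω : ι → Ω, (∏ j, w (ω j)) * (∑ k, g (ω k)) ^ 2
      = Fintype.card ι * ∑ a, w a * g a ^ 2 := by
  classical
  have h1 : ∀ ω : ι → Ω, (∏ j, w (ω j)) * (∑ k, g (ω k)) ^ 2
      = ∑ k, ∑ l, (∏ j, w (ω j)) * (g (ω k) * g (ω l)) := by
    intro ω
    rw [sq, Finset.sum_mul_sum, Finset.mul_sum]
    refine Finset.sum_congr rfl fun k _ => ?_
    rw [Finset.mul_sum]
  simp_rw [h1]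
  rw [Finset.sum_comm]
  have h2 : ∀ k : ι, ∑ ω : ι → Ω, ∑ l, (∏ j, w (ω j)) * (g (ω k) * g (ω l))
      = ∑ a, w a * g a ^ 2 := by
    intro k
    rw [Finset.sum_comm]
    simp_rw [cross_moment w hw1 g hg]
    simp
  simp_rw [h2]
  simp

theorem var_le (w : Ω → ℝ) (hw0 : ∀ a, 0 ≤ w a) (hw1 : ∑ a, w a = 1) (f : Ω → ℝ)
    (hf0 : ∀ a, 0 ≤ f a) (hf1 : ∀ a, f a ≤ 1) :
    ∑ a, w a * (f a - ∑ b, w b * f b) ^ 2 ≤ 1 / 4 := by
  set μ := ∑ b, w b * f b with hμ
  have h1 : ∑ a, w a * (f a - μ) ^ 2 = ∑ a, w a * f a ^ 2 - μ ^ 2 := by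
    have : ∀ a, w a * (f a - μ) ^ 2 = w a * f a ^ 2 - 2 * μ * (w a * f a) + μ ^ 2 * w a := by
      intro a; ring
    simp_rw [this]
    rw [Finset.sum_add_distrib, Finset.sum_sub_distrib, ← Finset.mul_sum, ← Finset.mul_sum, hw1,
      ← hμ]
    ring
  have h2 : ∑ a, w a * f a ^ 2 ≤ μ := by
    rw [hμ]
    refine Finset.sum_le_sum fun a _ => mul_le_mul_of_nonneg_left ?_ (hw0 a)
    nlinarith [hf0 a, hf1 a]
  rw [h1]
  nlinarith [sq_nonneg (μ - 1 / 2)]

/-- Chebyshev and the union bound for a finite family of `[0,1]`-valued statistics. -/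
theorem conc (w : Ω → ℝ) (hw0 : ∀ a, 0 ≤ w a) (hw1 : ∑ a, w a = 1) {J : Type*}
    (AA : Finset J) (f : J → Ω → ℝ) (hf0 : ∀ j a, 0 ≤ f j a) (hf1 : ∀ j a, f j a ≤ 1)
    (β : ℝ) (hβ : 0 < β) (hm : 0 < Fintype.card ι) :
    1 - (AA.card : ℝ) / (4 * Fintype.card ι * β ^ 2)
      ≤ prb (fun ω : ι → Ω => ∏ k, w (ω k))
          (fun ω => ∀ j ∈ AA, |(∑ k, f j (ω k)) / Fintype.card ι - ∑ a, w a * f j a| ≤ β) := by
  classical
  have hm' : (0 : ℝ) < Fintype.card ι := by exact_mod_cast hm
  refine le_trans ?_ (le_prb (fun ω : ι → Ω => ∏ k, w (ω k))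
    (fun ω => (∏ k, w (ω k)) - ∑ j ∈ AA, (∏ k, w (ω k)) *
          ((∑ k, (f j (ω k) - ∑ a, w a * f j a)) ^ 2 / (Fintype.card ι * β) ^ 2)) _ ?_ ?_)
  rotate_left
  · intro ω _
    have hP : 0 ≤ ∏ k, w (ω k) := Finset.prod_nonneg fun k _ => hw0 _
    have : 0 ≤ ∑ j ∈ AA, (∏ k, w (ω k)) *
          ((∑ k, (f j (ω k) - ∑ a, w a * f j a)) ^ 2 / (Fintype.card ι * β) ^ 2) :=
        Finset.sum_nonneg fun j _ => mul_nonneg hP (by positivity)
    show (∏ k, w (ω k)) - _ ≤ ∏ k, w (ω k)
    linarith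
  · intro ω h
    have hP : 0 ≤ ∏ k, w (ω k) := Finset.prod_nonneg fun k _ => hw0 _
    push Not at h
    obtain ⟨j, hj, hdev⟩ := h
    have h1 : (∏ k, w (ω k)) * 1 ≤ (∏ k, w (ω k)) *
          ((∑ k, (f j (ω k) - ∑ a, w a * f j a)) ^ 2 / (Fintype.card ι * β) ^ 2) := by
        apply mul_le_mul_of_nonneg_left _ hP
        rw [le_div_iff₀ (by positivity), one_mul]
        have h2 : ∑ k, (f j (ω k) - ∑ a, w a * f j a)
            = Fintype.card ι * ((∑ k, f j (ω k)) / Fintype.card ι - ∑ a, w a * f j a) := by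
          rw [Finset.sum_sub_distrib, Finset.sum_const, Finset.card_univ, nsmul_eq_mul, mul_sub,
            mul_div_cancel₀ _ hm'.ne']
        rw [h2, mul_pow, mul_pow]
        apply mul_le_mul_of_nonneg_left _ (by positivity)
        rw [← sq_abs ((∑ k, f j (ω k)) / Fintype.card ι - ∑ a, w a * f j a)]
        exact pow_le_pow_left₀ hβ.le hdev.le 2
    have h3 : (∏ k, w (ω k)) *
          ((∑ k, (f j (ω k) - ∑ a, w a * f j a)) ^ 2 / (Fintype.card ι * β) ^ 2)
          ≤ ∑ j ∈ AA, (∏ k, w (ω k)) *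
          ((∑ k, (f j (ω k) - ∑ a, w a * f j a)) ^ 2 / (Fintype.card ι * β) ^ 2) :=
        Finset.single_le_sum (f := fun j => (∏ k, w (ω k)) *
          ((∑ k, (f j (ω k) - ∑ a, w a * f j a)) ^ 2 / (Fintype.card ι * β) ^ 2))
          (fun j _ => mul_nonneg hP (by positivity)) hj
    show (∏ k, w (ω k)) - _ ≤ 0
    linarith
  rw [Finset.sum_sub_distrib, sum_prod_weight w hw1, Finset.sum_comm]
  have hj : ∀ j ∈ AA, ∑ ω : ι → Ω, (∏ k, w (ω k)) *
          ((∑ k, (f j (ω k) - ∑ a, w a * f j a)) ^ 2 / (Fintype.card ι * β) ^ 2)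
        ≤ 1 / (4 * Fintype.card ι * β ^ 2) := by
    intro j _
    have h1 : ∀ ω : ι → Ω, (∏ k, w (ω k)) *
          ((∑ k, (f j (ω k) - ∑ a, w a * f j a)) ^ 2 / (Fintype.card ι * β) ^ 2)
        = ((∏ k, w (ω k)) * (∑ k, (f j (ω k) - ∑ a, w a * f j a)) ^ 2)
            * (1 / (Fintype.card ι * β) ^ 2) := by
      intro ω; ring
    simp_rw [h1]
    rw [← Finset.sum_mul]
    rw [second_moment w hw1 (fun b => f j b - ∑ a, w a * f j a) (by
      simp_rw [mul_sub]
      rw [Finset.sum_sub_distrib, ← Finset.sum_mul, hw1]; ring)]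
    have h2 := var_le w hw0 hw1 (f j) (hf0 j) (hf1 j)
    calc (Fintype.card ι : ℝ) * (∑ a, w a * (f j a - ∑ a, w a * f j a) ^ 2)
          * (1 / (Fintype.card ι * β) ^ 2)
        ≤ (Fintype.card ι : ℝ) * (1 / 4) * (1 / (Fintype.card ι * β) ^ 2) := by
          apply mul_le_mul_of_nonneg_right _ (by positivity)
          exact mul_le_mul_of_nonneg_left h2 hm'.le
      _ = 1 / (4 * Fintype.card ι * β ^ 2) := by
          field_simp
  have h4 := Finset.sum_le_sum hj
  rw [Finset.sum_const, nsmul_eq_mul] at h4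
  have h5 : (AA.card : ℝ) * (1 / (4 * Fintype.card ι * β ^ 2))
      = (AA.card : ℝ) / (4 * Fintype.card ι * β ^ 2) := by ring
  rw [h5] at h4
  linarith

end General

/-! ## Bernoulli weights -/

theorem bw_nonneg {ι : Type*} [Fintype ι] {p : ℝ} (h0 : 0 ≤ p) (h1 : p ≤ 1) (ω : ι → Bool) :
    0 ≤ bernoulliWeight p ω := by
  unfold bernoulliWeight
  refine Finset.prod_nonneg fun i _ => ?_
  split_ifs
  · exact h0
  · linarith

theorem sum_bw {ι : Type*} [Fintype ι] [DecidableEq ι] (p : ℝ) :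
    ∑ ω : ι → Bool, bernoulliWeight p ω = 1 := by
  unfold bernoulliWeight
  rw [sum_pi_prod (fun (_ : ι) (b : Bool) => if b then p else 1 - p)]
  simp

/-! ## Trace statistics -/

/-- The value of the statistic `∏_{j ∈ a} y_j` on a trace `y` (with `y_j = 0` beyond the end). -/
def stat (a : Finset ℕ) (y : List Bool) : ℝ :=
  if ∀ j ∈ a, y.getD j false = true then 1 else 0

theorem stat_nonneg (a : Finset ℕ) (y : List Bool) : 0 ≤ stat a y := by
  unfold stat; split_ifs <;> norm_num

theorem stat_le_one (a : Finset ℕ) (y : List Bool) : stat a y ≤ 1 := by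
  unfold stat; split_ifs <;> norm_num

/-- The expectation of `stat a` over one trace of `x` at retention probability `p`. -/
def T (p : ℝ) {n : ℕ} (x : Fin n → Bool) (a : Finset ℕ) : ℝ :=
  ∑ keep : Fin n → Bool, bernoulliWeight p keep * stat a (traceOf x keep)

/-- The empirical mean of `stat a` over the observed traces. -/
def That {m : ℕ} (τ : Fin m → List Bool) (a : Finset ℕ) : ℝ :=
  (∑ k, stat a (τ k)) / m

/-- With large probability all empirical statistics of a finite family are accurate. -/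
theorem good_event {n m : ℕ} (p : ℝ) (h0 : 0 ≤ p) (h1 : p ≤ 1) (x : Fin n → Bool)
    (AA : Finset (Finset ℕ)) (β : ℝ) (hβ : 0 < β) (hm : 0 < m) :
    1 - (AA.card : ℝ) / (4 * m * β ^ 2)
      ≤ prb (fun keeps : Fin m → Fin n → Bool => ∏ k, bernoulliWeight p (keeps k))
          (fun keeps => ∀ a ∈ AA, |That (fun k => traceOf x (keeps k)) a - T p x a| ≤ β) := by
  have h := conc (ι := Fin m) (Ω := Fin n → Bool) (fun keep => bernoulliWeight p keep)
    (fun keep => bw_nonneg h0 h1 keep) (sum_bw p) AA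
    (fun a keep => stat a (traceOf x keep)) (fun a keep => stat_nonneg _ _)
    (fun a keep => stat_le_one _ _) β hβ (by simpa using hm)
  simp only [Fintype.card_fin] at h
  exact h

/-! ## Decoders -/

theorem uniformProb_le_one' {Ω : Type*} [Fintype Ω] (E : Set Ω) : 0 ≤ uniformProb E := by
  unfold uniformProb
  positivity

/-- A decoder that is correct (for every random tape) on an event of the traces succeeds with at
least the probability of that event. -/
theorem decoderSuccessProb_ge {n m : ℕ} (p : ℚ) (hp0 : 0 ≤ p) (hp1 : p ≤ 1)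
    (A : List Bool × List Bool → List Bool) (r : Polynomial ℕ) (x : Fin n → Bool)
    (good : (Fin m → Fin n → Bool) → Prop)
    (hgood : ∀ keeps, good keeps → ∀ tape : List Bool,
      readWord n (A (decoderInput n p (fun k => traceOf x (keeps k)), tape)) = x) :
    prb (fun keeps : Fin m → Fin n → Bool => ∏ k, bernoulliWeight (p : ℝ) (keeps k)) good
      ≤ decoderSuccessProb m p A r x := by
  classical
  unfold decoderSuccessProb prb
  refine Finset.sum_le_sum fun keeps _ => ?_
  have hP : 0 ≤ ∏ k, bernoulliWeight (p : ℝ) (keeps k) :=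
    Finset.prod_nonneg fun k _ => bw_nonneg (by exact_mod_cast hp0) (by exact_mod_cast hp1) _
  refine mul_le_mul_of_nonneg_left ?_ hP
  split_ifs with h
  · have : {ω : Fin (r.eval (decoderInput n p (fun k => traceOf x (keeps k))).length) → Bool |
        readWord n (A (decoderInput n p (fun k => traceOf x (keeps k)), List.ofFn ω)) = x}
        = Set.univ := by
      ext ω
      simp only [Set.mem_ofPred_eq, Set.mem_univ, iff_true]
      exact hgood keeps h _
    rw [this]
    unfold uniformProb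
    simp
  · exact uniformProb_le_one' _

/-- Main form for the decoder: if the decoder is correct whenever all statistics `a ∈ AA` are
within `β` of their expectations, it succeeds with probability at least `1 - |AA|/(4 m β²)`. -/
theorem decoderSuccessProb_ge_of_stat {n m : ℕ} (p : ℚ) (hp0 : 0 ≤ p) (hp1 : p ≤ 1)
    (A : List Bool × List Bool → List Bool) (r : Polynomial ℕ) (x : Fin n → Bool)
    (AA : Finset (Finset ℕ)) (β : ℝ) (hβ : 0 < β) (hm : 0 < m)
    (hgood : ∀ keeps : Fin m → Fin n → Bool,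
      (∀ a ∈ AA, |That (fun k => traceOf x (keeps k)) a - T (p : ℝ) x a| ≤ β) →
      ∀ tape : List Bool,
      readWord n (A (decoderInput n p (fun k => traceOf x (keeps k)), tape)) = x) :
    1 - (AA.card : ℝ) / (4 * m * β ^ 2) ≤ decoderSuccessProb m p A r x := by
  refine le_trans (good_event (p : ℝ) (by exact_mod_cast hp0) (by exact_mod_cast hp1) x AA β hβ hm)
    (decoderSuccessProb_ge p hp0 hp1 A r x _ hgood)

end

end Crest.Agent.R300.Prob
end

-- ▼ part R300/ProbSym
section

/-!
# Row 300: S0456 from the separation theorem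

`SEP`: two binary words of length `n` whose `k`-point trace statistics (`k ≤ K`) agree up to `β`
are equal.  `sample_upper_of_SEP`: the frozen statement S0456.
-/

set_option autoImplicit false

namespace Crest.Agent.R300.Prob

open Crest.FinProb Crest.TraceRecon Finset

noncomputable section

/-! ## A small family of index sets -/

/-- All sets of at most `K` trace positions `< n`, as the image of a family of `(n+1)^K` codes. -/
def idx (n K : ℕ) : Finset (Finset ℕ) :=
  (Finset.univ : Finset (Fin K → Fin (n + 1))).image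
    (fun g => (Finset.univ.image (fun i => (g i : ℕ))).erase n)

theorem card_idx_le (n K : ℕ) : (idx n K).card ≤ (n + 1) ^ K := by
  unfold idx
  refine le_trans Finset.card_image_le ?_
  simp

theorem mem_idx {n K : ℕ} (a : Finset ℕ) (ha : a ⊆ Finset.range n) (hK : a.card ≤ K) :
    a ∈ idx n K := by
  classical
  unfold idx
  rw [Finset.mem_image]
  refine ⟨fun i => if h : (i : ℕ) < a.card then
      ⟨a.orderEmbOfFin rfl ⟨i, h⟩, ?_⟩ else ⟨n, Nat.lt_succ_self n⟩, Finset.mem_univ _, ?_⟩
  · have := ha (Finset.orderEmbOfFin_mem a rfl ⟨i, h⟩)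
    rw [Finset.mem_range] at this
    omega
  · ext j
    rw [Finset.mem_erase, Finset.mem_image]
    constructor
    · rintro ⟨hj, i, _, hi⟩
      by_cases h : (i : ℕ) < a.card
      · simp only [dif_pos h] at hi
        rw [← hi]
        exact Finset.orderEmbOfFin_mem a rfl _
      · simp only [dif_neg h] at hi
        exact absurd hi.symm hj
    · intro hj
      have hjn : j < n := by simpa using ha hj
      refine ⟨by omega, ?_⟩
      have : j ∈ Set.range (a.orderEmbOfFin rfl) := by
        rw [Finset.range_orderEmbOfFin]; exact hj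
      obtain ⟨l, hl⟩ := this
      refine ⟨⟨l, lt_of_lt_of_le l.2 hK⟩, Finset.mem_univ _, ?_⟩
      simp only [dif_pos l.2]
      exact hl

/-! ## Indicator words -/

/-- the indicator word of the symbol `α` -/
def ind {S : Type*} [DecidableEq S] {n : ℕ} (x : Fin n → S) (α : S) : Fin n → Bool :=
  fun i => decide (x i = α)

theorem traceOf_ind {S : Type*} [DecidableEq S] {n : ℕ} (x : Fin n → S) (α : S)
    (keep : Fin n → Bool) :
    traceOf (ind x α) keep = (symTraceOf x keep).map (fun c => decide (c = α)) := by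
  unfold traceOf symTraceOf ind
  rw [List.map_map]
  rfl

theorem ind_injective {S : Type*} [DecidableEq S] {n : ℕ} {x y : Fin n → S}
    (h : ∀ α, ind x α = ind y α) : x = y := by
  funext i
  have := congrFun (h (x i)) i
  unfold ind at this
  simp only [decide_true] at this
  have h2 := this.symm
  rw [decide_eq_true_eq] at h2
  exact h2.symm

theorem stat_all_false (a : Finset ℕ) (y : List Bool) (hy : ∀ b ∈ y, b = false) :
    stat a y = if a = ∅ then 1 else 0 := by
  unfold stat
  by_cases h : a = ∅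
  · subst h; simp
  · rw [if_neg h, if_neg]
    intro hall
    obtain ⟨j, hj⟩ := Finset.nonempty_iff_ne_empty.mpr h
    have h1 := hall j hj
    rw [List.getD_eq_getElem?_getD] at h1
    cases hg : y[j]? with
    | none => rw [hg] at h1; simp at h1
    | some b =>
      rw [hg] at h1
      simp only [Option.getD_some] at h1
      have := hy b (List.mem_of_getElem? hg)
      rw [this] at h1
      exact absurd h1 (by simp)

theorem traceOf_false {S : Type*} [DecidableEq S] {n : ℕ} (x : Fin n → S) (α : S)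
    (hα : ∀ i, x i ≠ α) (keep : Fin n → Bool) : ∀ b ∈ traceOf (ind x α) keep, b = false := by
  intro b hb
  unfold traceOf at hb
  rw [List.mem_map] at hb
  obtain ⟨i, _, hi⟩ := hb
  rw [← hi]
  unfold ind
  exact decide_eq_false (hα i)

/-- Simultaneous accuracy for all symbols; only the positions (not the alphabet) cost. -/
theorem good_event_sym {S : Type*} [DecidableEq S] {n m : ℕ} (p : ℝ) (h0 : 0 ≤ p) (h1 : p ≤ 1)
    (x : Fin n → S) (AA : Finset (Finset ℕ)) (β : ℝ) (hβ : 0 < β) (hm : 0 < m) :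
    1 - (n * AA.card : ℝ) / (4 * m * β ^ 2)
      ≤ prb (fun keeps : Fin m → Fin n → Bool => ∏ k, bernoulliWeight p (keeps k))
          (fun keeps => ∀ α : S, ∀ a ∈ AA,
            |That (fun k => traceOf (ind x α) (keeps k)) a - T p (ind x α) a| ≤ β) := by
  classical
  have h := conc (ι := Fin m) (Ω := Fin n → Bool) (fun keep => bernoulliWeight p keep)
    (fun keep => bw_nonneg h0 h1 keep) (sum_bw p) ((Finset.univ : Finset (Fin n)) ×ˢ AA)
    (fun j keep => stat j.2 (traceOf (ind x (x j.1)) keep)) (fun a keep => stat_nonneg _ _)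
    (fun a keep => stat_le_one _ _) β hβ (by simpa using hm)
  rw [Finset.card_product, Finset.card_univ, Fintype.card_fin, Fintype.card_fin,
    Nat.cast_mul] at h
  refine le_trans h ?_
  refine prb_mono _ (fun keeps => Finset.prod_nonneg fun k _ => bw_nonneg h0 h1 _) ?_
  intro keeps hk α a ha
  by_cases hα : ∃ i, x i = α
  · obtain ⟨i, rfl⟩ := hα
    exact hk (i, a) (Finset.mem_product.mpr ⟨Finset.mem_univ _, ha⟩)
  · push Not at hα
    have e1 : That (fun k => traceOf (ind x α) (keeps k)) a = if a = ∅ then 1 else 0 := by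
      unfold That
      have : ∀ k : Fin m, stat a (traceOf (ind x α) (keeps k)) = if a = ∅ then 1 else 0 :=
        fun k => stat_all_false a _ (traceOf_false x α hα _)
      simp_rw [this]
      rw [Finset.sum_const, Finset.card_univ, Fintype.card_fin, nsmul_eq_mul]
      rw [mul_comm, mul_div_assoc, div_self (by exact_mod_cast hm.ne'), mul_one]
    have e2 : T p (ind x α) a = if a = ∅ then 1 else 0 := by
      unfold T
      have : ∀ keep : Fin n → Bool, stat a (traceOf (ind x α) keep) = if a = ∅ then 1 else 0 :=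
        fun k => stat_all_false a _ (traceOf_false x α hα _)
      simp_rw [this]
      rw [← Finset.sum_mul, sum_bw, one_mul]
    rw [e1, e2, sub_self, abs_zero]
    exact hβ.le

/-! ## The separation theorem and S0456 -/

/-- `X = 1 + log n / (1 + log (1/(1-p)))` -/
def XX (n : ℕ) (p : ℝ) : ℝ := 1 + Real.log n / (1 + Real.log (1 / (1 - p)))

/-- `Y = p⁻¹ log n X²` -/
def YY (n : ℕ) (p : ℝ) : ℝ := p⁻¹ * Real.log n * XX n p ^ 2

theorem one_le_XX {n : ℕ} {p : ℝ} (hn : 2 ≤ n) (h0 : 0 < p) (h1 : p < 1) : 1 ≤ XX n p := by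
  unfold XX
  have hl : 0 ≤ Real.log (1 / (1 - p)) := by
    apply Real.log_nonneg
    rw [le_div_iff₀ (by linarith)]
    linarith
  have : 0 ≤ Real.log n / (1 + Real.log (1 / (1 - p))) :=
    div_nonneg (Real.log_nonneg (by exact_mod_cast (by omega : 1 ≤ n))) (by linarith)
  linarith

theorem log_le_YY {n : ℕ} {p : ℝ} (hn : 2 ≤ n) (h0 : 0 < p) (h1 : p < 1) :
    Real.log n ≤ YY n p := by
  unfold YY
  have hX := one_le_XX hn h0 h1
  have hl : 0 ≤ Real.log n := Real.log_nonneg (by exact_mod_cast (by omega : 1 ≤ n))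
  have hp : 1 ≤ p⁻¹ := (one_le_inv₀ h0).mpr h1.le
  have h2 : 1 ≤ XX n p ^ 2 := one_le_pow₀ hX
  calc Real.log n = 1 * Real.log n * 1 := by ring
    _ ≤ p⁻¹ * Real.log n * XX n p ^ 2 := by gcongr

/-- The separation theorem for binary words. -/
def SEP : Prop :=
  ∃ C : ℝ, 1 ≤ C ∧ ∀ n : ℕ, 2 ≤ n → ∀ p : ℝ, 0 < p → p < 1 →
    ∃ (K : ℕ) (β : ℝ), 0 < β ∧ (K : ℝ) * Real.log n ≤ C * YY n p ∧
      Real.exp (-(C * YY n p)) ≤ β ∧
      ∀ x y : Fin n → Bool,
        (∀ a : Finset ℕ, a ⊆ Finset.range n → a.card ≤ K → |T p x a - T p y a| ≤ β) → x = y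

/-- the predicate that the word `y` explains the data `τ` -/
def explains {s n m : ℕ} (p β : ℝ) (K : ℕ) (τ : Fin m → List (Fin s)) (y : Fin n → Fin s) : Prop :=
  ∀ α : Fin s, ∀ a ∈ idx n K,
    |That (fun k => (τ k).map (fun c => decide (c = α))) a - T p (ind y α) a| ≤ β / 2

open scoped Classical in
/-- the chosen word -/
def pick {s n m : ℕ} (p β : ℝ) (K : ℕ) (y0 : Fin n → Fin s) (τ : Fin m → List (Fin s)) :
    Fin n → Fin s :=
  if h : ∃ y : Fin n → Fin s, explains p β K τ y then h.choose else y0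

open scoped Classical in
/-- the rule -/
def rule {s n m : ℕ} (p β : ℝ) (K : ℕ) (y0 : Fin n → Fin s) (τ : Fin m → List (Fin s))
    (y : Fin n → Fin s) : ℝ := if y = pick p β K y0 τ then 1 else 0

theorem rule_isSymRule {s n m : ℕ} (p β : ℝ) (K : ℕ) (y0 : Fin n → Fin s) :
    IsSymRule (m := m) (rule (m := m) p β K y0) := by
  classical
  intro τ
  constructor
  · intro y; unfold rule; split_ifs <;> norm_num
  · unfold rule
    rw [Finset.sum_ite_eq' Finset.univ]
    simp

theorem rule_success {s n m : ℕ} (p : ℝ) (h0 : 0 ≤ p) (h1 : p ≤ 1) (β : ℝ) (hβ : 0 < β) (K : ℕ)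
    (hm : 0 < m) (y0 : Fin n → Fin s)
    (hsep : ∀ x y : Fin n → Bool,
        (∀ a : Finset ℕ, a ⊆ Finset.range n → a.card ≤ K → |T p x a - T p y a| ≤ β) → x = y)
    (x : Fin n → Fin s) :
    1 - (n * (idx n K).card : ℝ) / (m * β ^ 2)
      ≤ symSuccessProb (m := m) p (rule (m := m) p β K y0) x := by
  classical
  have h := good_event_sym (m := m) p h0 h1 x (idx n K) (β / 2) (by positivity) hm
  have e : (n * (idx n K).card : ℝ) / (4 * m * (β / 2) ^ 2)
      = (n * (idx n K).card : ℝ) / (m * β ^ 2) := by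
    congr 1; ring
  rw [e] at h
  refine le_trans h ?_
  unfold prb symSuccessProb
  refine Finset.sum_le_sum fun keeps _ => ?_
  refine mul_le_mul_of_nonneg_left ?_ (Finset.prod_nonneg fun k _ => bw_nonneg h0 h1 _)
  split_ifs with hg
  · have hx : explains p β K (fun k => symTraceOf x (keeps k)) x := by
      intro α a ha
      have := hg α a ha
      simp_rw [traceOf_ind] at this
      exact this
    have hex : ∃ y : Fin n → Fin s, explains p β K (fun k => symTraceOf x (keeps k)) y := ⟨x, hx⟩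
    have hpick : pick p β K y0 (fun k => symTraceOf x (keeps k)) = x := by
      unfold pick
      rw [dif_pos hex]
      have hy := hex.choose_spec
      set y := hex.choose
      apply ind_injective
      intro α
      apply hsep
      intro a ha haK
      have h1 := hx α a (mem_idx a ha haK)
      have h2 := hy α a (mem_idx a ha haK)
      rw [abs_le] at h1 h2 ⊢
      constructor <;> linarith [h1.1, h1.2, h2.1, h2.2]
    unfold rule
    rw [hpick, if_pos rfl]
  · unfold rule; split_ifs <;> norm_num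

/-- S0456 from the separation theorem. -/
theorem sample_upper_of_SEP (hS : SEP) :
    ∃ C : ℝ, ∀ s : ℕ, 2 ≤ s → ∀ n : ℕ, 2 ≤ n → ∀ p : ℝ, 0 < p → p < 1 →
      ∃ m : ℕ, (m : ℝ) ≤ Real.exp (C * p⁻¹ * Real.log n *
          (1 + Real.log n / (1 + Real.log (1 / (1 - p)))) ^ 2 *
          (1 + Real.log (1 + Real.log n / (1 + Real.log (1 / (1 - p))))) ^ 6) ∧
        ∃ K : (Fin m → List (Fin s)) → (Fin n → Fin s) → ℝ, IsSymRule K ∧
          ∀ x : Fin n → Fin s, 2 / 3 ≤ symSuccessProb p K x := by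
  obtain ⟨C, hC1, hC⟩ := hS
  refine ⟨3 + 4 * C, fun s hs n hn p hp0 hp1 => ?_⟩
  obtain ⟨K, β, hβ, hK, hβ', hsep⟩ := hC n hn p hp0 hp1
  have hn' : (0 : ℝ) < n := by exact_mod_cast (by omega : 0 < n)
  have hn1 : (1 : ℝ) ≤ n := by exact_mod_cast (by omega : 1 ≤ n)
  set m : ℕ := ⌈3 * (n : ℝ) * ((n : ℝ) + 1) ^ K / β ^ 2⌉₊ with hm
  have hm0 : 0 < m := Nat.ceil_pos.mpr (by positivity)
  have hY := log_le_YY hn hp0 hp1
  have hlog2 : (1 : ℝ) / 2 < Real.log 2 := by linarith [Real.log_two_gt_d9]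
  have hlogn : Real.log 2 ≤ Real.log n := Real.log_le_log (by norm_num) (by exact_mod_cast hn)
  have hX := one_le_XX hn hp0 hp1
  set Y := YY n p with hYdef
  have hYpos : 0 < Y := by linarith
  refine ⟨m, ?_, rule (m := m) p β K (fun _ => ⟨0, by omega⟩), rule_isSymRule _ _ _ _, ?_⟩
  · -- the bound on m
    have hβ0 : Real.exp (-(C * Y)) ≤ β := hβ'
    have hβ2 : 1 / β ^ 2 ≤ Real.exp (2 * (C * Y)) := by
      rw [div_le_iff₀ (by positivity)]
      have h1 : Real.exp (-(C * Y)) ^ 2 ≤ β ^ 2 := pow_le_pow_left₀ (Real.exp_pos _).le hβ0 2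
      have h2 : Real.exp (2 * (C * Y)) * Real.exp (-(C * Y)) ^ 2 = 1 := by
        rw [← Real.exp_nat_mul, ← Real.exp_add]
        norm_num
      calc (1 : ℝ) = Real.exp (2 * (C * Y)) * Real.exp (-(C * Y)) ^ 2 := h2.symm
        _ ≤ Real.exp (2 * (C * Y)) * β ^ 2 := by gcongr
    have hnK : ((n : ℝ) + 1) ^ K ≤ Real.exp (2 * (C * Y)) := by
      have h1 : (n : ℝ) + 1 ≤ Real.exp (2 * Real.log n) := by
        rw [two_mul, Real.exp_add, Real.exp_log hn']
        have h2n : (2 : ℝ) ≤ n := by exact_mod_cast hn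
        nlinarith
      calc ((n : ℝ) + 1) ^ K ≤ Real.exp (2 * Real.log n) ^ K :=
            pow_le_pow_left₀ (by positivity) h1 K
        _ = Real.exp (2 * (K * Real.log n)) := by rw [← Real.exp_nat_mul]; ring_nf
        _ ≤ Real.exp (2 * (C * Y)) := by
            apply Real.exp_le_exp.mpr; linarith
    have hn2 : (n : ℝ) ≤ Real.exp Y := by
      calc (n : ℝ) = Real.exp (Real.log n) := (Real.exp_log hn').symm
        _ ≤ Real.exp Y := Real.exp_le_exp.mpr hY
    have hexpY : 4 ≤ Real.exp (2 * Y) := by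
      have : Real.log 4 ≤ 2 * Y := by
        have : Real.log 4 = 2 * Real.log 2 := by
          rw [show (4 : ℝ) = 2 ^ 2 by norm_num, Real.log_pow]; norm_num
        rw [this]; linarith
      calc (4 : ℝ) = Real.exp (Real.log 4) := (Real.exp_log (by norm_num)).symm
        _ ≤ _ := Real.exp_le_exp.mpr this
    have hbase : 3 * (n : ℝ) * ((n : ℝ) + 1) ^ K / β ^ 2
        ≤ 3 * Real.exp ((1 + 4 * C) * Y) := by
      calc 3 * (n : ℝ) * ((n : ℝ) + 1) ^ K / β ^ 2
          = 3 * ((n : ℝ) * ((n : ℝ) + 1) ^ K * (1 / β ^ 2)) := by ring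
        _ ≤ 3 * (Real.exp Y * Real.exp (2 * (C * Y)) * Real.exp (2 * (C * Y))) := by gcongr
        _ = 3 * Real.exp ((1 + 4 * C) * Y) := by
            rw [← Real.exp_add, ← Real.exp_add]; ring_nf
    have hmle : (m : ℝ) ≤ 4 * Real.exp ((1 + 4 * C) * Y) := by
      have h1 := (Nat.ceil_lt_add_one (show 0 ≤ 3 * (n : ℝ) * ((n : ℝ) + 1) ^ K / β ^ 2 by
        positivity)).le
      have h2 : (1 : ℝ) ≤ Real.exp ((1 + 4 * C) * Y) := Real.one_le_exp (by positivity)
      calc (m : ℝ) ≤ 3 * (n : ℝ) * ((n : ℝ) + 1) ^ K / β ^ 2 + 1 := h1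
        _ ≤ 3 * Real.exp ((1 + 4 * C) * Y) + Real.exp ((1 + 4 * C) * Y) := by linarith
        _ = _ := by ring
    have hfin : (m : ℝ) ≤ Real.exp ((3 + 4 * C) * Y) := by
      calc (m : ℝ) ≤ 4 * Real.exp ((1 + 4 * C) * Y) := hmle
        _ ≤ Real.exp (2 * Y) * Real.exp ((1 + 4 * C) * Y) := by gcongr
        _ = Real.exp ((3 + 4 * C) * Y) := by rw [← Real.exp_add]; ring_nf
    refine hfin.trans (Real.exp_le_exp.mpr ?_)
    have hX' : 1 + Real.log n / (1 + Real.log (1 / (1 - p))) = XX n p := rfl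
    rw [hX']
    have h6 : 1 ≤ (1 + Real.log (XX n p)) ^ 6 := one_le_pow₀ (by linarith [Real.log_nonneg hX])
    have : (3 + 4 * C) * p⁻¹ * Real.log n * XX n p ^ 2 = (3 + 4 * C) * Y := by
      rw [hYdef]; unfold YY; ring
    rw [this]
    have hpos : 0 ≤ (3 + 4 * C) * Y := by positivity
    nlinarith
  · intro x
    have h := rule_success (m := m) p hp0.le hp1.le β hβ K hm0 (fun _ => (⟨0, by omega⟩ : Fin s))
      hsep x
    refine le_trans ?_ h
    have hcard : ((idx n K).card : ℝ) ≤ ((n : ℝ) + 1) ^ K := by exact_mod_cast card_idx_le n K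
    have hmge : 3 * (n : ℝ) * ((n : ℝ) + 1) ^ K / β ^ 2 ≤ m := Nat.le_ceil _
    have hm' : (0 : ℝ) < m := by exact_mod_cast hm0
    have : (n * (idx n K).card : ℝ) / (m * β ^ 2) ≤ 1 / 3 := by
      rw [div_le_iff₀ (by positivity)]
      rw [div_le_iff₀ (by positivity)] at hmge
      have : (n * (idx n K).card : ℝ) ≤ n * ((n : ℝ) + 1) ^ K := by gcongr
      linarith
    linarith

end

end Crest.Agent.R300.Prob
end

-- ▼ part R300/U/Eval

/-!
# Row 300: evaluation pseudo-expectation; separation theorem and S0456 from `UMainStatement`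
-/

set_option autoImplicit false

namespace Crest.Agent.R300U

open Crest.FinProb Crest.TraceRecon Finset

noncomputable section

theorem stat_eq (a : Finset ℕ) (y : List Bool) : stat a y = R300.Prob.stat a y := rfl

theorem TT_eq {n : ℕ} (p : ℝ) (a : Finset ℕ) (x : Fin n → Bool) :
    TT p a x = R300.Prob.T p x a := rfl

/-- evaluation at a word is a pseudo-expectation of every degree -/
def evalPE {n : ℕ} (D : ℕ) (y : Fin n → Bool) : PE n D where
  L := { toFun := fun f => f y, map_add' := fun _ _ => rfl, map_smul' := fun _ _ => rfl }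
  one := rfl
  herm := fun _ => rfl
  pos := by
    intro P c _
    show 0 ≤ (star (P y) * P y).re
    have : star (P y) * P y = ((Complex.normSq (P y) : ℝ) : ℂ) := by
      rw [mul_comm]; exact Complex.mul_conj _
    rw [this, Complex.ofReal_re]
    exact Complex.normSq_nonneg _

theorem evalPE_N {n : ℕ} (D : ℕ) (y : Fin n → Bool) (P : R n) :
    (evalPE D y).N P = ‖P y‖ := by
  unfold PE.N
  have : (evalPE D y).L (star P * P) = star (P y) * P y := rfl
  rw [this]
  have : star (P y) * P y = ((Complex.normSq (P y) : ℝ) : ℂ) := by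
    rw [mul_comm]; exact Complex.mul_conj _
  rw [this, Complex.ofReal_re]
  rfl

/-- The separation theorem for binary words. -/
theorem SEP_of_UMain (h : UMainStatement) : R300.Prob.SEP := by
  obtain ⟨C, hC1, hC⟩ := h
  refine ⟨C, hC1, fun n hn p hp0 hp1 => ?_⟩
  obtain ⟨K, hK1, hK, hmain⟩ := hC n p hn hp0 hp1
  refine ⟨K, Real.exp (-(C * R300.Prob.YY n p)), Real.exp_pos _, hK, le_rfl, ?_⟩
  intro x y hxy
  by_contra hne
  -- first difference
  have hex : ∃ t : ℕ, ∃ ht : t < n, x ⟨t, ht⟩ ≠ y ⟨t, ht⟩ := by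
    by_contra hcon
    push Not at hcon
    exact hne (funext fun i => hcon i i.2)
  classical
  obtain ⟨htn, htne⟩ := Nat.find_spec hex
  set t := Nat.find hex with ht
  have hpre : ∀ u < t, ∀ hu : u < n, x ⟨u, hu⟩ = y ⟨u, hu⟩ := by
    intro u hu hun
    by_contra hc
    exact Nat.find_min hex hu ⟨hun, hc⟩
  have hP : Prefix (evalPE (2 * K) y) x t := by
    intro u hu
    rw [evalPE_N]
    have : (dev x (xv u) : R n) y = 0 := by
      show (xv u : R n) y - (xv u : R n) x = 0
      unfold xv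
      by_cases hun : u < n
      · simp only [dif_pos hun, hpre u hu hun, sub_self]
      · simp only [dif_neg hun, sub_self]
    rw [this, norm_zero]
  have hD : Data (evalPE (2 * K) y) x p K (Real.exp (-(C * (p⁻¹ * Real.log n *
        (1 + Real.log n / (1 + Real.log (1 / (1 - p)))) ^ 2)))) := by
    intro a haK han
    rw [evalPE_N]
    have h1 := hxy a (fun j hj => Finset.mem_range.mpr (han j hj)) haK
    have h2 : (dev x (Tc p a) : R n) y
        = (((R300.Prob.T p y a - R300.Prob.T p x a : ℝ)) : ℂ) := by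
      show ((TT p a y : ℝ) : ℂ) - ((TT p a x : ℝ) : ℂ) = _
      rw [TT_eq, TT_eq]; push_cast; ring
    rw [h2, Complex.norm_real, Real.norm_eq_abs, abs_sub_comm]
    exact h1
  have hfin := hmain (2 * K) (evalPE (2 * K) y) x t le_rfl htn hP hD
  rw [evalPE_N] at hfin
  have h3 : ‖(dev x (xv t) : R n) y‖ = 1 := by
    have : (dev x (xv t) : R n) y = (if y ⟨t, htn⟩ = true then (1 : ℂ) else 0)
        - (if x ⟨t, htn⟩ = true then 1 else 0) := by
      show (xv t : R n) y - (xv t : R n) x = _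
      unfold xv
      simp only [dif_pos htn]
    rw [this]
    cases hx : x ⟨t, htn⟩ <;> cases hy : y ⟨t, htn⟩
    · exact absurd (hx.trans hy.symm) htne
    · simp
    · simp
    · exact absurd (hx.trans hy.symm) htne
  rw [h3] at hfin
  norm_num at hfin

/-- S0456 from the main theorem. -/
theorem sample_upper_of_UMain (h : UMainStatement) :
    ∃ C : ℝ, ∀ s : ℕ, 2 ≤ s → ∀ n : ℕ, 2 ≤ n → ∀ p : ℝ, 0 < p → p < 1 →
      ∃ m : ℕ, (m : ℝ) ≤ Real.exp (C * p⁻¹ * Real.log n *
          (1 + Real.log n / (1 + Real.log (1 / (1 - p)))) ^ 2 *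
          (1 + Real.log (1 + Real.log n / (1 + Real.log (1 / (1 - p))))) ^ 6) ∧
        ∃ K : (Fin m → List (Fin s)) → (Fin n → Fin s) → ℝ, IsSymRule K ∧
          ∀ x : Fin n → Fin s, 2 / 3 ≤ symSuccessProb p K x :=
  R300.Prob.sample_upper_of_SEP (SEP_of_UMain h)

end

end Crest.Agent.R300U
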