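import Mathlib
import Crest.Prelude.Def_TraceRecon
/-!
Row 300, upper bound (S0456, S0457): frozen definitions of the pseudo-expectation proof.
See notes(rid=300), kind=design / blueprint by helper300.
-/
set_option autoImplicit false

namespace Crest.Agent.R300U

open scoped BigOperators

/-- The ring of complex functions on words of length `n`. -/
abbrev R (n : ℕ) : Type := (Fin n → Bool) → ℂ

/-- The monomial `x_S`. -/
noncomputable def mono {n : ℕ} (S : Finset (Fin n)) : R n :=
  fun x => if (∀ i ∈ S, x i = true) then 1 else 0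

/-- The letter at (absolute) position `u`, `0` outside the word. -/
noncomputable def xv {n : ℕ} (u : ℕ) : R n :=
  fun x => if h : u < n then (if x ⟨u, h⟩ = true then 1 else 0) else 0

/-- A constant function. -/
noncomputable def cst {n : ℕ} (z : ℂ) : R n := fun _ => z

/-- `Bd d c P`: `P` is a combination of monomials of degree `≤ d` with coefficients of total
absolute value `≤ c`. -/
def Bd {n : ℕ} (d : ℕ) (c : ℝ) (P : R n) : Prop :=
  ∃ a : Finset (Fin n) → ℂ, (∀ S, d < S.card → a S = 0) ∧ (∑ S, ‖a S‖) ≤ c ∧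
    P = ∑ S, a S • mono S

/-- A pseudo-expectation of degree `D`: positive on squares of polynomials of degree `≤ D`. -/
structure PE (n D : ℕ) where
  L : R n →ₗ[ℂ] ℂ
  one : L 1 = 1
  herm : ∀ f : R n, L (star f) = star (L f)
  pos : ∀ (P : R n) (c : ℝ), Bd D c P → 0 ≤ (L (star P * P)).re

namespace PE
/-- The seminorm `sqrt (L |P|^2)` (meaningful for `P` of degree `≤ D`). -/
noncomputable def N {n D : ℕ} (E : PE n D) (P : R n) : ℝ := Real.sqrt (E.L (star P * P)).re
end PE

/-- Deviation of `P` from its value at the word `x`. -/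
noncomputable def dev {n : ℕ} (x : Fin n → Bool) (P : R n) : R n := P - cst (P x)

/-- The letters before `t` are known: they do not deviate from the word `x`. -/
def Prefix {n D : ℕ} (E : PE n D) (x : Fin n → Bool) (t : ℕ) : Prop :=
  ∀ u < t, E.N (dev x (xv u)) = 0

/-- The statistic `∏_{j ∈ a} y_j` of a trace `y` (letters beyond the end count as `0`). -/
noncomputable def stat (a : Finset ℕ) (y : List Bool) : ℝ :=
  if ∀ j ∈ a, y.getD j false = true then 1 else 0

/-- Trace moment `T_a(x) = E[∏_{j ∈ a} y_j]`, `y` a trace of `x` at retention `p`. -/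
noncomputable def TT {n : ℕ} (p : ℝ) (a : Finset ℕ) (x : Fin n → Bool) : ℝ :=
  ∑ keep : Fin n → Bool, Crest.FinProb.bernoulliWeight p keep *
    stat a (Crest.TraceRecon.traceOf x keep)

/-- `T_a` as an element of the ring of functions. -/
noncomputable def Tc {n : ℕ} (p : ℝ) (a : Finset ℕ) : R n := fun x => ((TT p a x : ℝ) : ℂ)

/-- The data condition: all trace moments with at most `K` letters are known up to `β`. -/
def Data {n D : ℕ} (E : PE n D) (x : Fin n → Bool) (p : ℝ) (K : ℕ) (β : ℝ) : Prop :=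
  ∀ a : Finset ℕ, a.card ≤ K → (∀ j ∈ a, j < n) → E.N (dev x (Tc p a)) ≤ β

/-- Closed form of the trace moments (a polynomial in the letters); `a` strictly increasing,
`u` runs over strictly increasing position tuples. -/
noncomputable def Tmom {n : ℕ} (p : ℝ) {l : ℕ} (a : Fin l → ℕ) : R n :=
  ∑ u ∈ (Fintype.piFinset (fun _ : Fin l => Finset.range n)).filter (fun u => StrictMono u),
    (((p : ℂ) ^ l * ∏ j : Fin l,
      (let du : ℕ := if h : (j : ℕ) = 0 then u j else u j - u ⟨j - 1, by omega⟩ - 1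
       let da : ℕ := if h : (j : ℕ) = 0 then a j else a j - a ⟨j - 1, by omega⟩ - 1
       ((du.choose da : ℕ) : ℂ) * (p : ℂ) ^ da * ((1 - p : ℝ) : ℂ) ^ (du - da))) •
      ∏ j : Fin l, (xv (u j) : R n))

/-- Pure statistic `S_ζ(x) = ∑_{u_1<…<u_l} x_{u_1}⋯x_{u_l} ζ_0^{u_1} ∏ ζ_j^{u_{j+1}-u_j-1}`. -/
noncomputable def Pure {n : ℕ} {l : ℕ} (ζ : Fin l → ℂ) : R n :=
  ∑ u ∈ (Fintype.piFinset (fun _ : Fin l => Finset.range n)).filter (fun u => StrictMono u),
    ((∏ j : Fin l,
      ζ j ^ (if h : (j : ℕ) = 0 then u j else u j - u ⟨j - 1, by omega⟩ - 1)) •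
      ∏ j : Fin l, (xv (u j) : R n))

/-- Pure statistics with parameters in the disc of retention `p` are known up to `β`. -/
def PureKnown {n D : ℕ} (E : PE n D) (x : Fin n → Bool) (p : ℝ) (K : ℕ) (β : ℝ) : Prop :=
  ∀ l ≤ K, ∀ ζ : Fin l → ℂ, (∀ j, ‖ζ j - ((1 - p : ℝ) : ℂ)‖ ≤ p) → E.N (dev x (Pure ζ)) ≤ β

/-- One node of a composite functional: number of children, conjugation flags, Gaussian width
parameter `τ` (kernel `exp(-τ d²/2)`), common real exponent `ρ`, frequencies `f`. -/
structure Node where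
  k : ℕ
  flag : Fin k → Bool
  τ : ℝ
  ρ : ℝ
  f : Fin k → ℝ

/-- A composite functional: list of nodes, coarsest first; all children of a node are the same
functional up to conjugation; the empty code is the letter. -/
abbrev Code : Type := List Node

/-- conj or not -/
noncomputable def cj {n : ℕ} (b : Bool) (P : R n) : R n := if b then star P else P

/-- The value of the composite functional at location `M` (location = maximum of the positions). -/
noncomputable def val {n : ℕ} : Code → ℕ → R n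
  | [], M => xv M
  | nd :: c, M =>
    ∑ d ∈ (Fintype.piFinset (fun _ : Fin nd.k => Finset.range (M + 1))).filter
        (fun d => ∃ a, d a = 0),
      ∏ a : Fin nd.k,
        (Complex.exp (-(nd.τ * (d a : ℝ) ^ 2 / 2 : ℝ) + ((nd.ρ : ℂ) + Complex.I * nd.f a) * (d a : ℂ)) •
          cj (nd.flag a) (val c (M - d a)))

/-- Number of leaves. -/
def leaves : Code → ℕ
  | [] => 1
  | nd :: c => nd.k * leaves c

/-- Bound for the coefficient norm of `val c M`. -/
noncomputable def nrm : Code → ℝ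
  | [] => 1
  | nd :: c => nd.k * (1 + Real.sqrt (2 * Real.pi / nd.τ)) ^ (nd.k - 1) *
      Real.exp ((nd.k - 1) * (max nd.ρ 0) ^ 2 / (2 * nd.τ)) * nrm c ^ nd.k

/-- Windowed two-sided transform `V(ν) = ∑_u exp(-τ(u-t)²/2 + iν(u-t)) Φ(u)`. -/
noncomputable def V {n : ℕ} (c : Code) (t : ℕ) (τ ν : ℝ) : R n :=
  ∑ u ∈ Finset.range n,
    Complex.exp (-(τ * ((u : ℝ) - t) ^ 2 / 2 : ℝ) + Complex.I * ν * ((u : ℂ) - t)) • val c u

/-- Total mass of the window. -/
noncomputable def Wt (τ : ℝ) : ℝ := 1 + Real.sqrt (2 * Real.pi / τ)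

/-- product of (conjugates of) `V`'s -/
noncomputable def Pr {n : ℕ} (c : Code) (t : ℕ) (τ : ℝ) {k : ℕ} (flag : Fin k → Bool)
    (ν : Fin k → ℝ) : R n := ∏ a : Fin k, cj (flag a) (V c t τ (ν a))

/-- signed total frequency -/
noncomputable def tot {k : ℕ} (flag : Fin k → Bool) (ν : Fin k → ℝ) : ℝ :=
  ∑ a, (if flag a then - ν a else ν a)

/-- `𝒫`: all products of 2, 3 or 4 windowed transforms with total frequency at most `η` are known
with relative error `exp(-A)`. -/
def ProdKnown {n D : ℕ} (E : PE n D) (x : Fin n → Bool) (t : ℕ) (c : Code) (τ r η A : ℝ) : Prop :=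
  ∀ k : ℕ, 2 ≤ k → k ≤ 4 → ∀ (flag : Fin k → Bool) (ν : Fin k → ℝ), (∀ a, |ν a| ≤ r) →
    |tot flag ν| ≤ η → E.N (dev x (Pr c t τ flag ν)) ≤ Real.exp (-A) * (nrm c * Wt τ) ^ k

/-- One-sided windowed transform of the deviation, `∑_{u ≥ t} dev Φ(u) exp(-τ(u-t)²/2 + s(u-t))`. -/
noncomputable def Udev {n : ℕ} (x : Fin n → Bool) (c : Code) (t : ℕ) (τ : ℝ) (s : ℂ) : R n :=
  ∑ u ∈ Finset.Ico t n,
    Complex.exp (-(τ * ((u : ℝ) - t) ^ 2 / 2 : ℝ) + s * ((u : ℂ) - t)) • dev x (val c u)

/-- `𝒦`: deep values of the one-sided deviation are small, on the wedge `|Im s|² ≤ 6 |Re s|²`,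
`σ₁ ≤ -Re s`, `‖s‖ ≤ σ₂`. -/
def DeepKnown {n D : ℕ} (E : PE n D) (x : Fin n → Bool) (t : ℕ) (c : Code) (τ σ₁ σ₂ A : ℝ) : Prop :=
  ∀ s : ℂ, s.re ≤ -σ₁ → s.im ^ 2 ≤ 6 * s.re ^ 2 → ‖s‖ ≤ σ₂ →
    E.N (Udev x c t τ s) ≤ Real.exp (-A) * (nrm c * Wt τ)

end Crest.Agent.R300U
private theorem rz_fc82c95df3 : type_of% @_root_.Crest.Agent.R300U.leaves.eq_def := @_root_.Crest.Agent.R300U.leaves.eq_def -- L116
private theorem rz_63cc4da9fa : type_of% @_root_.Crest.Agent.R300U.leaves.eq_1 := @_root_.Crest.Agent.R300U.leaves.eq_1 -- L116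
private theorem rz_ec6ad15ef5 : type_of% @_root_.Crest.Agent.R300U.nrm.eq_def := @_root_.Crest.Agent.R300U.nrm.eq_def -- L121
private theorem rz_ad7e12ff62 : type_of% @_root_.Crest.Agent.R300U.nrm.eq_1 := @_root_.Crest.Agent.R300U.nrm.eq_1 -- L121
private theorem rz_83c86513c9 : type_of% @_root_.Crest.Agent.R300U.val.eq_def := @_root_.Crest.Agent.R300U.val.eq_def -- L106
private theorem rz_19c0ee799b : type_of% @_root_.Crest.Agent.R300U.val.eq_1 := @_root_.Crest.Agent.R300U.val.eq_1 -- L106
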