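import Crest.Agent.R300.U.Defs
import Crest.Agent.R300.U.Calc

-- ▼ part R300/U/AccSkel
section
/-!
Row 300, AccessStatement: skeleton sums (design helper862, proofs helper688).

`skel A B g` is the sum over all position maps `p : ι → Fin n` of the product of edge weights
`g e (sup_{A e} p - sup_{B e} p)` times the product of the letters.
-/
set_option autoImplicit false
set_option linter.unusedSectionVars false

namespace Crest.Agent.R300U

open scoped BigOperators

/-- location of a set of leaves: the maximal position -/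
def loc {n : ℕ} {ι : Type} (A : Finset ι) (p : ι → Fin n) : ℕ := A.sup (fun i => (p i : ℕ))

/-- skeleton sum -/
noncomputable def skel {n : ℕ} {ι κ : Type} [Fintype ι] [DecidableEq ι] [Fintype κ]
    (A B : κ → Finset ι) (g : κ → ℕ → ℂ) : R n :=
  ∑ p : ι → Fin n, (∏ e, g e (loc (A e) p - loc (B e) p)) • ∏ i, (xv (p i : ℕ) : R n)

namespace Skel

variable {n : ℕ} {ι κ : Type} [Fintype ι] [DecidableEq ι] [Fintype κ]

/-- rank of the value at `i` among the values of `p` -/
def rk (p : ι → Fin n) (i : ι) : ℕ := ((Finset.univ.image p).filter (fun v => v < p i)).card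

lemma rk_lt (p : ι → Fin n) (i : ι) : rk p i < Fintype.card ι := by
  have h1 : ((Finset.univ.image p).filter (fun v => v < p i)) ⊂ Finset.univ.image p := by
    refine Finset.filter_ssubset.2 ⟨p i, Finset.mem_image_of_mem _ (Finset.mem_univ _), ?_⟩
    simp
  have h2 := Finset.card_lt_card h1
  have h3 : (Finset.univ.image p).card ≤ Fintype.card ι := by
    simpa using (Finset.card_image_le (s := (Finset.univ : Finset ι)) (f := p))
  unfold rk
  omega

/-- rank as a map into `Fin (card ι)` -/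
def rank (p : ι → Fin n) : ι → Fin (Fintype.card ι) := fun i => ⟨rk p i, rk_lt p i⟩

lemma rk_comp {l : ℕ} (u : Fin l → Fin n) (hu : StrictMono u) (τ : ι → Fin l)
    (hτ : Function.Surjective τ) (i : ι) : rk (u ∘ τ) i = τ i := by
  unfold rk
  have h1 : (Finset.univ.image (u ∘ τ)).filter (fun v => v < (u ∘ τ) i)
      = (Finset.Iio (τ i)).image u := by
    ext v
    simp only [Finset.mem_filter, Finset.mem_image, Finset.mem_univ, true_and,
      Function.comp_apply, Finset.mem_Iio]
    constructor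
    · rintro ⟨⟨i', rfl⟩, h⟩
      exact ⟨τ i', hu.lt_iff_lt.1 h, rfl⟩
    · rintro ⟨j, hj, rfl⟩
      obtain ⟨i', rfl⟩ := hτ j
      exact ⟨⟨i', rfl⟩, hu hj⟩
  rw [h1, Finset.card_image_of_injective _ hu.injective, Fin.card_Iio]

lemma exists_factor (p : ι → Fin n) : ∃ (l : ℕ) (u : Fin l → Fin n) (τ : ι → Fin l),
    StrictMono u ∧ Function.Surjective τ ∧ p = u ∘ τ := by
  let S := Finset.univ.image p
  let e := S.orderIsoOfFin rfl
  have hmem : ∀ i, p i ∈ S := fun i => Finset.mem_image_of_mem _ (Finset.mem_univ _)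
  refine ⟨S.card, fun j => (e j : Fin n), fun i => e.symm ⟨p i, hmem i⟩, ?_, ?_, ?_⟩
  · intro a b hab
    exact e.strictMono hab
  · intro j
    obtain ⟨i, _, hi⟩ := Finset.mem_image.1 (e j).2
    refine ⟨i, ?_⟩
    apply e.injective
    rw [OrderIso.apply_symm_apply]
    exact Subtype.ext hi
  · funext i
    simp

/-- number of distinct values of `σ` -/
def len (σ : ι → Fin (Fintype.card ι)) : ℕ := (Finset.univ.image σ).card

lemma len_le (σ : ι → Fin (Fintype.card ι)) : len σ ≤ Fintype.card ι := by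
  simpa [len] using (Finset.card_image_le (s := (Finset.univ : Finset ι)) (f := σ))

/-- `σ` takes exactly the values `0, …, len σ - 1` -/
def Good (σ : ι → Fin (Fintype.card ι)) : Prop :=
  ∃ h : (∀ i, (σ i : ℕ) < len σ), Function.Surjective (fun i => (⟨σ i, h i⟩ : Fin (len σ)))

lemma rank_comp {l : ℕ} (u : Fin l → Fin n) (hu : StrictMono u) (τ : ι → Fin l)
    (hτ : Function.Surjective τ) (i : ι) : (rank (u ∘ τ) i : ℕ) = τ i := rk_comp u hu τ hτ i

lemma len_of_surj {l : ℕ} (σ : ι → Fin (Fintype.card ι)) (τ : ι → Fin l)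
    (hτ : Function.Surjective τ) (h : ∀ i, (σ i : ℕ) = τ i) : len σ = l := by
  unfold len
  have h1 : ((Finset.univ.image σ).image Fin.val) = (Finset.univ : Finset (Fin l)).image Fin.val := by
    ext v
    simp only [Finset.mem_image, Finset.mem_univ, true_and]
    constructor
    · rintro ⟨_, ⟨i, rfl⟩, rfl⟩
      exact ⟨τ i, (h i).symm⟩
    · rintro ⟨j, rfl⟩
      obtain ⟨i, rfl⟩ := hτ j
      exact ⟨_, ⟨i, rfl⟩, h i⟩
  have h2 := congrArg Finset.card h1
  rw [Finset.card_image_of_injective _ Fin.val_injective,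
    Finset.card_image_of_injective _ Fin.val_injective] at h2
  simpa using h2

lemma good_of_surj {l : ℕ} (σ : ι → Fin (Fintype.card ι)) (τ : ι → Fin l)
    (hτ : Function.Surjective τ) (h : ∀ i, (σ i : ℕ) = τ i) : Good σ := by
  have hl := len_of_surj σ τ hτ h
  subst hl
  refine ⟨fun i => by rw [h i]; exact (τ i).2, ?_⟩
  intro j
  obtain ⟨i, rfl⟩ := hτ j
  exact ⟨i, Fin.ext (h i)⟩

lemma good_rank (p : ι → Fin n) : Good (rank p) := by
  obtain ⟨l, u, τ, hu, hτ, rfl⟩ := exists_factor p
  exact good_of_surj _ τ hτ (fun i => rank_comp u hu τ hτ i)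


/-- increments of a position tuple -/
def Dl {l : ℕ} (u : Fin l → ℕ) (j : Fin l) : ℕ :=
  if h : (j : ℕ) = 0 then u j else u j - u ⟨j - 1, by omega⟩

lemma sum_Dl {l : ℕ} (u : Fin l → ℕ) (hu : Monotone u) (k : ℕ) (hk : k < l) :
    ∑ j ∈ Finset.univ.filter (fun j : Fin l => (j : ℕ) ≤ k), Dl u j = u ⟨k, hk⟩ := by
  induction k with
  | zero =>
    have : (Finset.univ.filter (fun j : Fin l => (j : ℕ) ≤ 0)) = {⟨0, hk⟩} := by
      ext j
      simp [Fin.ext_iff]
    rw [this, Finset.sum_singleton]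
    simp [Dl]
  | succ k ih =>
    have hk' : k < l := by omega
    have : (Finset.univ.filter (fun j : Fin l => (j : ℕ) ≤ k + 1))
        = insert ⟨k + 1, hk⟩ (Finset.univ.filter (fun j : Fin l => (j : ℕ) ≤ k)) := by
      ext j
      simp only [Finset.mem_filter, Finset.mem_univ, true_and, Finset.mem_insert, Fin.ext_iff]
      omega
    rw [this, Finset.sum_insert (by simp), ih hk']
    have h2 : u ⟨k, hk'⟩ ≤ u ⟨k + 1, hk⟩ := hu (by simp [Fin.le_def])
    unfold Dl
    simp only [Nat.add_eq_zero_iff, one_ne_zero, and_false, dite_false, Nat.add_sub_cancel]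
    omega

/-- gaps `j` below some `τ i`, `i ∈ A` -/
def below {l : ℕ} (τ : ι → Fin l) (A : Finset ι) : Finset (Fin l) :=
  Finset.univ.filter (fun j => ∃ i ∈ A, j ≤ τ i)

lemma sum_below {l : ℕ} (u : Fin l → ℕ) (hu : Monotone u) (τ : ι → Fin l) (A : Finset ι) :
    A.sup (fun i => u (τ i)) = ∑ j ∈ below τ A, Dl u j := by
  rcases A.eq_empty_or_nonempty with rfl | hA
  · simp [below]
  · obtain ⟨i0, hi0, hmax⟩ := A.exists_max_image τ hA
    have h1 : A.sup (fun i => u (τ i)) = u (τ i0) := by
      apply le_antisymm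
      · exact Finset.sup_le (fun i hi => hu (hmax i hi))
      · exact Finset.le_sup (f := fun i => u (τ i)) hi0
    have h2 : below τ A = Finset.univ.filter (fun j : Fin l => (j : ℕ) ≤ (τ i0 : ℕ)) := by
      ext j
      simp only [below, Finset.mem_filter, Finset.mem_univ, true_and]
      constructor
      · rintro ⟨i, hi, hj⟩
        exact Fin.le_def.1 (hj.trans (hmax i hi))
      · intro h
        exact ⟨i0, hi0, Fin.le_def.2 h⟩
    rw [h1, h2, sum_Dl u hu _ (τ i0).2]

/-- gaps open for the edge `(A, B)` -/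
def opn {l : ℕ} (τ : ι → Fin l) (A B : Finset ι) : Finset (Fin l) := below τ A \ below τ B

lemma below_mono {l : ℕ} (τ : ι → Fin l) {A B : Finset ι} (h : B ⊆ A) : below τ B ⊆ below τ A := by
  intro j hj
  simp only [below, Finset.mem_filter, Finset.mem_univ, true_and] at hj ⊢
  obtain ⟨i, hi, hj⟩ := hj
  exact ⟨i, h hi, hj⟩

lemma sub_eq_opn {l : ℕ} (u : Fin l → ℕ) (hu : Monotone u) (τ : ι → Fin l) {A B : Finset ι}
    (h : B ⊆ A) : A.sup (fun i => u (τ i)) - B.sup (fun i => u (τ i)) =
      ∑ j ∈ opn τ A B, Dl u j := by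
  rw [sum_below u hu, sum_below u hu, opn]
  have := Finset.sum_sdiff (f := Dl u) (below_mono τ h)
  omega

/-- the product of the letters only depends on the set of positions -/
lemma prod_xv {l : ℕ} (u : Fin l → ℕ) (τ : ι → Fin l) (hτ : Function.Surjective τ) :
    ∏ i, (xv (u (τ i)) : R n) = ∏ j, (xv (u j) : R n) := by
  funext x
  rw [Finset.prod_apply, Finset.prod_apply]
  have key : ∀ v : ℕ, (xv v : R n) x = if (∃ h : v < n, x ⟨v, h⟩ = true) then 1 else 0 := by
    intro v
    unfold xv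
    by_cases h : v < n
    · by_cases h2 : x ⟨v, h⟩ = true
      · simp [h, h2]
      · simp [h, h2]
    · simp [h]
  simp only [key]
  rw [Finset.prod_ite_zero, Finset.prod_ite_zero]
  simp only [Finset.mem_univ, true_implies, Finset.prod_const_one]
  congr 1
  apply propext
  constructor
  · intro h j
    obtain ⟨i, rfl⟩ := hτ j
    exact h i
  · intro h i
    exact h (τ i)

/-- the parameter of gap `j` -/
noncomputable def zt {l : ℕ} (A B : κ → Finset ι) (b : κ → ℂ) (τ : ι → Fin l) (j : Fin l) : ℂ :=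
  Complex.exp (-∑ e ∈ Finset.univ.filter (fun e => j ∈ opn τ (A e) (B e)), b e)

lemma prod_exp {l : ℕ} (A B : κ → Finset ι) (hAB : ∀ e, B e ⊆ A e) (b : κ → ℂ) (τ : ι → Fin l)
    (u : Fin l → ℕ) (hu : Monotone u) :
    ∏ e, Complex.exp (-(b e * (((A e).sup (fun i => u (τ i)) - (B e).sup (fun i => u (τ i)) : ℕ) : ℂ)))
      = ∏ j, zt A B b τ j ^ Dl u j := by
  rw [← Complex.exp_sum]
  have h1 : ∀ j, zt A B b τ j ^ Dl u j = Complex.exp (∑ e, if j ∈ opn τ (A e) (B e) then
      -(b e * (Dl u j : ℂ)) else 0) := by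
    intro j
    unfold zt
    rw [← Complex.exp_nat_mul]
    congr 1
    rw [← Finset.sum_filter, mul_neg, Finset.mul_sum, Finset.sum_neg_distrib]
    congr 1
    exact Finset.sum_congr rfl (fun e _ => mul_comm _ _)
  rw [Finset.prod_congr rfl (fun j _ => h1 j), ← Complex.exp_sum, Finset.sum_comm]
  congr 1
  refine Finset.sum_congr rfl (fun e _ => ?_)
  rw [sub_eq_opn u hu τ (hAB e), ← Finset.sum_filter]
  push_cast
  rw [Finset.mul_sum, Finset.sum_neg_distrib]
  congr 1
  have : Finset.univ.filter (fun j => j ∈ opn τ (A e) (B e)) = opn τ (A e) (B e) := by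
    ext j; simp
  rw [this]


/-- the tuple map of a good rank function -/
def tau {σ : ι → Fin (Fintype.card ι)} (h : ∀ i, (σ i : ℕ) < len σ) (i : ι) : Fin (len σ) :=
  ⟨σ i, h i⟩

lemma Dl_pos {l : ℕ} {u : Fin l → ℕ} (hu : StrictMono u) {j : Fin l} (hj : (j : ℕ) ≠ 0) :
    Dl u j = (u j - u ⟨j - 1, by omega⟩ - 1) + 1 := by
  have h2 : u ⟨j - 1, by omega⟩ < u j := hu (by rw [Fin.lt_def]; simp; omega)
  unfold Dl
  simp only [hj, dite_false]
  omega

lemma term_eq {l : ℕ} (ζ : Fin l → ℂ) {u : Fin l → ℕ} (hu : StrictMono u) :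
    ∏ j, ζ j ^ Dl u j = (∏ j : Fin l, if (j : ℕ) = 0 then 1 else ζ j) *
      ∏ j : Fin l, ζ j ^ (if h : (j : ℕ) = 0 then u j else u j - u ⟨j - 1, by omega⟩ - 1) := by
  rw [← Finset.prod_mul_distrib]
  refine Finset.prod_congr rfl (fun j _ => ?_)
  by_cases hj : (j : ℕ) = 0
  · simp [Dl, hj]
  · rw [Dl_pos hu hj, pow_succ]
    simp only [hj, if_false, dite_false]
    ring

lemma fiber_sum (A B : κ → Finset ι) (hAB : ∀ e, B e ⊆ A e) (b : κ → ℂ)
    (σ : ι → Fin (Fintype.card ι)) (h : ∀ i, (σ i : ℕ) < len σ)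
    (hτ : Function.Surjective (tau h)) :
    ∑ p ∈ Finset.univ.filter (fun p : ι → Fin n => rank p = σ),
      (∏ e, Complex.exp (-(b e * ((loc (A e) p - loc (B e) p : ℕ) : ℂ)))) • ∏ i, (xv (p i : ℕ) : R n)
      = (∏ j : Fin (len σ), if (j : ℕ) = 0 then 1 else zt A B b (tau h) j) •
          (Pure (zt A B b (tau h)) : R n) := by
  unfold Pure
  rw [Finset.smul_sum]
  have hlt : ∀ u ∈ (Fintype.piFinset (fun _ : Fin (len σ) => Finset.range n)).filter
      (fun u => StrictMono u), ∀ j, u j < n := by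
    intro u hu j
    have := (Finset.mem_filter.1 hu).1
    rw [Fintype.mem_piFinset] at this
    simpa using this j
  symm
  refine Finset.sum_bij (fun u hu i => (⟨u (tau h i), hlt u hu (tau h i)⟩ : Fin n)) ?_ ?_ ?_ ?_
  · intro u hu
    rw [Finset.mem_filter]
    refine ⟨Finset.mem_univ _, ?_⟩
    funext i
    apply Fin.ext
    have hsm := (Finset.mem_filter.1 hu).2
    have := rank_comp (n := n) (fun j => (⟨u j, hlt u hu j⟩ : Fin n))
      (fun a b hab => Fin.lt_def.2 (hsm hab)) (tau h) hτ i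
    exact this
  · intro u hu u' hu' heq
    funext j
    obtain ⟨i, rfl⟩ := hτ j
    have := congrFun heq i
    simpa using congrArg Fin.val this
  · intro p hp
    have hp2 := (Finset.mem_filter.1 hp).2
    obtain ⟨l, U, τ', hU, hτ', rfl⟩ := exists_factor p
    have hv : ∀ i, (σ i : ℕ) = τ' i := by
      intro i
      rw [← hp2]
      exact rank_comp U hU τ' hτ' i
    have hl := len_of_surj σ τ' hτ' hv
    subst hl
    refine ⟨fun j => (U j : ℕ), ?_, ?_⟩
    · rw [Finset.mem_filter, Fintype.mem_piFinset]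
      refine ⟨fun j => by simp, fun a b hab => hU hab⟩
    · funext i
      have : tau h i = τ' i := Fin.ext (hv i)
      simp [this]
  · intro u hu
    have hsm := (Finset.mem_filter.1 hu).2
    have h1 := prod_exp A B hAB b (tau h) u hsm.monotone
    have h2 : ∀ e, (loc (A e) (fun i => (⟨u (tau h i), hlt u hu (tau h i)⟩ : Fin n)) -
        loc (B e) (fun i => (⟨u (tau h i), hlt u hu (tau h i)⟩ : Fin n)) : ℕ) =
        ((A e).sup (fun i => u (tau h i)) - (B e).sup (fun i => u (tau h i)) : ℕ) := by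
      intro e
      rfl
    simp only [h2]
    rw [h1, term_eq _ hsm, mul_smul]
    congr 1
    congr 1
    exact (prod_xv u (tau h) hτ).symm

lemma norm_zt {l : ℕ} (A B : κ → Finset ι) (b : κ → ℂ) (hb : ∀ e, 0 ≤ (b e).re)
    (τ : ι → Fin l) (j : Fin l) : ‖zt A B b τ j‖ ≤ 1 := by
  unfold zt
  rw [Complex.norm_exp]
  apply Real.exp_le_one_iff.2
  rw [Complex.neg_re, Complex.re_sum]
  have := Finset.sum_nonneg (s := Finset.univ.filter (fun e => j ∈ opn τ (A e) (B e)))
    (f := fun e => (b e).re) (fun e _ => hb e)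
  linarith

end Skel

open Skel in
/-- (S) skeleton sums with exponential edge weights are sums over weak orderings of pure
statistics. -/
theorem skel_exp {n : ℕ} {ι κ : Type} [Fintype ι] [DecidableEq ι] [Fintype κ]
    (A B : κ → Finset ι) (hAB : ∀ e, B e ⊆ A e) (b : κ → ℂ) (hb : ∀ e, 0 ≤ (b e).re) (Z : Set ℂ)
    (hZ : ∀ T : Finset κ, Complex.exp (-∑ e ∈ T, b e) ∈ Z) :
    ∃ (J : Type) (_ : Fintype J) (l : J → ℕ) (c : J → ℂ) (ζ : ∀ s, Fin (l s) → ℂ),
      Fintype.card J ≤ Fintype.card ι ^ Fintype.card ι ∧ (∀ s, l s ≤ Fintype.card ι) ∧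
      (∀ s, ‖c s‖ ≤ 1) ∧ (∀ s i, ζ s i ∈ Z) ∧
      (skel A B (fun e d => Complex.exp (-(b e * d))) : R n) = ∑ s, c s • Pure (ζ s) := by
  classical
  refine ⟨ι → Fin (Fintype.card ι), inferInstance, len,
    fun σ => if h : Good σ then
      ∏ j : Fin (len σ), (if (j : ℕ) = 0 then 1 else zt A B b (tau h.choose) j) else 0,
    fun σ => if h : Good σ then zt A B b (tau h.choose) else fun _ => Complex.exp (-∑ e ∈ ∅, b e),
    ?_, len_le, ?_, ?_, ?_⟩
  · rw [Fintype.card_fun, Fintype.card_fin]
  · intro σ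
    by_cases h : Good σ
    · simp only [h, dite_true]
      rw [norm_prod]
      apply Finset.prod_le_one
      · intro j _; exact norm_nonneg _
      · intro j _
        split_ifs
        · simp
        · exact norm_zt A B b hb _ j
    · simp [h]
  · intro σ i
    by_cases h : Good σ
    · simp only [h, dite_true]
      exact hZ _
    · simp only [h, dite_false]
      exact hZ _
  · unfold skel
    rw [← Finset.sum_fiberwise (s := Finset.univ) (g := fun p : ι → Fin n => rank p)]
    refine Finset.sum_congr rfl (fun σ _ => ?_)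
    by_cases h : Good σ
    · simp only [h, dite_true]
      exact fiber_sum A B hAB b σ h.choose h.choose_spec
    · have : Finset.univ.filter (fun p : ι → Fin n => rank p = σ) = ∅ := by
        apply Finset.filter_eq_empty_iff.2
        rintro p - rfl
        exact h (good_rank p)
      rw [this]
      simp [h]

end Crest.Agent.R300U
end

-- ▼ part R300/U/AccRep
/-!
Row 300, AccessStatement: codes as skeleton sums (owner helper862).
-/
set_option autoImplicit false

namespace Crest.Agent.R300U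

open scoped BigOperators

/-- `Φ M` is the skeleton sum restricted to position maps with location `M`. -/
def Rep {n : ℕ} {ι κ : Type} [Fintype ι] [DecidableEq ι] [Fintype κ] (Φ : ℕ → R n)
    (A B : κ → Finset ι) (g : κ → ℕ → ℂ) : Prop :=
  ∀ M, Φ M = ∑ p : ι → Fin n,
    (if loc Finset.univ p = M then ∏ e, g e (loc (A e) p - loc (B e) p) else 0) •
      ∏ i, (xv (p i : ℕ) : R n)

theorem star_prod_xv {n : ℕ} {ι : Type} [Fintype ι] (p : ι → Fin n) :
    star (∏ i, (xv (p i : ℕ) : R n)) = ∏ i, (xv (p i : ℕ) : R n) := by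
  rw [← starRingEnd_apply, map_prod]
  refine Finset.prod_congr rfl (fun i _ => ?_)
  rw [starRingEnd_apply, star_xv]

/-- conj or not, for numbers -/
noncomputable def cjn (b : Bool) (z : ℂ) : ℂ := if b then star z else z

theorem cjn_mul (b : Bool) (z w : ℂ) : cjn b (z * w) = cjn b z * cjn b w := by
  unfold cjn; split_ifs <;> simp

theorem cjn_zero (b : Bool) : cjn b 0 = 0 := by
  unfold cjn; split_ifs <;> simp

theorem cjn_prod {κ : Type} (s : Finset κ) (b : Bool) (z : κ → ℂ) :
    cjn b (∏ e ∈ s, z e) = ∏ e ∈ s, cjn b (z e) := by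
  unfold cjn; split_ifs
  · rw [← starRingEnd_apply, map_prod]; rfl
  · rfl

theorem cj_sum_smul {n : ℕ} {ι : Type} [Fintype ι] (b : Bool) (s : Finset (ι → Fin n))
    (w : (ι → Fin n) → ℂ) :
    cj b (∑ p ∈ s, w p • ∏ i, (xv (p i : ℕ) : R n)) =
      ∑ p ∈ s, cjn b (w p) • ∏ i, (xv (p i : ℕ) : R n) := by
  unfold cj cjn
  split_ifs
  · rw [star_sum]
    refine Finset.sum_congr rfl (fun p _ => ?_)
    rw [star_smul, star_prod_xv]
  · rfl

theorem rep_leaf {n : ℕ} : Rep (n := n) (fun M => xv M) (fun _ : Empty => (∅ : Finset Unit))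
    (fun _ => ∅) (fun _ _ => 0) := by
  intro M
  have h1 : ∀ p : Unit → Fin n, loc Finset.univ p = (p () : ℕ) := by
    intro p; simp [loc]
  by_cases hM : M < n
  · rw [Finset.sum_eq_single (fun _ => (⟨M, hM⟩ : Fin n))]
    · rw [if_pos (h1 _)]
      simp
    · intro p _ hp
      rw [if_neg]
      · simp
      · rw [h1]
        intro h
        apply hp
        funext i
        cases i
        exact Fin.ext h
    · simp
  · rw [Finset.sum_eq_zero]
    · funext x
      simp [xv, hM]
    · intro p _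
      rw [if_neg]
      · simp
      · rw [h1]
        have := (p ()).2
        omega

/-- child edges and inherited edges of a node -/
def nodeA {ι κ : Type} [Fintype ι] (k : ℕ) (A : κ → Finset ι) :
    (Fin k ⊕ Fin k × κ) → Finset (Fin k × ι)
  | Sum.inl _ => Finset.univ
  | Sum.inr (a, e) => (A e).map (Function.Embedding.sectR a ι)

def nodeB {ι κ : Type} [Fintype ι] (k : ℕ) (B : κ → Finset ι) :
    (Fin k ⊕ Fin k × κ) → Finset (Fin k × ι)
  | Sum.inl a => Finset.univ.map (Function.Embedding.sectR a ι)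
  | Sum.inr (a, e) => (B e).map (Function.Embedding.sectR a ι)

noncomputable def nodeG {κ : Type} (k : ℕ) (flag : Fin k → Bool) (E : Fin k → ℕ → ℂ)
    (g : κ → ℕ → ℂ) : (Fin k ⊕ Fin k × κ) → ℕ → ℂ
  | Sum.inl a => E a
  | Sum.inr (a, e) => fun d => cjn (flag a) (g e d)

theorem loc_sectR {n k : ℕ} {ι : Type} (a : Fin k) (A : Finset ι) (P : Fin k × ι → Fin n) :
    loc (A.map (Function.Embedding.sectR a ι)) P = loc A (fun i => P (a, i)) := by
  unfold loc
  rw [Finset.sup_map]
  rfl

theorem loc_univ_prod {n k : ℕ} {ι : Type} [Fintype ι] (P : Fin k × ι → Fin n) :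
    loc Finset.univ P = Finset.univ.sup (fun a : Fin k => loc Finset.univ (fun i => P (a, i))) := by
  unfold loc
  rw [← Finset.univ_product_univ, Finset.sup_product_left]

theorem rep_node {n k : ℕ} {ι κ : Type} [Fintype ι] [DecidableEq ι] [Fintype κ] (hk : 0 < k)
    {Φ : ℕ → R n} {A B : κ → Finset ι} {g : κ → ℕ → ℂ} (hΦ : Rep Φ A B g) (flag : Fin k → Bool)
    (E : Fin k → ℕ → ℂ) :
    Rep (fun M => ∑ d ∈ (Fintype.piFinset (fun _ : Fin k => Finset.range (M + 1))).filter
        (fun d => ∃ a, d a = 0), ∏ a : Fin k, (E a (d a) • cj (flag a) (Φ (M - d a))))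
      (nodeA k A) (nodeB k B) (nodeG k flag E g) := by
  classical
  intro M
  have e1 : ∀ d : Fin k → ℕ, ∏ a : Fin k, (E a (d a) • cj (flag a) (Φ (M - d a))) =
      ∑ Q : Fin k → ι → Fin n, ∏ a, ((E a (d a) * (if loc Finset.univ (Q a) = M - d a then
        cjn (flag a) (∏ e, g e (loc (A e) (Q a) - loc (B e) (Q a))) else 0)) •
        ∏ i, (xv (Q a i : ℕ) : R n)) := by
    intro d
    have e2 : ∀ a : Fin k, E a (d a) • cj (flag a) (Φ (M - d a)) =
        ∑ p : ι → Fin n, (E a (d a) * (if loc Finset.univ p = M - d a then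
        cjn (flag a) (∏ e, g e (loc (A e) p - loc (B e) p)) else 0)) •
        ∏ i, (xv (p i : ℕ) : R n) := by
      intro a
      rw [hΦ, cj_sum_smul, Finset.smul_sum]
      refine Finset.sum_congr rfl (fun p _ => ?_)
      rw [smul_smul]
      split_ifs
      · rfl
      · rw [cjn_zero]
    rw [Finset.prod_congr rfl (fun a _ => e2 a), Finset.prod_univ_sum, Fintype.piFinset_univ]
  simp only [e1]
  rw [Finset.sum_comm]
  rw [← (Equiv.curry (Fin k) ι (Fin n)).sum_comp]
  refine Finset.sum_congr rfl (fun P _ => ?_)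
  set Q : Fin k → ι → Fin n := Equiv.curry (Fin k) ι (Fin n) P with hQ
  have hX : ∏ i, (xv (P i : ℕ) : R n) = ∏ a, ∏ i, (xv (Q a i : ℕ) : R n) := by
    rw [Fintype.prod_prod_type]
    rfl
  have hloc : loc Finset.univ P = Finset.univ.sup (fun a : Fin k => loc Finset.univ (Q a)) :=
    loc_univ_prod P
  have hG : ∏ e, nodeG k flag E g e (loc (nodeA k A e) P - loc (nodeB k B e) P) =
      ∏ a, (E a (loc Finset.univ P - loc Finset.univ (Q a)) *
        cjn (flag a) (∏ e, g e (loc (A e) (Q a) - loc (B e) (Q a)))) := by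
    rw [Fintype.prod_sum_type, Fintype.prod_prod_type, ← Finset.prod_mul_distrib]
    refine Finset.prod_congr rfl (fun a _ => ?_)
    rw [cjn_prod]
    congr 1
    · simp only [nodeG, nodeA, nodeB, loc_sectR]
      rfl
    · refine Finset.prod_congr rfl (fun e _ => ?_)
      simp only [nodeG, nodeA, nodeB, loc_sectR]
      rfl
  have hprod : ∀ (w : Fin k → ℂ), ∏ a, (w a • ∏ i, (xv (Q a i : ℕ) : R n)) =
      (∏ a, w a) • ∏ a, ∏ i, (xv (Q a i : ℕ) : R n) := by
    intro w
    rw [Finset.prod_smul]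
  simp only [hprod]
  rw [← Finset.sum_smul, hX, hG]
  congr 1
  split_ifs with h
  · -- the unique term
    rw [Finset.sum_eq_single (fun a => M - loc Finset.univ (Q a))]
    · refine Finset.prod_congr rfl (fun a _ => ?_)
      have hle : loc Finset.univ (Q a) ≤ M := by
        rw [← h, hloc]
        exact Finset.le_sup (f := fun a : Fin k => loc Finset.univ (Q a)) (Finset.mem_univ a)
      dsimp only
      rw [if_pos (by omega), h]
    · intro d hd hne
      rw [Finset.mem_filter, Fintype.mem_piFinset] at hd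
      obtain ⟨a, ha⟩ := Function.ne_iff.mp hne
      apply Finset.prod_eq_zero (Finset.mem_univ a)
      have h1 := hd.1 a
      rw [Finset.mem_range] at h1
      rw [if_neg (by omega), mul_zero]
    · intro hnot
      exfalso
      apply hnot
      rw [Finset.mem_filter, Fintype.mem_piFinset]
      refine ⟨fun a => Finset.mem_range.mpr (by omega), ?_⟩
      have : Nonempty (Fin k) := ⟨⟨0, hk⟩⟩
      obtain ⟨a, _, ha⟩ := Finset.exists_mem_eq_sup Finset.univ Finset.univ_nonempty
        (fun a : Fin k => loc Finset.univ (Q a))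
      refine ⟨a, ?_⟩
      rw [← hloc, h] at ha
      dsimp only at ha ⊢
      omega
  · apply Finset.sum_eq_zero
    intro d hd
    rw [Finset.mem_filter, Fintype.mem_piFinset] at hd
    by_contra hne
    apply h
    have h2 : ∀ a, loc Finset.univ (Q a) = M - d a := by
      intro a
      by_contra h3
      apply hne
      apply Finset.prod_eq_zero (Finset.mem_univ a)
      rw [if_neg h3, mul_zero]
    rw [hloc]
    apply le_antisymm
    · apply Finset.sup_le
      intro a _
      rw [h2]; omega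
    · obtain ⟨a, ha⟩ := hd.2
      have h3 := h2 a
      rw [ha, Nat.sub_zero] at h3
      rw [← h3]
      exact Finset.le_sup (f := fun a : Fin k => loc Finset.univ (Q a)) (Finset.mem_univ a)

/-- root edges and inherited edges -/
def rootA {ι κ : Type} [Fintype ι] (k : ℕ) (A : κ → Finset ι) :
    (Fin k ⊕ Fin k × κ) → Finset (Fin k × ι)
  | Sum.inl a => Finset.univ.map (Function.Embedding.sectR a ι)
  | Sum.inr (a, e) => (A e).map (Function.Embedding.sectR a ι)

def rootB {ι κ : Type} [Fintype ι] (k : ℕ) (B : κ → Finset ι) :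
    (Fin k ⊕ Fin k × κ) → Finset (Fin k × ι)
  | Sum.inl _ => ∅
  | Sum.inr (a, e) => (B e).map (Function.Embedding.sectR a ι)

theorem loc_lt {n : ℕ} {ι : Type} [Fintype ι] [Nonempty ι] (p : ι → Fin n) :
    loc Finset.univ p < n := by
  unfold loc
  rw [Finset.sup_lt_iff]
  · intro i _; exact (p i).2
  · obtain ⟨i⟩ := ‹Nonempty ι›
    exact lt_of_le_of_lt (Nat.zero_le _) (p i).2

theorem skel_root {n k : ℕ} {ι κ : Type} [Fintype ι] [DecidableEq ι] [Nonempty ι] [Fintype κ]
    {Φ : ℕ → R n} {A B : κ → Finset ι} {g : κ → ℕ → ℂ} (hΦ : Rep Φ A B g) (flag : Fin k → Bool)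
    (E : Fin k → ℕ → ℂ) :
    ∏ a : Fin k, cj (flag a) (∑ u ∈ Finset.range n, E a u • Φ u) =
      skel (rootA k A) (rootB k B) (nodeG k flag (fun a u => cjn (flag a) (E a u)) g) := by
  classical
  have e1 : ∀ a : Fin k, cj (flag a) (∑ u ∈ Finset.range n, E a u • Φ u) =
      ∑ p : ι → Fin n, cjn (flag a) (E a (loc Finset.univ p) *
        ∏ e, g e (loc (A e) p - loc (B e) p)) • ∏ i, (xv (p i : ℕ) : R n) := by
    intro a
    rw [← cj_sum_smul]
    congr 1
    have e2 : ∀ u, E a u • Φ u = ∑ p : ι → Fin n, (E a u * (if loc Finset.univ p = u then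
        ∏ e, g e (loc (A e) p - loc (B e) p) else 0)) • ∏ i, (xv (p i : ℕ) : R n) := by
      intro u
      rw [hΦ, Finset.smul_sum]
      refine Finset.sum_congr rfl (fun p _ => ?_)
      rw [smul_smul]
    simp only [e2]
    rw [Finset.sum_comm]
    refine Finset.sum_congr rfl (fun p _ => ?_)
    rw [← Finset.sum_smul]
    congr 1
    rw [Finset.sum_eq_single (loc Finset.univ p)]
    · rw [if_pos rfl]
    · intro u _ hu
      rw [if_neg (Ne.symm hu), mul_zero]
    · intro h
      exact absurd (Finset.mem_range.mpr (loc_lt p)) h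
  rw [Finset.prod_congr rfl (fun a _ => e1 a), Finset.prod_univ_sum, Fintype.piFinset_univ]
  unfold skel
  rw [← (Equiv.curry (Fin k) ι (Fin n)).sum_comp]
  refine Finset.sum_congr rfl (fun P _ => ?_)
  rw [Finset.prod_smul, Fintype.prod_prod_type]
  congr 1
  rw [Fintype.prod_sum_type, Fintype.prod_prod_type, ← Finset.prod_mul_distrib]
  refine Finset.prod_congr rfl (fun a _ => ?_)
  rw [cjn_mul, cjn_prod]
  congr 1
  · simp only [nodeG, rootA, rootB, loc_sectR]
    congr 2
  · refine Finset.prod_congr rfl (fun e _ => ?_)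
    simp only [nodeG, rootA, rootB, loc_sectR]
    rfl

end Crest.Agent.R300U
private theorem rz_88406a7c76 : type_of% @_root_.Crest.Agent.R300U.nodeA.eq_1 := @_root_.Crest.Agent.R300U.nodeA.eq_1 -- L81
private theorem rz_e9eadbd8ec : type_of% @_root_.Crest.Agent.R300U.nodeB.eq_1 := @_root_.Crest.Agent.R300U.nodeB.eq_1 -- L86
private theorem rz_fb480e7b9b : type_of% @_root_.Crest.Agent.R300U.nodeG.eq_1 := @_root_.Crest.Agent.R300U.nodeG.eq_1 -- L91
private theorem rz_efd9e9dec7 : type_of% @_root_.Crest.Agent.R300U.rootA.eq_1 := @_root_.Crest.Agent.R300U.rootA.eq_1 -- L212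
private theorem rz_634bc26d6e : type_of% @_root_.Crest.Agent.R300U.rootB.eq_1 := @_root_.Crest.Agent.R300U.rootB.eq_1 -- L217
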