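import Crest.Agent.R300.An1
import Crest.Agent.R300.U.Calc
import Crest.Agent.R300.U.Iface
import Mathlib

-- ▼ part R300/An2
section

/-!
# Row 300, analysis part 2: the threshold lemma
-/

open MeasureTheory Complex Set Filter Topology
open scoped Real

namespace Crest.Agent.R300

theorem poi_pos {σ : ℝ} (hσ : 0 < σ) (y ν : ℝ) : 0 < poi σ y ν := by
  unfold poi
  have := Real.pi_pos
  positivity

theorem continuous_poi {σ : ℝ} (hσ : 0 < σ) (y : ℝ) : Continuous (poi σ y) := by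
  unfold poi
  have : ∀ ν : ℝ, σ ^ 2 + (ν - y) ^ 2 ≠ 0 := fun ν => by positivity
  fun_prop (disch := exact this _)



theorem integral_poi {σ : ℝ} (hσ : 0 < σ) (y : ℝ) : ∫ ν, poi σ y ν = 1 := by
  have := integral_poi_eq (fun _ => 1) hσ y
  simp only [one_mul] at this
  rw [this]
  simp
  field_simp

theorem integrable_poi {σ : ℝ} (hσ : 0 < σ) (y : ℝ) : Integrable (poi σ y) := by
  by_contra h
  have := integral_undef h
  rw [integral_poi hσ y] at this
  exact one_ne_zero this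








/-- Jensen at the centre, with the interval `[-π, π]`. -/
theorem norm_coeff_zero_le' {N : ℕ} (hN : 0 < N) (c : ℕ → ℂ) {h : ℝ → ℝ} (hm : Measurable h)
    {C : ℝ} (hC : ∀ ν, |h ν| ≤ C)
    (hh : ∀ ν : ℝ, |ν| ≤ π → ‖expSum N c (I * ν)‖ ≤ Real.exp (-h ν)) :
    ‖c 0‖ ≤ Real.exp (-((2 * π)⁻¹ * ∫ θ in (-π)..π, h θ)) := by
  have hpi := Real.pi_pos
  set B : ℝ := ∑ m ∈ Finset.range N, ‖c m‖ with hB
  have hB0 : 0 ≤ B := Finset.sum_nonneg fun _ _ => norm_nonneg _
  have hC0 : 0 ≤ C := (abs_nonneg _).trans (hC 0)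
  set C₂ : ℝ := Real.log (B + 1) with hC₂
  have hC₂0 : 0 ≤ C₂ := Real.log_nonneg (by linarith)
  set g : ℝ → ℝ := fun θ => if θ ∈ Icc 0 π then h θ else
    if θ ∈ Ioc π (2 * π) then h (θ - 2 * π) else -C₂ with hg
  have hgm : Measurable g := by
    refine Measurable.ite measurableSet_Icc hm (Measurable.ite measurableSet_Ioc ?_ measurable_const)
    exact hm.comp (measurable_id.sub_const _)
  have hgC : ∀ θ, |g θ| ≤ C + C₂ := by
    intro θ
    simp only [hg]
    split_ifs
    · linarith [hC θ]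
    · linarith [hC (θ - 2 * π)]
    · rw [abs_neg, abs_of_nonneg hC₂0]; linarith
  have hgb : ∀ θ : ℝ, ‖expSum N c (I * θ)‖ ≤ Real.exp (-g θ) := by
    intro θ
    simp only [hg]
    split_ifs with c1 c2
    · exact hh θ (abs_le.2 ⟨by linarith [c1.1], c1.2⟩)
    · have h1 := hh (θ - 2 * π) (abs_le.2 ⟨by linarith [c2.1], by linarith [c2.2]⟩)
      have h2 : expSum N c (I * ((θ - 2 * π : ℝ) : ℂ)) = expSum N c (I * θ) := by
        unfold expSum
        refine Finset.sum_congr rfl fun m _ => ?_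
        congr 1
        have : I * ((θ - 2 * π : ℝ) : ℂ) * m = I * θ * m - (m : ℤ) * (2 * π * I) := by
          push_cast; ring
        rw [this, exp_sub, exp_int_mul_two_pi_mul_I, div_one]
      rw [← h2]; exact h1
    · rw [neg_neg, hC₂, Real.exp_log (by linarith)]
      have := norm_expSum_le N c (s := I * θ) (by simp)
      linarith
  have key := norm_coeff_zero_le hN c hgm hgC hgb
  have hint : ∀ u v : ℝ, IntervalIntegrable h volume u v := by
    intro u v
    refine (intervalIntegrable_const (c := C)).mono_fun hm.aestronglyMeasurable ?_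
    refine Eventually.of_forall fun θ => ?_
    exact (hC θ).trans (le_abs_self C)
  have hgint : ∀ u v : ℝ, IntervalIntegrable g volume u v := by
    intro u v
    refine (intervalIntegrable_const (c := C + C₂)).mono_fun hgm.aestronglyMeasurable ?_
    refine Eventually.of_forall fun θ => ?_
    exact (hgC θ).trans (le_abs_self _)
  have e1 : ∫ θ in (0 : ℝ)..2 * π, g θ = ∫ θ in (-π)..π, h θ := by
    rw [← intervalIntegral.integral_add_adjacent_intervals (hgint 0 π) (hgint π (2 * π))]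
    have a1 : ∫ θ in (0 : ℝ)..π, g θ = ∫ θ in (0 : ℝ)..π, h θ := by
      refine intervalIntegral.integral_congr fun θ hθ => ?_
      rw [uIcc_of_le hpi.le] at hθ
      simp only [hg, if_pos hθ]
    have a2 : ∫ θ in π..2 * π, g θ = ∫ θ in π..2 * π, h (θ - 2 * π) := by
      refine intervalIntegral.integral_congr_ae (Eventually.of_forall fun θ hθ => ?_)
      rw [uIoc_of_le (by linarith)] at hθ
      have : θ ∉ Icc 0 π := fun h' => absurd h'.2 (not_le.2 hθ.1)
      simp only [hg, if_neg this, if_pos hθ]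
    rw [a1, a2, intervalIntegral.integral_comp_sub_right (fun θ => h θ) (2 * π)]
    have b1 : π - 2 * π = -π := by ring
    have b2 : 2 * π - 2 * π = 0 := by ring
    rw [b1, b2, add_comm, intervalIntegral.integral_add_adjacent_intervals (hint _ _) (hint _ _)]
  rwa [e1] at key


end Crest.Agent.R300
end

-- ▼ part R300/An4
section

/-!
# Row 300, analysis part 4: the averaging inequality for the pseudo-expectation decoder

* `claimB`: if `a(x) + a(x + k' η) ≥ G k` for some `k' ≤ k`, then on every interval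
  `∫ a ≥ (1/2) ∫ G(⌊r/η⌋)`;
* `levelG_halfplane`, `levelG_final`: the level step (factor `20/3`, resp. `6`).
-/

open MeasureTheory Complex Set Filter Topology
open scoped Real

namespace Crest.Agent.R300

/-- the step function `r ↦ G ⌊r/η⌋` -/
noncomputable def stepG (G : ℕ → ℝ) (η r : ℝ) : ℝ := G ⌊r / η⌋₊

theorem stepG_mono {G : ℕ → ℝ} (hG : Monotone G) {η : ℝ} (hη : 0 < η) : Monotone (stepG G η) :=
  fun _ _ hrs => hG (Nat.floor_mono (div_le_div_of_nonneg_right hrs hη.le))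

theorem stepG_intervalIntegrable {G : ℕ → ℝ} (hG : Monotone G) {η : ℝ} (hη : 0 < η) (u v : ℝ) :
    IntervalIntegrable (stepG G η) volume u v :=
  (stepG_mono hG hη).intervalIntegrable

theorem measurable_stepG {G : ℕ → ℝ} (hG : Monotone G) {η : ℝ} (hη : 0 < η) :
    Measurable (stepG G η) := (stepG_mono hG hη).measurable

theorem stepG_le {G : ℕ → ℝ} {η B : ℝ} (hG : ∀ k, G k ≤ B) (r : ℝ) : stepG G η r ≤ B := hG _

theorem stepG_nonneg {G : ℕ → ℝ} {η : ℝ} (hG : ∀ k, 0 ≤ G k) (r : ℝ) : 0 ≤ stepG G η r := hG _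

/-- **Claim B**, continuous form. -/
theorem claimB {a : ℝ → ℝ} (ha : ∀ u v, IntervalIntegrable a volume u v) {G : ℕ → ℝ}
    (hG : Monotone G) {η R : ℝ} (hη : 0 < η)
    (hpair : ∀ k : ℕ, ∃ k' ≤ k, ∀ x : ℝ, |x| ≤ R → |x + k' * η| ≤ R → G k ≤ a x + a (x + k' * η))
    {u v : ℝ} (hu : -R ≤ u) (huv : u ≤ v) (hv : v ≤ R) :
    (1 / 2) * ∫ r in (0 : ℝ)..(v - u), stepG G η r ≤ ∫ x in u..v, a x := by
  have main : ∀ n : ℕ, ∀ u v : ℝ, -R ≤ u → u ≤ v → v ≤ R → v - u ≤ n * η →
      (1 / 2) * ∫ r in (0 : ℝ)..(v - u), stepG G η r ≤ ∫ x in u..v, a x := by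
    intro n
    induction n with
    | zero =>
      intro u v _ huv _ hl
      have : v = u := by
        simp at hl
        linarith
      rw [this]
      simp
    | succ n ih =>
      intro u v hu huv hv hl
      rcases le_or_gt (v - u) (n * η) with hle | hgt
      · exact ih u v hu huv hv hle
      obtain ⟨k', hk', hp⟩ := hpair n
      set h : ℝ := k' * η with hh
      have hk'' : (k' : ℝ) ≤ n := by exact_mod_cast hk'
      have hh0 : 0 ≤ h := by positivity
      have hhn : h ≤ n * η := by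
        rw [hh]; exact mul_le_mul_of_nonneg_right hk'' hη.le
      have hhl : h ≤ v - u := by linarith
      -- first pieces
      have i1 := ih u (u + h) hu (by linarith) (by linarith) (by linarith)
      have i2 := ih (v - h) v (by linarith) (by linarith) hv (by linarith)
      rw [show u + h - u = h by ring] at i1
      rw [show v - (v - h) = h by ring] at i2
      have i3 : ∫ x in u..(v - h), (a x + a (x + h)) = (∫ x in u..(v - h), a x)
          + ∫ x in (u + h)..v, a x := by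
        rw [intervalIntegral.integral_add (ha _ _)]
        · congr 1
          rw [intervalIntegral.integral_comp_add_right (fun x => a x) h]
          congr 1
          ring
        · have := (ha (u + h) v).comp_add_right h
          simpa using this
      have i4 : (v - h - u) * G n ≤ ∫ x in u..(v - h), (a x + a (x + h)) := by
        have : ∫ x in u..(v - h), G n ≤ ∫ x in u..(v - h), (a x + a (x + h)) := by
          refine intervalIntegral.integral_mono_on (by linarith) intervalIntegrable_const ?_ ?_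
          · refine (ha _ _).add ?_
            have := (ha (u + h) v).comp_add_right h
            simpa using this
          · intro x hx
            refine hp x ?_ ?_
            · rw [abs_le]; exact ⟨by linarith [hx.1], by linarith [hx.2]⟩
            · rw [abs_le]; exact ⟨by linarith [hx.1], by linarith [hx.2]⟩
        simpa using this
      have i5 := intervalIntegral.integral_add_adjacent_intervals (ha u (v - h)) (ha (v - h) v)
      have i6 := intervalIntegral.integral_add_adjacent_intervals (ha u (u + h)) (ha (u + h) v)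
      have i7 := intervalIntegral.integral_add_adjacent_intervals
        (stepG_intervalIntegrable hG hη 0 h) (stepG_intervalIntegrable hG hη h (v - u))
      have i8 : ∫ r in h..(v - u), stepG G η r ≤ (v - u - h) * G n := by
        have : ∫ r in h..(v - u), stepG G η r ≤ ∫ r in h..(v - u), G n := by
          refine intervalIntegral.integral_mono_on_of_le_Ioo hhl
            (stepG_intervalIntegrable hG hη _ _) intervalIntegrable_const ?_
          intro r hr
          refine hG ?_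
          have : r / η < n + 1 := by
            rw [div_lt_iff₀ hη]
            have h2 := hr.2
            push_cast at hl
            linarith
          have h0 : 0 ≤ r / η := div_nonneg (by linarith [hr.1]) hη.le
          have := (Nat.floor_lt h0).2 (by exact_mod_cast this : r / η < ((n + 1 : ℕ) : ℝ))
          omega
        simpa using this
      linarith
  obtain ⟨n, hn⟩ := exists_nat_ge ((v - u) / η)
  exact main n u v hu huv hv (by rwa [div_le_iff₀ hη] at hn)

/-- Abel summation: positivity of primitives is inherited by decreasing weights. -/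
theorem abel_nonneg {f u : ℝ → ℝ} {T : ℝ} (hT : 0 ≤ T) (hf : ContDiff ℝ 1 f)
    (hf' : ∀ t ∈ Icc 0 T, deriv f t ≤ 0) (hfT : 0 ≤ f T) (hu : IntervalIntegrable u volume 0 T)
    (hU : ∀ t ∈ Icc 0 T, 0 ≤ ∫ s in (0 : ℝ)..t, u s) :
    0 ≤ ∫ t in (0 : ℝ)..T, f t * u t := by
  set U : ℝ → ℝ := fun t => ∫ s in (0 : ℝ)..t, u s with hUdef
  have hUac : AbsolutelyContinuousOnInterval U 0 T :=
    hu.absolutelyContinuousOnInterval_intervalIntegral (c := 0) (by simp)
  have hfac : AbsolutelyContinuousOnInterval f 0 T :=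
    hf.contDiffOn.absolutelyContinuousOnInterval
  have key := hfac.integral_mul_deriv_eq_deriv_mul hUac
  have e1 : ∫ t in (0 : ℝ)..T, f t * u t = ∫ t in (0 : ℝ)..T, f t * deriv U t := by
    refine intervalIntegral.integral_congr_ae ?_
    filter_upwards [hu.ae_hasDerivAt_integral] with t ht ht2
    have := (ht (uIoc_subset_uIcc ht2) 0 (by simp)).deriv
    rw [this]
  rw [e1, key]
  have hU0 : U 0 = 0 := by simp [hUdef]
  rw [hU0, mul_zero, sub_zero]
  have h1 : 0 ≤ f T * U T := mul_nonneg hfT (hU T ⟨hT, le_refl _⟩)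
  have h2 : ∫ t in (0 : ℝ)..T, deriv f t * U t ≤ 0 := by
    have : ∫ t in (0 : ℝ)..T, deriv f t * U t ≤ ∫ t in (0 : ℝ)..T, (0 : ℝ) := by
      refine intervalIntegral.integral_mono_on hT ?_ intervalIntegrable_const ?_
      · exact hfac.intervalIntegrable_deriv.mul_continuousOn hUac.continuousOn
      · intro t ht
        exact mul_nonpos_of_nonpos_of_nonneg (hf' t ht) (hU t ht)
    simpa using this
  linarith

/-- the centred kernel -/
noncomputable def qk (σ t : ℝ) : ℝ := (σ / π) / (σ ^ 2 + t ^ 2)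

theorem poi_add {σ y t : ℝ} : poi σ y (y + t) = qk σ t := by
  unfold poi qk
  simp

theorem poi_sub {σ y t : ℝ} : poi σ y (y - t) = qk σ t := by
  unfold poi qk
  simp


theorem qk_pos {σ : ℝ} (hσ : 0 < σ) (t : ℝ) : 0 < qk σ t := by
  unfold qk
  have := Real.pi_pos
  positivity

theorem contDiff_qk {σ : ℝ} (hσ : 0 < σ) : ContDiff ℝ 1 (qk σ) := by
  unfold qk
  have : ∀ t : ℝ, σ ^ 2 + t ^ 2 ≠ 0 := fun t => by positivity
  fun_prop (disch := exact this _)

theorem deriv_qk_nonpos {σ : ℝ} (hσ : 0 < σ) {t : ℝ} (ht : 0 ≤ t) : deriv (qk σ) t ≤ 0 := by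
  have hpi := Real.pi_pos
  have h0 : σ ^ 2 + t ^ 2 ≠ 0 := by positivity
  have h1 : HasDerivAt (fun t : ℝ => σ ^ 2 + t ^ 2) (2 * t) t := by
    have := (hasDerivAt_pow 2 t).const_add (σ ^ 2)
    simpa using this
  have h2 : HasDerivAt (qk σ) (-(σ / π) * (2 * t) / (σ ^ 2 + t ^ 2) ^ 2) t := by
    have := (hasDerivAt_const t (σ / π)).div h1 h0
    refine this.congr_deriv ?_
    ring
  rw [h2.deriv]
  apply div_nonpos_of_nonpos_of_nonneg _ (by positivity)
  have : 0 ≤ σ / π * (2 * t) := by positivity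
  linarith

theorem half_stepG_le {a : ℝ → ℝ} (ha : ∀ u v, IntervalIntegrable a volume u v) {G : ℕ → ℝ}
    (hG : Monotone G) {η R : ℝ} (hη : 0 < η)
    (hpair : ∀ k : ℕ, ∃ k' ≤ k, ∀ x : ℝ, |x| ≤ R → |x + k' * η| ≤ R → G k ≤ a x + a (x + k' * η))
    {σ y T : ℝ} (hσ : 0 < σ) (hT : 0 ≤ T) (h1 : -R ≤ y - T) (h2 : y + T ≤ R) :
    ∫ t in (0 : ℝ)..T, qk σ t * stepG G η (2 * t) ≤ ∫ x in (y - T)..(y + T), a x * poi σ y x := by
  have hGi : ∀ u v, IntervalIntegrable (fun t => stepG G η (2 * t)) volume u v := by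
    intro u v
    have : Monotone (fun t => stepG G η (2 * t)) := fun r s hrs =>
      stepG_mono hG hη (mul_le_mul_of_nonneg_left hrs zero_le_two)
    exact this.intervalIntegrable
  have ha1 : ∀ u v, IntervalIntegrable (fun t => a (y + t)) volume u v := by
    intro u v
    have := (ha (u + y) (v + y)).comp_add_left y
    simpa using this
  have ha2 : ∀ u v, IntervalIntegrable (fun t => a (y - t)) volume u v := by
    intro u v
    have := (ha (y - u) (y - v)).comp_sub_left y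
    simpa using this
  have hq : Continuous (qk σ) := (contDiff_qk hσ).continuous
  have key := abel_nonneg (f := qk σ) (u := fun t => a (y + t) + a (y - t) - stepG G η (2 * t))
    hT (contDiff_qk hσ) (fun t ht => deriv_qk_nonpos hσ ht.1) (qk_pos hσ T).le
    (((ha1 _ _).add (ha2 _ _)).sub (hGi _ _)) ?_
  · have e0 : ∀ t, qk σ t * (a (y + t) + a (y - t) - stepG G η (2 * t))
        = a (y + t) * qk σ t + a (y - t) * qk σ t - qk σ t * stepG G η (2 * t) := by
      intro t; ring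
    simp_rw [e0] at key
    rw [intervalIntegral.integral_sub, intervalIntegral.integral_add] at key
    · have e1 : ∫ t in (0 : ℝ)..T, a (y + t) * qk σ t = ∫ x in y..(y + T), a x * poi σ y x := by
        have := intervalIntegral.integral_comp_add_left (a := 0) (b := T)
          (fun x => a x * poi σ y x) y
        simp only [poi_add, add_zero] at this
        exact this
      have e2 : ∫ t in (0 : ℝ)..T, a (y - t) * qk σ t = ∫ x in (y - T)..y, a x * poi σ y x := by
        have := intervalIntegral.integral_comp_sub_left (a := 0) (b := T)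
          (fun x => a x * poi σ y x) y
        simp only [poi_sub, sub_zero] at this
        exact this
      have e3 := intervalIntegral.integral_add_adjacent_intervals
        ((ha (y - T) y).mul_continuousOn (continuous_poi hσ y).continuousOn)
        ((ha y (y + T)).mul_continuousOn (continuous_poi hσ y).continuousOn)
      rw [e1, e2] at key
      rw [← e3]
      linarith
    · exact (ha1 _ _).mul_continuousOn hq.continuousOn
    · exact (ha2 _ _).mul_continuousOn hq.continuousOn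
    · exact ((ha1 _ _).mul_continuousOn hq.continuousOn).add
        ((ha2 _ _).mul_continuousOn hq.continuousOn)
    · exact (hGi _ _).continuousOn_mul hq.continuousOn
  · intro t ht
    rw [intervalIntegral.integral_sub ((ha1 _ _).add (ha2 _ _)) (hGi _ _),
      intervalIntegral.integral_add (ha1 _ _) (ha2 _ _)]
    have c := claimB ha hG hη hpair (u := y - t) (v := y + t) (by linarith [ht.2])
      (by linarith [ht.1]) (by linarith [ht.2])
    have e1 : ∫ s in (0 : ℝ)..t, a (y + s) = ∫ x in y..(y + t), a x := by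
      have := intervalIntegral.integral_comp_add_left (a := 0) (b := t) (fun x => a x) y
      rwa [add_zero] at this
    have e2 : ∫ s in (0 : ℝ)..t, a (y - s) = ∫ x in (y - t)..y, a x := by
      have := intervalIntegral.integral_comp_sub_left (a := 0) (b := t) (fun x => a x) y
      rwa [sub_zero] at this
    have e3 : ∫ s in (0 : ℝ)..t, stepG G η (2 * s)
        = (1 / 2) * ∫ r in (0 : ℝ)..(y + t - (y - t)), stepG G η r := by
      have := intervalIntegral.integral_comp_mul_left (a := 0) (b := t)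
        (fun x => stepG G η x) (two_ne_zero (α := ℝ))
      rw [this, smul_eq_mul]
      congr 2
      · norm_num
      · ring
      · ring
    have e4 := intervalIntegral.integral_add_adjacent_intervals (ha (y - t) y) (ha y (y + t))
    rw [e1, e2, e3]
    linarith

/-- pointwise comparison; the slope `√7` of the wedge enters here -/
theorem poi_compare' {σ y : ℝ} (hσ : 0 < σ) (hy : y ^ 2 ≤ 7 * σ ^ 2) (r : ℝ) :
    (1 / 2) * qk σ (r / 2) ≤ 2 * (poi σ y r + poi σ y (-r)) := by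
  unfold poi qk
  have hpi := Real.pi_pos
  have e1 : 0 < σ ^ 2 + (r / 2) ^ 2 := by positivity
  have e2 : 0 < σ ^ 2 + (r - y) ^ 2 := by positivity
  have e3 : 0 < σ ^ 2 + (-r - y) ^ 2 := by positivity
  have key : 1 / (σ ^ 2 + (r / 2) ^ 2)
      ≤ 4 * (1 / (σ ^ 2 + (r - y) ^ 2) + 1 / (σ ^ 2 + (-r - y) ^ 2)) := by
    rw [div_add_div _ _ e2.ne' e3.ne', ← mul_div_assoc, div_le_div_iff₀ e1 (by positivity)]
    have h1 : 0 ≤ (σ ^ 2 + r ^ 2 + y ^ 2) * (7 * σ ^ 2 + r ^ 2 - y ^ 2) := by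
      apply mul_nonneg (by positivity)
      nlinarith [sq_nonneg r]
    nlinarith [sq_nonneg (r * y)]
  have e4 : 0 < σ / π := by positivity
  calc (1 / 2) * ((σ / π) / (σ ^ 2 + (r / 2) ^ 2))
      = (σ / π) * ((1 / 2) * (1 / (σ ^ 2 + (r / 2) ^ 2))) := by
        field_simp
    _ ≤ (σ / π) * ((1 / 2) * (4 * (1 / (σ ^ 2 + (r - y) ^ 2) + 1 / (σ ^ 2 + (-r - y) ^ 2)))) := by
        gcongr
    _ = _ := by field_simp; ring

/-- mass of the centred kernel on `[0, T]` -/
theorem qk_mass {σ T : ℝ} (hσ : 0 < σ) (hT : 8 * σ ≤ T) :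
    9 / 20 ≤ ∫ t in (0 : ℝ)..T, qk σ t := by
  have hpi := Real.pi_pos
  have h1 : ∀ t : ℝ, HasDerivAt (fun t => π⁻¹ * Real.arctan (t / σ)) (qk σ t) t := by
    intro t
    have h1 : HasDerivAt (fun ν : ℝ => ν / σ) (1 / σ) t := (hasDerivAt_id t).div_const σ
    have h2 := (h1.arctan).const_mul (π⁻¹)
    refine h2.congr_deriv ?_
    unfold qk
    field_simp
  rw [intervalIntegral.integral_eq_sub_of_hasDerivAt (fun t _ => h1 t)
    ((contDiff_qk hσ).continuous.intervalIntegrable _ _)]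
  simp only [zero_div, Real.arctan_zero, mul_zero, sub_zero]
  have ht : 8 ≤ T / σ := by rw [le_div_iff₀ hσ]; linarith
  have ht0 : 0 < T / σ := by linarith
  have h2 := Real.arctan_inv_of_pos ht0
  have h3 : Real.arctan (T / σ)⁻¹ ≤ (T / σ)⁻¹ := by
    have h3 : (0 : ℝ) ≤ (T / σ)⁻¹ := by positivity
    have h4 := Real.le_tan (x := Real.arctan (T / σ)⁻¹) (by rwa [Real.arctan_nonneg])
      (Real.arctan_lt_pi_div_two _)
    rwa [Real.tan_arctan] at h4
  have h4 : (T / σ)⁻¹ ≤ 1 / 8 := by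
    rw [inv_eq_one_div]
    exact one_div_le_one_div_of_le (by norm_num) ht
  have h5 : π / 2 - 1 / 8 ≤ Real.arctan (T / σ) := by linarith
  have h6 : π⁻¹ * (π / 2 - 1 / 8) ≤ π⁻¹ * Real.arctan (T / σ) :=
    mul_le_mul_of_nonneg_left h5 (by positivity)
  have h7 : π⁻¹ * (π / 2 - 1 / 8) = 1 / 2 - π⁻¹ / 8 := by field_simp
  have h8 : π⁻¹ ≤ 1 / 3 := by
    rw [inv_eq_one_div]
    exact one_div_le_one_div_of_le (by norm_num) (by linarith [Real.pi_gt_three])
  linarith

/-- **averaging inequality** on the half plane -/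
theorem levelG_integral {A σ y R η : ℝ} (hA : 0 ≤ A) (hσ : 0 < σ) (hy : y ^ 2 ≤ 7 * σ ^ 2)
    (hR : 16 * σ ≤ R) (hη : 0 < η) {a : ℝ → ℝ} (ha : Measurable a) (ha0 : ∀ x, 0 ≤ a x)
    (ha1 : ∀ x, a x ≤ A / 3) {G : ℕ → ℝ} (hG : Monotone G) (hG0 : ∀ k, 0 ≤ G k)
    (hG1 : ∀ k, G k ≤ A / 3)
    (hpair : ∀ k : ℕ, ∃ k' ≤ k, ∀ x : ℝ, |x| ≤ R → |x + k' * η| ≤ R →
      G k ≤ a x + a (x + k' * η)) :
    3 / 20 * A ≤ ∫ ν in (-R)..R, (2 / 3 * A - 2 * stepG G η |ν| + a ν) * poi σ y ν := by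
  have hy3 : |y| ≤ 3 * σ := by
    apply abs_le_of_sq_le_sq _ (by positivity)
    nlinarith
  have hR0 : 0 < R := by linarith
  have hai : ∀ u v, IntervalIntegrable a volume u v := by
    intro u v
    refine (intervalIntegrable_const (c := A / 3)).mono_fun ha.aestronglyMeasurable ?_
    refine Eventually.of_forall fun θ => ?_
    show |a θ| ≤ |A / 3|
    rw [abs_of_nonneg (ha0 θ), abs_of_nonneg (by positivity)]
    exact ha1 θ
  have hc := continuous_poi hσ y
  have hsi : ∀ u v, IntervalIntegrable (fun ν => stepG G η |ν|) volume u v := by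
    intro u v
    refine (intervalIntegrable_const (c := A / 3)).mono_fun
      ((measurable_stepG hG hη).comp measurable_id.abs).aestronglyMeasurable ?_
    refine Eventually.of_forall fun θ => ?_
    have h1 : ‖stepG G η |θ|‖ = stepG G η |θ| := by
      rw [Real.norm_eq_abs, abs_of_nonneg (stepG_nonneg hG0 _)]
    have h2 : ‖A / 3‖ = A / 3 := by
      rw [Real.norm_eq_abs, abs_of_nonneg (by positivity)]
    beta_reduce
    rw [h1, h2]
    exact stepG_le hG1 _
  -- the `a` part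
  set T : ℝ := R - |y| with hTdef
  have hT : R / 2 ≤ T := by rw [hTdef]; linarith
  have h1 := half_stepG_le hai hG hη hpair hσ (y := y) (T := T) (by linarith)
    (by rw [hTdef]; linarith [neg_abs_le y]) (by rw [hTdef]; linarith [le_abs_self y])
  have hap0 : ∀ ν, 0 ≤ a ν * poi σ y ν := fun ν => mul_nonneg (ha0 ν) (poi_pos hσ y ν).le
  have hapi : ∀ u v, IntervalIntegrable (fun ν => a ν * poi σ y ν) volume u v :=
    fun u v => (hai u v).mul_continuousOn hc.continuousOn
  have h2 : ∫ x in (y - T)..(y + T), a x * poi σ y x ≤ ∫ ν in (-R)..R, a ν * poi σ y ν := by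
    have c1 : -R ≤ y - T := by rw [hTdef]; linarith [neg_abs_le y]
    have c2 : y + T ≤ R := by rw [hTdef]; linarith [le_abs_self y]
    exact intervalIntegral.integral_mono_interval c1 (by linarith) c2
      (Eventually.of_forall fun ν => hap0 ν) (hapi _ _)
  have hq : Continuous (qk σ) := (contDiff_qk hσ).continuous
  have hGi : ∀ u v, IntervalIntegrable (fun t => qk σ t * stepG G η (2 * t)) volume u v := by
    intro u v
    have : Monotone (fun t => stepG G η (2 * t)) := fun r s hrs =>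
      stepG_mono hG hη (mul_le_mul_of_nonneg_left hrs zero_le_two)
    exact this.intervalIntegrable.continuousOn_mul hq.continuousOn
  have h3 : ∫ t in (0 : ℝ)..(R / 2), qk σ t * stepG G η (2 * t)
      ≤ ∫ t in (0 : ℝ)..T, qk σ t * stepG G η (2 * t) :=
    intervalIntegral.integral_mono_interval (le_refl _) (by linarith) hT
      (Eventually.of_forall fun ν => mul_nonneg (qk_pos hσ _).le (stepG_nonneg hG0 _)) (hGi _ _)
  have h4 : ∫ t in (0 : ℝ)..(R / 2), qk σ t * stepG G η (2 * t)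
      = ∫ r in (0 : ℝ)..R, (1 / 2 * qk σ (r / 2)) * stepG G η r := by
    have := intervalIntegral.integral_comp_mul_left (a := 0) (b := R / 2)
      (fun r => (qk σ (r / 2)) * stepG G η r) (two_ne_zero (α := ℝ))
    simp only [mul_div_cancel_left₀ _ (two_ne_zero (α := ℝ)), mul_zero, smul_eq_mul] at this
    rw [this, ← intervalIntegral.integral_const_mul]
    rw [show 2 * (R / 2) = R by ring]
    refine intervalIntegral.integral_congr fun r _ => ?_
    ring
  -- the `G` part
  have h5 : ∫ ν in (-R)..R, stepG G η |ν| * poi σ y ν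
      = ∫ r in (0 : ℝ)..R, stepG G η r * (poi σ y r + poi σ y (-r)) := by
    have hi : ∀ u v, IntervalIntegrable (fun ν => stepG G η |ν| * poi σ y ν) volume u v :=
      fun u v => (hsi u v).mul_continuousOn hc.continuousOn
    rw [← intervalIntegral.integral_add_adjacent_intervals (hi (-R) 0) (hi 0 R)]
    have e1 : ∫ ν in (-R)..0, stepG G η |ν| * poi σ y ν
        = ∫ r in (0 : ℝ)..R, stepG G η |r| * poi σ y (-r) := by
      have := intervalIntegral.integral_comp_neg (a := 0) (b := R)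
        (fun ν => stepG G η |ν| * poi σ y ν)
      simp only [abs_neg, neg_zero] at this
      exact this.symm
    rw [e1, ← intervalIntegral.integral_add]
    · refine intervalIntegral.integral_congr fun r hr => ?_
      rw [uIcc_of_le hR0.le] at hr
      simp only [abs_of_nonneg hr.1]
      ring
    · refine (hsi _ _).mul_continuousOn ?_
      exact (hc.comp continuous_neg).continuousOn
    · exact hi _ _
  -- combination
  have hgi : ∀ (g : ℝ → ℝ), Continuous g → ∀ u v,
      IntervalIntegrable (fun r => g r * stepG G η r) volume u v :=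
    fun g hg u v => (stepG_intervalIntegrable hG hη u v).continuousOn_mul hg.continuousOn
  set w : ℝ → ℝ := fun r => 2 * (poi σ y r + poi σ y (-r)) - 1 / 2 * qk σ (r / 2) with hw
  have hwc : Continuous w := by
    have c1 : Continuous fun r => poi σ y (-r) := hc.comp continuous_neg
    have c2 : Continuous fun r : ℝ => qk σ (r / 2) := hq.comp (continuous_id.div_const 2)
    simp only [hw]
    exact (continuous_const.mul (hc.add c1)).sub (continuous_const.mul c2)
  have hw0 : ∀ r, 0 ≤ w r := fun r => by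
    simp only [hw]; linarith [poi_compare' hσ hy r]
  have h6 : ∫ r in (0 : ℝ)..R, w r * stepG G η r ≤ A / 3 * ∫ r in (0 : ℝ)..R, w r := by
    rw [← intervalIntegral.integral_const_mul]
    refine intervalIntegral.integral_mono_on hR0.le (hgi w hwc _ _)
      ((hwc.intervalIntegrable _ _).const_mul _) ?_
    intro r _
    rw [mul_comm]
    exact mul_le_mul_of_nonneg_right (stepG_le hG1 _) (hw0 r)
  have h7 : ∫ r in (0 : ℝ)..R, w r * stepG G η r
      = 2 * (∫ ν in (-R)..R, stepG G η |ν| * poi σ y ν)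
        - ∫ r in (0 : ℝ)..R, (1 / 2 * qk σ (r / 2)) * stepG G η r := by
    rw [h5, ← intervalIntegral.integral_const_mul, ← intervalIntegral.integral_sub]
    · refine intervalIntegral.integral_congr fun r _ => ?_
      simp only [hw]; ring
    · refine IntervalIntegrable.const_mul ?_ 2
      refine (stepG_intervalIntegrable hG hη _ _).mul_continuousOn ?_
      exact (hc.add (hc.comp continuous_neg)).continuousOn
    · exact hgi (fun r => 1 / 2 * qk σ (r / 2))
        (continuous_const.mul (hq.comp (continuous_id.div_const 2))) _ _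
  have h8 : ∫ r in (0 : ℝ)..R, w r
      = 2 * (∫ ν in (-R)..R, poi σ y ν) - ∫ t in (0 : ℝ)..(R / 2), qk σ t := by
    have e1 : ∫ ν in (-R)..R, poi σ y ν = ∫ r in (0 : ℝ)..R, (poi σ y r + poi σ y (-r)) := by
      rw [← intervalIntegral.integral_add_adjacent_intervals
        (hc.intervalIntegrable (-R) 0) (hc.intervalIntegrable 0 R)]
      have := intervalIntegral.integral_comp_neg (a := 0) (b := R) (fun ν => poi σ y ν)
      simp only [neg_zero] at this
      rw [← this, ← intervalIntegral.integral_add]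
      · refine intervalIntegral.integral_congr fun r _ => ?_
        ring
      · exact (hc.comp continuous_neg).intervalIntegrable _ _
      · exact hc.intervalIntegrable _ _
    have e2 : ∫ t in (0 : ℝ)..(R / 2), qk σ t = ∫ r in (0 : ℝ)..R, 1 / 2 * qk σ (r / 2) := by
      have := intervalIntegral.integral_comp_div (a := 0) (b := R)
        (fun r => qk σ r) (two_ne_zero (α := ℝ))
      rw [intervalIntegral.integral_const_mul, this, smul_eq_mul, zero_div]
      ring
    rw [e1, e2, ← intervalIntegral.integral_const_mul, ← intervalIntegral.integral_sub]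
    · exact ((hc.add (hc.comp continuous_neg)).intervalIntegrable _ _).const_mul _
    · exact (continuous_const.mul (hq.comp (continuous_id.div_const 2))).intervalIntegrable _ _
  have h9 := qk_mass hσ (T := R / 2) (by linarith)
  have h10 : ∫ ν in (-R)..R, (2 / 3 * A - 2 * stepG G η |ν| + a ν) * poi σ y ν
      = 2 / 3 * A * (∫ ν in (-R)..R, poi σ y ν)
        - 2 * (∫ ν in (-R)..R, stepG G η |ν| * poi σ y ν) + ∫ ν in (-R)..R, a ν * poi σ y ν := by
    have i1 : IntervalIntegrable (fun ν => stepG G η |ν| * poi σ y ν) volume (-R) R :=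
      (hsi _ _).mul_continuousOn hc.continuousOn
    rw [← intervalIntegral.integral_const_mul, ← intervalIntegral.integral_const_mul,
      ← intervalIntegral.integral_sub, ← intervalIntegral.integral_add]
    · refine intervalIntegral.integral_congr fun r _ => ?_
      ring
    · exact ((hc.intervalIntegrable _ _).const_mul _).sub (i1.const_mul _)
    · exact hapi _ _
    · exact (hc.intervalIntegrable _ _).const_mul _
    · exact i1.const_mul _
  rw [h10]
  have h11 : A / 3 * (9 / 20) ≤ A / 3 * ∫ t in (0 : ℝ)..(R / 2), qk σ t :=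
    mul_le_mul_of_nonneg_left h9 (by positivity)
  rw [h7, h8] at h6
  rw [mul_sub] at h6
  rw [h4] at h3
  linarith


/-- **level step, analytic core** (half plane). -/
theorem levelG_halfplane {N : ℕ} {c : ℕ → ℂ} {K A σ y R η : ℝ} (hK : 1 ≤ K) (hA : 0 ≤ A)
    (hσ : 0 < σ) (hy : y ^ 2 ≤ 7 * σ ^ 2) (hR : 16 * σ ≤ R) (hη : 0 < η)
    {a : ℝ → ℝ} (ha : Measurable a) (ha0 : ∀ x, 0 ≤ a x)
    (ha1 : ∀ x, a x ≤ A / 3) {G : ℕ → ℝ} (hG : Monotone G) (hG0 : ∀ k, 0 ≤ G k)
    (hG1 : ∀ k, G k ≤ A / 3)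
    (hpair : ∀ k : ℕ, ∃ k' ≤ k, ∀ x : ℝ, |x| ≤ R → |x + k' * η| ≤ R →
      G k ≤ a x + a (x + k' * η))
    (h1 : ∀ ν : ℝ, ‖expSum N c (I * ν)‖ ≤ K)
    (h2 : ∀ ν : ℝ, |ν| ≤ R →
      ‖expSum N c (I * ν)‖ ≤ K * Real.exp (-(2 / 3 * A - 2 * G ⌊|ν| / η⌋₊ + a ν))) :
    ‖expSum N c (-σ + I * y)‖ ≤ K * Real.exp (-(3 / 20 * A)) := by
  have hK0 : 0 < K := by linarith
  have hR0 : 0 < R := by linarith
  have hlogK : 0 ≤ Real.log K := Real.log_nonneg hK
  have hc := continuous_poi hσ y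
  have hmG : Measurable (fun ν : ℝ => stepG G η |ν|) :=
    (measurable_stepG hG hη).comp measurable_id.abs
  set b : ℝ → ℝ := fun ν => if |ν| ≤ R then 2 / 3 * A - 2 * stepG G η |ν| + a ν else 0 with hb
  have hbm : Measurable b := Measurable.ite (measurableSet_le measurable_id.abs measurable_const)
    ((measurable_const.sub (measurable_const.mul hmG)).add ha) measurable_const
  have hb0 : ∀ x, 0 ≤ b x := by
    intro x; simp only [hb]
    split_ifs
    · linarith [ha0 x, stepG_le hG1 (η := η) |x|]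
    · exact le_refl _
  have hb1 : ∀ x, b x ≤ A := by
    intro x; simp only [hb]
    split_ifs
    · linarith [ha1 x, stepG_nonneg hG0 (η := η) |x|]
    · exact hA
  set h : ℝ → ℝ := fun ν => b ν - Real.log K with hh
  have hmeas : Measurable h := hbm.sub_const _
  have hbd : ∀ ν, |h ν| ≤ A + Real.log K := by
    intro ν
    rw [abs_le]
    simp only [hh]
    constructor
    · linarith [hb0 ν]
    · linarith [hb1 ν]
  have hbound : ∀ ν : ℝ, ‖expSum N c (I * ν)‖ ≤ Real.exp (-h ν) := by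
    intro ν
    have e : Real.exp (-h ν) = K * Real.exp (-b ν) := by
      rw [hh, show -(b ν - Real.log K) = Real.log K + -b ν by ring,
        Real.exp_add, Real.exp_log hK0]
    rw [e]
    simp only [hb]
    split_ifs with c1
    · exact h2 ν c1
    · simpa using h1 ν
  have key := norm_expSum_le_exp_neg_integral N c hmeas hbd hbound hσ y
  refine key.trans ?_
  have hbint : Integrable (fun ν => b ν * poi σ y ν) := by
    refine ((integrable_poi hσ y).const_mul A).mono (hbm.mul hc.measurable).aestronglyMeasurable ?_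
    refine Eventually.of_forall fun ν => ?_
    rw [norm_mul, norm_mul, Real.norm_eq_abs, Real.norm_eq_abs A, abs_of_nonneg (hb0 ν),
      abs_of_nonneg hA]
    exact mul_le_mul_of_nonneg_right (hb1 ν) (norm_nonneg _)
  have e1 : ∫ ν, h ν * poi σ y ν = (∫ ν, b ν * poi σ y ν) - Real.log K := by
    have : ∀ ν, h ν * poi σ y ν = b ν * poi σ y ν - Real.log K * poi σ y ν := by
      intro ν; simp only [hh]; ring
    simp_rw [this]
    rw [integral_sub hbint ((integrable_poi hσ y).const_mul _),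
      integral_const_mul, integral_poi hσ y, mul_one]
  rw [e1]
  have h4 := levelG_integral hA hσ hy hR hη ha ha0 ha1 hG hG0 hG1 hpair
  have h5 : ∫ ν in (-R)..R, (2 / 3 * A - 2 * stepG G η |ν| + a ν) * poi σ y ν
      ≤ ∫ ν, b ν * poi σ y ν := by
    have e2 : ∫ ν in (-R)..R, (2 / 3 * A - 2 * stepG G η |ν| + a ν) * poi σ y ν
        = ∫ ν in Ioc (-R) R, b ν * poi σ y ν := by
      rw [intervalIntegral.integral_of_le (by linarith)]
      refine setIntegral_congr_fun measurableSet_Ioc fun ν hν => ?_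
      have : |ν| ≤ R := abs_le.2 ⟨hν.1.le, hν.2⟩
      simp only [hb, if_pos this]
    rw [e2]
    exact setIntegral_le_integral hbint
      (Eventually.of_forall fun ν => mul_nonneg (hb0 ν) (poi_pos hσ y ν).le)
  calc Real.exp (-((∫ ν, b ν * poi σ y ν) - Real.log K))
      ≤ Real.exp (Real.log K + -(3 / 20 * A)) := by
        apply Real.exp_le_exp.2
        linarith
    _ = K * Real.exp (-(3 / 20 * A)) := by rw [Real.exp_add, Real.exp_log hK0]

/-- **final level, analytic core**: the first coefficient. -/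
theorem levelG_final {N : ℕ} (hN : 0 < N) {c : ℕ → ℂ} {K A η : ℝ} (hK : 1 ≤ K) (hA : 0 ≤ A)
    (hη : 0 < η) {a : ℝ → ℝ} (ha : Measurable a) (ha0 : ∀ x, 0 ≤ a x)
    (ha1 : ∀ x, a x ≤ A / 3) {G : ℕ → ℝ} (hG : Monotone G) (hG0 : ∀ k, 0 ≤ G k)
    (hG1 : ∀ k, G k ≤ A / 3)
    (hpair : ∀ k : ℕ, ∃ k' ≤ k, ∀ x : ℝ, |x| ≤ π → |x + k' * η| ≤ π →
      G k ≤ a x + a (x + k' * η))
    (h2 : ∀ ν : ℝ, |ν| ≤ π →
      ‖expSum N c (I * ν)‖ ≤ K * Real.exp (-(2 / 3 * A - 2 * G ⌊|ν| / η⌋₊ + a ν))) :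
    ‖c 0‖ ≤ K * Real.exp (-(A / 6)) := by
  have hpi := Real.pi_pos
  have hK0 : 0 < K := by linarith
  have hlogK : 0 ≤ Real.log K := Real.log_nonneg hK
  have hmG : Measurable (fun ν : ℝ => stepG G η |ν|) :=
    (measurable_stepG hG hη).comp measurable_id.abs
  set b : ℝ → ℝ := fun ν => 2 / 3 * A - 2 * stepG G η |ν| + a ν with hb
  have hbm : Measurable b := (measurable_const.sub (measurable_const.mul hmG)).add ha
  have hb0 : ∀ x, 0 ≤ b x := by
    intro x; simp only [hb]
    linarith [ha0 x, stepG_le hG1 (η := η) |x|]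
  have hb1 : ∀ x, b x ≤ A := by
    intro x; simp only [hb]
    linarith [ha1 x, stepG_nonneg hG0 (η := η) |x|]
  set h : ℝ → ℝ := fun ν => b ν - Real.log K with hh
  have hmeas : Measurable h := hbm.sub_const _
  have hbd : ∀ ν, |h ν| ≤ A + Real.log K := by
    intro ν
    rw [abs_le]
    simp only [hh]
    constructor
    · linarith [hb0 ν]
    · linarith [hb1 ν]
  have hbound : ∀ ν : ℝ, |ν| ≤ π → ‖expSum N c (I * ν)‖ ≤ Real.exp (-h ν) := by
    intro ν hν
    have e : Real.exp (-h ν) = K * Real.exp (-b ν) := by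
      rw [hh, show -(b ν - Real.log K) = Real.log K + -b ν by ring,
        Real.exp_add, Real.exp_log hK0]
    rw [e]
    exact h2 ν hν
  have key := norm_coeff_zero_le' hN c hmeas hbd hbound
  refine key.trans ?_
  have hint : ∀ (g : ℝ → ℝ), Measurable g → (∀ x, 0 ≤ g x) → (∀ x, g x ≤ A) → ∀ u v : ℝ,
      IntervalIntegrable g volume u v := by
    intro g hg hg0 hg1 u v
    refine (intervalIntegrable_const (c := A)).mono_fun hg.aestronglyMeasurable ?_
    refine Eventually.of_forall fun θ => ?_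
    have h1 : ‖g θ‖ = g θ := by rw [Real.norm_eq_abs, abs_of_nonneg (hg0 θ)]
    have h2 : ‖A‖ = A := by rw [Real.norm_eq_abs, abs_of_nonneg hA]
    beta_reduce
    rw [h1, h2]
    exact hg1 θ
  have hia := hint a ha ha0 (fun x => by linarith [ha1 x])
  have hib := hint b hbm hb0 hb1
  have his := hint (fun ν => stepG G η |ν|) hmG (fun x => stepG_nonneg hG0 _)
    (fun x => (stepG_le hG1 _).trans (by linarith))
  have e1 : ∫ ν in (-π)..π, h ν = (∫ ν in (-π)..π, b ν) - 2 * π * Real.log K := by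
    simp only [hh]
    rw [intervalIntegral.integral_sub (hib _ _) intervalIntegrable_const,
      intervalIntegral.integral_const, smul_eq_mul]
    ring
  have e2 : ∫ ν in (-π)..π, b ν = 2 / 3 * A * (2 * π) - 2 * (∫ ν in (-π)..π, stepG G η |ν|)
      + ∫ ν in (-π)..π, a ν := by
    simp only [hb]
    rw [intervalIntegral.integral_add _ (hia _ _), intervalIntegral.integral_sub
      intervalIntegrable_const ((his _ _).const_mul _), intervalIntegral.integral_const,
      intervalIntegral.integral_const_mul, smul_eq_mul]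
    · ring
    · exact intervalIntegrable_const.sub ((his _ _).const_mul _)
  have hsi := stepG_intervalIntegrable hG hη
  have e3 : ∫ ν in (-π)..π, stepG G η |ν| = 2 * ∫ r in (0 : ℝ)..π, stepG G η r := by
    rw [← intervalIntegral.integral_add_adjacent_intervals (his (-π) 0) (his 0 π)]
    have := intervalIntegral.integral_comp_neg (a := 0) (b := π) (fun ν => stepG G η |ν|)
    simp only [abs_neg, neg_zero] at this
    rw [← this]
    have : ∫ r in (0 : ℝ)..π, stepG G η |r| = ∫ r in (0 : ℝ)..π, stepG G η r := by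
      refine intervalIntegral.integral_congr fun r hr => ?_
      rw [uIcc_of_le hpi.le] at hr
      simp only [abs_of_nonneg hr.1]
    rw [this]
    ring
  have e4 := claimB hia hG hη hpair (u := -π) (v := π) (le_refl _) (by linarith) (le_refl _)
  have e5 : 2 * (∫ r in (0 : ℝ)..π, stepG G η r) ≤ ∫ r in (0 : ℝ)..(π - -π), stepG G η r := by
    rw [← intervalIntegral.integral_add_adjacent_intervals (hsi 0 π) (hsi π (π - -π))]
    have : ∫ r in (0 : ℝ)..π, stepG G η r ≤ ∫ r in π..(π - -π), stepG G η r := by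
      have c1 := intervalIntegral.integral_comp_add_right (a := 0) (b := π) (stepG G η) π
      rw [zero_add, show π + π = π - -π by ring] at c1
      rw [← c1]
      refine intervalIntegral.integral_mono_on hpi.le (hsi _ _) ?_ ?_
      · have : Monotone (fun r => stepG G η (r + π)) := fun r s hrs =>
          stepG_mono hG hη (by linarith)
        exact this.intervalIntegrable
      · intro r _
        exact stepG_mono hG hη (by linarith)
    linarith
  have e6 : ∫ r in (0 : ℝ)..π, stepG G η r ≤ π * (A / 3) := by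
    have : ∫ r in (0 : ℝ)..π, stepG G η r ≤ ∫ r in (0 : ℝ)..π, A / 3 :=
      intervalIntegral.integral_mono_on hpi.le (hsi _ _) intervalIntegrable_const
        (fun r _ => stepG_le hG1 _)
    rw [intervalIntegral.integral_const, smul_eq_mul, sub_zero] at this
    exact this
  have e7 : π * A / 3 ≤ ∫ ν in (-π)..π, b ν := by
    rw [e2, e3]
    linarith
  have e8 : A / 6 ≤ (2 * π)⁻¹ * ∫ ν in (-π)..π, b ν := by
    have : (2 * π)⁻¹ * (π * A / 3) ≤ (2 * π)⁻¹ * ∫ ν in (-π)..π, b ν :=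
      mul_le_mul_of_nonneg_left e7 (by positivity)
    have e9 : (2 * π)⁻¹ * (π * A / 3) = A / 6 := by field_simp; ring
    linarith
  have e10 : (2 * π)⁻¹ * (2 * π * Real.log K) = Real.log K := by
    field_simp
  calc Real.exp (-((2 * π)⁻¹ * ∫ θ in (-π)..π, h θ))
      ≤ Real.exp (Real.log K + -(A / 6)) := by
        apply Real.exp_le_exp.2
        rw [e1, mul_sub, e10]
        linarith
    _ = K * Real.exp (-(A / 6)) := by rw [Real.exp_add, Real.exp_log hK0]

end Crest.Agent.R300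
end

-- ▼ part R300/U/LevelCore
section

/-!
# Row 300, upper bound: the level step, scalar part

`exists_aG` chooses the functions `a` and `G` of the averaging inequality;
`scalar_level`, `scalar_final` are the level step and the last step for scalar exponential sums.
-/

set_option autoImplicit false

open MeasureTheory Complex Set Filter Topology
open scoped Real

namespace Crest.Agent.R300U

open Crest.Agent.R300

/-- choice of `a` and `G` -/
theorem exists_aG {v : ℝ → ℝ} (hv : Continuous v) (hv1 : ∀ ν, v ν ≤ 1)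
    {A r η : ℝ} (hA : 0 ≤ A) (hη : 0 < η) :
    ∃ (a : ℝ → ℝ) (G : ℕ → ℝ), Continuous a ∧ (∀ x, 0 ≤ a x) ∧ (∀ x, a x ≤ A / 3) ∧
      (∀ x, Real.exp (-a x) = max (v x) (Real.exp (-(A / 3)))) ∧
      Monotone G ∧ (∀ k, 0 ≤ G k) ∧ (∀ k, G k ≤ A / 3) ∧
      (∀ k : ℕ, ∃ k' ≤ k, ∀ x : ℝ, |x| ≤ r → |x + k' * η| ≤ r → G k ≤ a x + a (x + k' * η)) ∧
      (∀ k : ℕ, (k : ℝ) * η ≤ r → G k < A / 3 → ∀ j ≤ k, ∃ y : ℝ, |y| ≤ r ∧ |y + j * η| ≤ r ∧
        Real.exp (-G k) ≤ v y * v (y + j * η)) := by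
  have he0 : 0 < Real.exp (-(A / 3)) := Real.exp_pos _
  set w : ℝ → ℝ := fun ν => max (v ν) (Real.exp (-(A / 3))) with hw
  have hw0 : ∀ ν, 0 < w ν := fun ν => lt_of_lt_of_le he0 (le_max_right _ _)
  have hwc : Continuous w := hv.max continuous_const
  set a : ℝ → ℝ := fun ν => -Real.log (w ν) with ha
  have hac : Continuous a := (hwc.log fun ν => (hw0 ν).ne').neg
  have hw1 : ∀ ν, w ν ≤ 1 := fun ν => max_le (hv1 ν) (Real.exp_le_one_iff.2 (by linarith))
  have ha0 : ∀ x, 0 ≤ a x := fun x => by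
    have := Real.log_nonpos (hw0 x).le (hw1 x)
    simp only [ha]; linarith
  have ha1 : ∀ x, a x ≤ A / 3 := fun x => by
    have := Real.log_le_log he0 (le_max_right (v x) (Real.exp (-(A / 3))))
    rw [Real.log_exp] at this
    simp only [ha, hw]; linarith
  have hae : ∀ x, Real.exp (-a x) = max (v x) (Real.exp (-(A / 3))) := fun x => by
    simp only [ha, neg_neg]
    exact Real.exp_log (hw0 x)
  -- best pairs
  have hbest : ∀ k : ℕ, (k : ℝ) * η ≤ 2 * r → ∃ y : ℝ, |y| ≤ r ∧ |y + k * η| ≤ r ∧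
      ∀ x : ℝ, |x| ≤ r → |x + k * η| ≤ r → a y + a (y + k * η) ≤ a x + a (x + k * η) := by
    intro k hk
    have hk0 : (0 : ℝ) ≤ k * η := by positivity
    have hne : (Icc (-r) (r - k * η)).Nonempty := nonempty_Icc.2 (by linarith)
    have hcont : ContinuousOn (fun x => a x + a (x + k * η)) (Icc (-r) (r - k * η)) :=
      (hac.add (hac.comp (continuous_id.add continuous_const))).continuousOn
    obtain ⟨y, hy, hmin⟩ := isCompact_Icc.exists_isMinOn hne hcont
    refine ⟨y, abs_le.2 ⟨hy.1, by linarith [hy.2]⟩,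
      abs_le.2 ⟨by linarith [hy.1], by linarith [hy.2]⟩, ?_⟩
    intro x hx1 hx2
    rw [abs_le] at hx1 hx2
    exact hmin ⟨hx1.1, by linarith [hx2.2]⟩
  classical
  set g : ℕ → ℝ := fun k =>
    if h : (k : ℝ) * η ≤ 2 * r then
      min (a (hbest k h).choose + a ((hbest k h).choose + k * η)) (A / 3) else 0 with hg
  have hg0 : ∀ k, 0 ≤ g k := by
    intro k
    simp only [hg]
    split_ifs with h
    · exact le_min (add_nonneg (ha0 _) (ha0 _)) (by linarith)
    · exact le_refl _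
  have hg1 : ∀ k, g k ≤ A / 3 := by
    intro k
    simp only [hg]
    split_ifs with h
    · exact min_le_right _ _
    · linarith
  set G : ℕ → ℝ := fun k => (Finset.range (k + 1)).sup' ⟨0, by simp⟩ g with hG
  have hGm : Monotone G := by
    intro k l hkl
    simp only [hG]
    refine Finset.sup'_mono g (fun i hi => ?_) _
    rw [Finset.mem_range] at hi ⊢
    omega
  have hle : ∀ k, ∀ j ≤ k, g j ≤ G k := fun k j hj =>
    Finset.le_sup' g (Finset.mem_range.2 (by omega))
  refine ⟨a, G, hac, ha0, ha1, hae, hGm, ?_, ?_, ?_, ?_⟩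
  · intro k
    exact (hg0 0).trans (hle k 0 (Nat.zero_le _))
  · intro k
    exact Finset.sup'_le _ _ fun j _ => hg1 j
  · intro k
    obtain ⟨k', hk', he⟩ := Finset.exists_mem_eq_sup' (⟨0, by simp⟩ : (Finset.range (k + 1)).Nonempty) g
    refine ⟨k', by rw [Finset.mem_range] at hk'; omega, ?_⟩
    intro x hx1 hx2
    simp only [hG]
    rw [he]
    simp only [hg]
    split_ifs with h
    · exact (min_le_left _ _).trans ((hbest k' h).choose_spec.2.2 x hx1 hx2)
    · exact add_nonneg (ha0 _) (ha0 _)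
  · intro k hk hlt j hj
    have hj' : (j : ℝ) ≤ k := by exact_mod_cast hj
    have hr0 : (0 : ℝ) ≤ r := le_trans (by positivity) hk
    have h : (j : ℝ) * η ≤ 2 * r := by
      have := mul_le_mul_of_nonneg_right hj' hη.le
      linarith
    have hs := (hbest j h).choose_spec
    set y := (hbest j h).choose with hy
    refine ⟨y, hs.1, hs.2.1, ?_⟩
    have h1 : g j < A / 3 := (hle k j hj).trans_lt hlt
    have h2 : g j = min (a y + a (y + j * η)) (A / 3) := by
      simp only [hg]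
      rw [dif_pos h]
    have h3 : a y + a (y + j * η) < A / 3 := by
      rcases min_lt_iff.1 (h2 ▸ h1) with h4 | h4
      · exact h4
      · exact absurd h4 (lt_irrefl _)
    have h4 : a y + a (y + j * η) ≤ G k := by
      have := hle k j hj
      rw [h2, min_eq_left h3.le] at this
      exact this
    have h5 : ∀ z, a z < A / 3 → v z = Real.exp (-a z) := by
      intro z hz
      rw [hae z]
      refine (max_eq_left ?_).symm
      by_contra hcon
      push Not at hcon
      have := hae z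
      rw [max_eq_right hcon.le] at this
      have := Real.exp_injective this
      linarith
    rw [h5 y (by linarith [ha0 (y + j * η)]), h5 (y + j * η) (by linarith [ha0 y]),
      ← Real.exp_add]
    apply Real.exp_le_exp.2
    linarith

/-- from the chain bounds to the hypothesis of the averaging inequality -/
theorem bound_of_chain {v : ℝ → ℝ} (hv : Continuous v) (hv1 : ∀ ν, v ν ≤ 1)
    {A r η : ℝ} (hA : 0 ≤ A) (hr : 0 < r) (hη : 0 < η) {Nd : ℝ → ℝ}
    (h_chain : ∀ (k : ℕ) (g : ℝ), 0 ≤ g →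
      (∀ j ≤ k, ∃ y : ℝ, |y| ≤ r ∧ |y + j * η| ≤ r ∧ Real.exp (-g) ≤ v y * v (y + j * η)) →
      ∀ ν : ℝ, |ν| ≤ r → |(|ν|) - k * η| ≤ η →
        Nd ν ≤ 4 * (k + 2) * Real.exp (-A + 3 * g) * max (v ν) (Real.exp (-g)))
    (h_triv : ∀ ν : ℝ, |ν| ≤ r → Nd ν ≤ 3 * max (v ν) (Real.exp (-(A / 3)))) :
    ∃ (a : ℝ → ℝ) (G : ℕ → ℝ), Measurable a ∧ (∀ x, 0 ≤ a x) ∧ (∀ x, a x ≤ A / 3) ∧
      Monotone G ∧ (∀ k, 0 ≤ G k) ∧ (∀ k, G k ≤ A / 3) ∧
      (∀ k : ℕ, ∃ k' ≤ k, ∀ x : ℝ, |x| ≤ r → |x + k' * η| ≤ r → G k ≤ a x + a (x + k' * η)) ∧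
      (∀ ν : ℝ, |ν| ≤ r →
        Nd ν ≤ (8 * (1 + r / η)) * Real.exp (-(2 / 3 * A - 2 * G ⌊|ν| / η⌋₊ + a ν))) := by
  obtain ⟨a, G, hac, ha0, ha1, hae, hGm, hG0, hG1, hpair, hbest⟩ :=
    exists_aG hv hv1 (r := r) hA hη
  refine ⟨a, G, hac.measurable, ha0, ha1, hGm, hG0, hG1, hpair, ?_⟩
  intro ν hν
  set k : ℕ := ⌊|ν| / η⌋₊ with hk
  have hdiv0 : 0 ≤ |ν| / η := div_nonneg (abs_nonneg _) hη.le
  have hk1 : (k : ℝ) * η ≤ |ν| := by
    have := Nat.floor_le hdiv0
    rwa [le_div_iff₀ hη] at this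
  have hk2 : |ν| < (k + 1) * η := by
    have := Nat.lt_floor_add_one (|ν| / η)
    rwa [div_lt_iff₀ hη] at this
  have hkr : (k : ℝ) ≤ r / η := by
    rw [le_div_iff₀ hη]; linarith
  have hrη : 0 < r / η := div_pos hr hη
  have hexp : Real.exp (-(2 / 3 * A - 2 * G k + a ν))
      = Real.exp (-(2 / 3 * A) + 2 * G k) * max (v ν) (Real.exp (-(A / 3))) := by
    rw [← hae ν, ← Real.exp_add]
    congr 1
    ring
  rw [hexp]
  have hmax0 : 0 ≤ max (v ν) (Real.exp (-(A / 3))) := (Real.exp_pos _).le.trans (le_max_right _ _)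
  rcases lt_or_eq_of_le (hG1 k) with hlt | heq
  · have h1 := h_chain k (G k) (hG0 k) (hbest k (by linarith) hlt) ν hν (by
      rw [abs_le]; constructor <;> linarith)
    have h2 : Real.exp (-A + 3 * G k) * max (v ν) (Real.exp (-G k))
        ≤ Real.exp (-(2 / 3 * A) + 2 * G k) * max (v ν) (Real.exp (-(A / 3))) := by
      have e1 : Real.exp (-A + 3 * G k)
          = Real.exp (-(2 / 3 * A) + 2 * G k) * Real.exp (G k - A / 3) := by
        rw [← Real.exp_add]; congr 1; ring
      rw [e1, mul_assoc]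
      refine mul_le_mul_of_nonneg_left ?_ (Real.exp_pos _).le
      rcases le_total (v ν) (Real.exp (-G k)) with h | h
      · rw [max_eq_right h, ← Real.exp_add]
        refine le_trans (le_of_eq ?_) (le_max_right _ _)
        congr 1; ring
      · rw [max_eq_left h]
        have hv0 : 0 ≤ v ν := (Real.exp_pos _).le.trans h
        have : Real.exp (G k - A / 3) ≤ 1 := Real.exp_le_one_iff.2 (by linarith)
        exact (mul_le_of_le_one_left hv0 this).trans (le_max_left _ _)
    calc Nd ν ≤ 4 * (k + 2) * Real.exp (-A + 3 * G k) * max (v ν) (Real.exp (-G k)) := h1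
      _ = 4 * (k + 2) * (Real.exp (-A + 3 * G k) * max (v ν) (Real.exp (-G k))) := by ring
      _ ≤ 4 * (k + 2) * (Real.exp (-(2 / 3 * A) + 2 * G k) * max (v ν) (Real.exp (-(A / 3)))) :=
          mul_le_mul_of_nonneg_left h2 (by positivity)
      _ ≤ (8 * (1 + r / η)) *
          (Real.exp (-(2 / 3 * A) + 2 * G k) * max (v ν) (Real.exp (-(A / 3)))) := by
          refine mul_le_mul_of_nonneg_right ?_ (mul_nonneg (Real.exp_pos _).le hmax0)
          linarith
  · have h1 := h_triv ν hν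
    have e1 : Real.exp (-(2 / 3 * A) + 2 * G k) = 1 := by
      rw [heq, Real.exp_eq_one_iff]; ring
    rw [e1, one_mul]
    refine h1.trans (mul_le_mul_of_nonneg_right ?_ hmax0)
    linarith

/-- level step for scalar exponential sums -/
theorem scalar_level {v : ℝ → ℝ} (hv : Continuous v) (hv1 : ∀ ν, v ν ≤ 1)
    {A r η : ℝ} (hA : 0 ≤ A) (hη : 0 < η) {Nd : ℝ → ℝ}
    (h_chain : ∀ (k : ℕ) (g : ℝ), 0 ≤ g →
      (∀ j ≤ k, ∃ y : ℝ, |y| ≤ r ∧ |y + j * η| ≤ r ∧ Real.exp (-g) ≤ v y * v (y + j * η)) →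
      ∀ ν : ℝ, |ν| ≤ r → |(|ν|) - k * η| ≤ η →
        Nd ν ≤ 4 * (k + 2) * Real.exp (-A + 3 * g) * max (v ν) (Real.exp (-g)))
    (h_triv : ∀ ν : ℝ, |ν| ≤ r → Nd ν ≤ 3 * max (v ν) (Real.exp (-(A / 3))))
    {N : ℕ} {c : ℕ → ℂ} (h_all : ∀ ν : ℝ, ‖expSum N c (I * ν)‖ ≤ 2)
    (h_le : ∀ ν : ℝ, |ν| ≤ r → ‖expSum N c (I * ν)‖ ≤ Nd ν)
    {σ y : ℝ} (hσ : 0 < σ) (hy : y ^ 2 ≤ 7 * σ ^ 2) (hR : 16 * σ ≤ r) :
    ‖expSum N c (-σ + I * y)‖ ≤ (8 * (1 + r / η)) * Real.exp (-(3 / 20 * A)) := by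
  have hr : 0 < r := by linarith
  obtain ⟨a, G, ham, ha0, ha1, hGm, hG0, hG1, hpair, hb⟩ :=
    bound_of_chain hv hv1 hA hr hη h_chain h_triv
  have hrη : 0 < r / η := div_pos hr hη
  refine levelG_halfplane (by linarith) hA hσ hy hR hη ham ha0 ha1 hGm hG0 hG1 hpair ?_ ?_
  · intro ν
    exact (h_all ν).trans (by linarith)
  · intro ν hν
    exact (h_le ν hν).trans (hb ν hν)

/-- last step for scalar exponential sums -/
theorem scalar_final {v : ℝ → ℝ} (hv : Continuous v) (hv1 : ∀ ν, v ν ≤ 1)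
    {A η : ℝ} (hA : 0 ≤ A) (hη : 0 < η) {Nd : ℝ → ℝ}
    (h_chain : ∀ (k : ℕ) (g : ℝ), 0 ≤ g →
      (∀ j ≤ k, ∃ y : ℝ, |y| ≤ π ∧ |y + j * η| ≤ π ∧ Real.exp (-g) ≤ v y * v (y + j * η)) →
      ∀ ν : ℝ, |ν| ≤ π → |(|ν|) - k * η| ≤ η →
        Nd ν ≤ 4 * (k + 2) * Real.exp (-A + 3 * g) * max (v ν) (Real.exp (-g)))
    (h_triv : ∀ ν : ℝ, |ν| ≤ π → Nd ν ≤ 3 * max (v ν) (Real.exp (-(A / 3))))
    {N : ℕ} (hN : 0 < N) {c : ℕ → ℂ}
    (h_le : ∀ ν : ℝ, |ν| ≤ π → ‖expSum N c (I * ν)‖ ≤ Nd ν) :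
    ‖c 0‖ ≤ (8 * (1 + π / η)) * Real.exp (-(A / 6)) := by
  have hr : 0 < π := Real.pi_pos
  obtain ⟨a, G, ham, ha0, ha1, hGm, hG0, hG1, hpair, hb⟩ :=
    bound_of_chain hv hv1 hA hr hη h_chain h_triv
  have hrη : 0 < π / η := div_pos hr hη
  refine levelG_final hN (by linarith) hA hη ham ha0 ha1 hGm hG0 hG1 hpair ?_
  intro ν hν
  exact (h_le ν hν).trans (hb ν hν)

end Crest.Agent.R300U
end

-- ▼ part R300/U/LevelJensen
section

/-!
# Row 300, upper bound: vector-valued Jensen inequality and assembly of the level step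
-/

set_option autoImplicit false

open Complex Finset
open scoped Real

namespace Crest.Agent.R300U

open Crest.Agent.R300

variable {n D : ℕ} (E : PE n D) (x : Fin n → Bool) (t : ℕ) (c : Code) (τ : ℝ)

/-- coefficients of the scalar exponential sum obtained by testing against `h` -/
noncomputable def tcoef (h : R n) (z : ℂ) (m : ℕ) : ℂ :=
  z * (E.L (star h * dev x (val c (t + m))) * Complex.exp (-(τ * (m : ℝ) ^ 2 / 2 : ℝ)))

theorem expSum_tcoef (h : R n) (z : ℂ) (s : ℂ) :
    expSum (n - t) (tcoef E x t c τ h z) s = z * E.L (star h * Udev x c t τ s) := by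
  unfold expSum tcoef Udev
  rw [Finset.sum_Ico_eq_sum_range, Finset.mul_sum, map_sum, Finset.mul_sum]
  refine Finset.sum_congr rfl fun m _ => ?_
  rw [mul_smul_comm, map_smul, smul_eq_mul]
  have e1 : ((t + m : ℕ) : ℝ) - t = m := by push_cast; ring
  have e2 : ((t + m : ℕ) : ℂ) - t = m := by push_cast; ring
  rw [e1, e2, Complex.exp_add]
  ring

/-- the one-sided deviation on the imaginary axis is bounded by the deviation of `V`. -/
theorem N_Udev_le_dev_V (hc : ∀ nd ∈ c, 0 < nd.τ ∧ 1 ≤ nd.k) (hD : leaves c ≤ D)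
    (hP : Prefix E x t) (ht : t ≤ n) (hτ : 0 < τ) (ν : ℝ) :
    E.N (Udev x c t τ (Complex.I * ν)) ≤ E.N (dev x (V c t τ ν)) := by
  set S : R n := ∑ u ∈ Finset.range t, Complex.exp (-(τ * ((u : ℝ) - t) ^ 2 / 2 : ℝ) +
        Complex.I * ν * ((u : ℂ) - t)) • dev x (val c u) with hS
  have h1 : Udev x c t τ (Complex.I * ν) = dev x (V c t τ ν) - S := by
    rw [dev_V_eq x c ht τ ν, ← hS]
    ring
  have hterm : ∀ u ∈ Finset.range t, Bd D (‖Complex.exp (-(τ * ((u : ℝ) - t) ^ 2 / 2 : ℝ) +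
        Complex.I * ν * ((u : ℂ) - t))‖ * (2 * nrm c)) (Complex.exp (-(τ * ((u : ℝ) - t) ^ 2 / 2 : ℝ) +
        Complex.I * ν * ((u : ℂ) - t)) • dev x (val c u)) := fun u _ =>
    (((val_Bd hc u).dev x).mono_deg hD).smul _
  have hSB := Bd.sum _ _ _ hterm
  have hS0 : E.N S = 0 := by
    refine le_antisymm ?_ (E.N_nonneg _)
    refine (E.N_sum_le _ _ _ hterm).trans (le_of_eq ?_)
    refine Finset.sum_eq_zero fun u hu => ?_
    rw [E.N_smul, (Kn.val hP c (Finset.mem_range.1 hu)).N_dev hD, mul_zero]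
  rw [h1]
  refine (E.N_sub_le (((V_Bd hc t hτ ν).dev x).mono_deg hD) hSB).trans ?_
  rw [hS0, add_zero]

theorem continuous_V_apply (y : Fin n → Bool) : Continuous fun ν : ℝ => (V c t τ ν : R n) y := by
  unfold V
  simp only [Finset.sum_apply, Pi.smul_apply, smul_eq_mul]
  fun_prop

/-- vector-valued level step from the chain bounds -/
theorem vector_level (hc : ∀ nd ∈ c, 0 < nd.τ ∧ 1 ≤ nd.k) (hD : leaves c ≤ D)
    (hP : Prefix E x t) (hτ : 0 < τ) {A r η : ℝ} (hA : 0 ≤ A) (hη : 0 < η)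
    (h_chain : ∀ (k : ℕ) (g : ℝ), 0 ≤ g →
      (∀ j ≤ k, ∃ y : ℝ, |y| ≤ r ∧ |y + j * η| ≤ r ∧ Real.exp (-g) * (nrm c * Wt τ) ^ 2
        ≤ ‖V c t τ y x‖ * ‖V c t τ (y + j * η) x‖) →
      ∀ ν : ℝ, |ν| ≤ r → |(|ν|) - k * η| ≤ η →
        E.N (dev x (V c t τ ν)) ≤ 4 * (k + 2) * Real.exp (-A + 3 * g) * (nrm c * Wt τ) *
          max (‖V c t τ ν x‖ / (nrm c * Wt τ)) (Real.exp (-g)))
    (h_triv : ∀ ν : ℝ, |ν| ≤ r → E.N (dev x (V c t τ ν)) ≤ 3 * (nrm c * Wt τ) *
      max (‖V c t τ ν x‖ / (nrm c * Wt τ)) (Real.exp (-(A / 3))))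
    {σ y : ℝ} (hσ : 0 < σ) (hy : y ^ 2 ≤ 7 * σ ^ 2) (hR : 16 * σ ≤ r) :
    E.N (Udev x c t τ (-σ + Complex.I * y)) ≤
      (8 * (1 + r / η)) * Real.exp (-(3 / 20 * A)) * (nrm c * Wt τ) := by
  have hr : 0 < r := by linarith
  have hrη : 0 < r / η := div_pos hr hη
  set Λ : ℝ := nrm c * Wt τ with hΛ
  have hΛ0 : 0 < Λ := mul_pos (nrm_pos hc) Wt_pos
  rcases le_or_gt n t with hnt | hnt
  · have : Udev x c t τ (-σ + Complex.I * y) = 0 := by
      unfold Udev
      rw [Finset.Ico_eq_empty (by omega), Finset.sum_empty]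
    rw [this, E.N_zero]
    positivity
  set H : R n := Udev x c t τ (-σ + Complex.I * y) with hH
  have hre : ∀ ν : ℝ, (Complex.I * ν).re ≤ 0 := fun ν => by simp
  have hUB : ∀ ν : ℝ, Bd D (2 * Λ) (Udev x c t τ (Complex.I * ν) : R n) := fun ν =>
    (Udev_Bd hc x t hτ (hre ν)).mono_deg hD
  have hHB : Bd D (2 * Λ) H := by
    refine (Udev_Bd hc x t hτ ?_).mono_deg hD
    simp [hσ.le]
  rcases eq_or_lt_of_le (E.N_nonneg H) with h0 | hN
  · rw [← h0]; positivity
  set h : R n := ((1 / E.N H : ℝ) : ℂ) • H with hh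
  have hhB : Bd D _ h := hHB.smul _
  have hNh : E.N h = 1 := by
    rw [hh, E.N_smul, Complex.norm_real, Real.norm_eq_abs, abs_of_pos (by positivity)]
    field_simp
  set z : ℂ := ((1 / Λ : ℝ) : ℂ) with hz
  have hzn : ‖z‖ = 1 / Λ := by
    rw [hz, Complex.norm_real, Real.norm_eq_abs, abs_of_pos (by positivity)]
  have hbound : ∀ ν : ℝ, ‖expSum (n - t) (tcoef E x t c τ h z) (Complex.I * ν)‖
      ≤ E.N (Udev x c t τ (Complex.I * ν)) / Λ := by
    intro ν
    rw [expSum_tcoef, norm_mul, hzn, one_div, inv_mul_eq_div]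
    refine div_le_div_of_nonneg_right ?_ hΛ0.le
    have := E.cauchy hhB (hUB ν)
    rwa [hNh, one_mul] at this
  have key := scalar_level (v := fun ν => ‖V c t τ ν x‖ / Λ)
    (((continuous_V_apply t c τ x).norm).div_const _)
    (fun ν => by
      rw [div_le_one hΛ0]
      exact (V_Bd hc t hτ ν).norm_le x)
    hA hη (r := r) (Nd := fun ν => E.N (dev x (V c t τ ν)) / Λ)
    (fun k g hg hp ν hν hk => by
      rw [div_le_iff₀ hΛ0]
      refine (h_chain k g hg ?_ ν hν hk).trans (le_of_eq ?_)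
      · intro j hj
        obtain ⟨y, h1, h2, h3⟩ := hp j hj
        refine ⟨y, h1, h2, ?_⟩
        have h4 := mul_le_mul_of_nonneg_right h3 (sq_nonneg Λ)
        refine h4.trans (le_of_eq ?_)
        field_simp
      · ring)
    (fun ν hν => by
      rw [div_le_iff₀ hΛ0]
      refine (h_triv ν hν).trans (le_of_eq ?_)
      ring)
    (N := n - t) (c := tcoef E x t c τ h z)
    (fun ν => (hbound ν).trans (by
      rw [div_le_iff₀ hΛ0]
      exact E.N_le_of_Bd (hUB ν) le_rfl))
    (fun ν hν => (hbound ν).trans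
      (div_le_div_of_nonneg_right (N_Udev_le_dev_V E x t c τ hc hD hP hnt.le hτ ν) hΛ0.le))
    hσ hy hR
  have h5 : ‖expSum (n - t) (tcoef E x t c τ h z) (-σ + Complex.I * y)‖ = E.N H / Λ := by
    rw [expSum_tcoef, norm_mul, hzn, ← hH, hh, star_smul, smul_mul_assoc, map_smul,
      E.L_self_eq H, ← E.N_sq hHB, smul_eq_mul, norm_mul, Complex.norm_real]
    simp only [RCLike.star_def, Complex.conj_ofReal, Complex.norm_real, Real.norm_eq_abs]
    rw [abs_of_pos (by positivity), abs_of_nonneg (sq_nonneg _)]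
    field_simp
  rw [h5, div_le_iff₀ hΛ0] at key
  exact key

/-- last step from the chain bounds -/
theorem vector_final (hc : ∀ nd ∈ c, 0 < nd.τ ∧ 1 ≤ nd.k) (hD : leaves c ≤ D)
    (hP : Prefix E x t) (ht : t < n) (hτ : 0 < τ) {A η : ℝ} (hA : 0 ≤ A) (hη : 0 < η)
    (h_chain : ∀ (k : ℕ) (g : ℝ), 0 ≤ g →
      (∀ j ≤ k, ∃ y : ℝ, |y| ≤ π ∧ |y + j * η| ≤ π ∧ Real.exp (-g) * (nrm c * Wt τ) ^ 2
        ≤ ‖V c t τ y x‖ * ‖V c t τ (y + j * η) x‖) →
      ∀ ν : ℝ, |ν| ≤ π → |(|ν|) - k * η| ≤ η →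
        E.N (dev x (V c t τ ν)) ≤ 4 * (k + 2) * Real.exp (-A + 3 * g) * (nrm c * Wt τ) *
          max (‖V c t τ ν x‖ / (nrm c * Wt τ)) (Real.exp (-g)))
    (h_triv : ∀ ν : ℝ, |ν| ≤ π → E.N (dev x (V c t τ ν)) ≤ 3 * (nrm c * Wt τ) *
      max (‖V c t τ ν x‖ / (nrm c * Wt τ)) (Real.exp (-(A / 3)))) :
    E.N (dev x (val c t)) ≤
      (8 * (1 + π / η)) * Real.exp (-(A / 6)) * (nrm c * Wt τ) := by
  have hr : 0 < π := Real.pi_pos
  have hrη : 0 < π / η := div_pos hr hη
  set Λ : ℝ := nrm c * Wt τ with hΛ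
  have hΛ0 : 0 < Λ := mul_pos (nrm_pos hc) Wt_pos
  set H : R n := dev x (val c t) with hH
  have hre : ∀ ν : ℝ, (Complex.I * ν).re ≤ 0 := fun ν => by simp
  have hUB : ∀ ν : ℝ, Bd D (2 * Λ) (Udev x c t τ (Complex.I * ν) : R n) := fun ν =>
    (Udev_Bd hc x t hτ (hre ν)).mono_deg hD
  have hHB : Bd D (2 * nrm c) H := ((val_Bd hc t).dev x).mono_deg hD
  rcases eq_or_lt_of_le (E.N_nonneg H) with h0 | hN
  · rw [← h0]; positivity
  set h : R n := ((1 / E.N H : ℝ) : ℂ) • H with hh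
  have hhB : Bd D _ h := hHB.smul _
  have hNh : E.N h = 1 := by
    rw [hh, E.N_smul, Complex.norm_real, Real.norm_eq_abs, abs_of_pos (by positivity)]
    field_simp
  set z : ℂ := ((1 / Λ : ℝ) : ℂ) with hz
  have hzn : ‖z‖ = 1 / Λ := by
    rw [hz, Complex.norm_real, Real.norm_eq_abs, abs_of_pos (by positivity)]
  have hbound : ∀ ν : ℝ, ‖expSum (n - t) (tcoef E x t c τ h z) (Complex.I * ν)‖
      ≤ E.N (Udev x c t τ (Complex.I * ν)) / Λ := by
    intro ν
    rw [expSum_tcoef, norm_mul, hzn, one_div, inv_mul_eq_div]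
    refine div_le_div_of_nonneg_right ?_ hΛ0.le
    have := E.cauchy hhB (hUB ν)
    rwa [hNh, one_mul] at this
  have key := scalar_final (v := fun ν => ‖V c t τ ν x‖ / Λ)
    (((continuous_V_apply t c τ x).norm).div_const _)
    (fun ν => by
      rw [div_le_one hΛ0]
      exact (V_Bd hc t hτ ν).norm_le x)
    hA hη (Nd := fun ν => E.N (dev x (V c t τ ν)) / Λ)
    (fun k g hg hp ν hν hk => by
      rw [div_le_iff₀ hΛ0]
      refine (h_chain k g hg ?_ ν hν hk).trans (le_of_eq ?_)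
      · intro j hj
        obtain ⟨y, h1, h2, h3⟩ := hp j hj
        refine ⟨y, h1, h2, ?_⟩
        have h4 := mul_le_mul_of_nonneg_right h3 (sq_nonneg Λ)
        refine h4.trans (le_of_eq ?_)
        field_simp
      · ring)
    (fun ν hν => by
      rw [div_le_iff₀ hΛ0]
      refine (h_triv ν hν).trans (le_of_eq ?_)
      ring)
    (N := n - t) (by omega) (c := tcoef E x t c τ h z)
    (fun ν hν => (hbound ν).trans
      (div_le_div_of_nonneg_right (N_Udev_le_dev_V E x t c τ hc hD hP ht.le hτ ν) hΛ0.le))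
  have h5 : ‖tcoef E x t c τ h z 0‖ = E.N H / Λ := by
    unfold tcoef
    rw [add_zero, ← hH, norm_mul, hzn, norm_mul, hh, star_smul, smul_mul_assoc, map_smul,
      E.L_self_eq H, ← E.N_sq hHB, smul_eq_mul, norm_mul]
    simp only [RCLike.star_def, Complex.conj_ofReal, Complex.norm_real, Real.norm_eq_abs]
    rw [abs_of_pos (by positivity), abs_of_nonneg (sq_nonneg _)]
    simp
    field_simp
  rw [h5, div_le_iff₀ hΛ0] at key
  exact key

end Crest.Agent.R300U
end

-- ▼ part R300/U/LevelAsm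
section

/-!
# Row 300, upper bound: assembly of `LevelStepStatement` and `FinalStepStatement`
-/

set_option autoImplicit false

open Complex Finset
open scoped Real

namespace Crest.Agent.R300U

open Crest.Agent.R300

/-- the L² chain: statement -/
def ChainBound : Prop :=
  ∀ (n D : ℕ) (E : PE n D) (x : Fin n → Bool) (t : ℕ) (c : Code) (τ r η A g : ℝ),
    (∀ nd ∈ c, 0 < nd.τ ∧ 1 ≤ nd.k) → 6 * leaves c ≤ D → 0 < τ → 0 < η → 0 ≤ g →
    ProdKnown E x t c τ r η A → ∀ k : ℕ,
    (∀ j ≤ k, ∃ y : ℝ, |y| ≤ r ∧ |y + j * η| ≤ r ∧ Real.exp (-g) * (nrm c * Wt τ) ^ 2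
      ≤ ‖(V c t τ y : R n) x‖ * ‖(V c t τ (y + j * η) : R n) x‖) →
    ∀ ν : ℝ, |ν| ≤ r → |(|ν|) - k * η| ≤ η →
      E.N (dev x (V c t τ ν)) ≤ 4 * (k + 2) * Real.exp (-A + 3 * g) * (nrm c * Wt τ) *
        max (‖(V c t τ ν : R n) x‖ / (nrm c * Wt τ)) (Real.exp (-g))

/-- the trivial bound from `V conj V`: statement -/
def TrivialBound : Prop :=
  ∀ (n D : ℕ) (E : PE n D) (x : Fin n → Bool) (t : ℕ) (c : Code) (τ r η A : ℝ),
    (∀ nd ∈ c, 0 < nd.τ ∧ 1 ≤ nd.k) → 6 * leaves c ≤ D → 0 < τ → 0 < η → 0 ≤ A →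
    ProdKnown E x t c τ r η A →
    ∀ ν : ℝ, |ν| ≤ r →
      E.N (dev x (V c t τ ν)) ≤ 3 * (nrm c * Wt τ) *
        max (‖(V c t τ ν : R n) x‖ / (nrm c * Wt τ)) (Real.exp (-(A / 3)))

theorem levelStep_of (hCB : ChainBound) (hTB : TrivialBound) : LevelStepStatement := by
  refine ⟨16, 3, by norm_num, by norm_num, ?_⟩
  intro n D E x t c τ r A σ₁ σ₂ hc hD hP hτ hr _ hProd hσ1 hσ2 s hs1 hs2 hs3
  have hsτ : 0 < Real.sqrt τ := Real.sqrt_pos.2 hτ
  have hΛ0 : 0 < nrm c * Wt τ := mul_pos (nrm_pos hc) Wt_pos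
  have hσ : 0 < -s.re := by linarith
  have hrη : 0 < r / Real.sqrt τ := div_pos hr hsτ
  have hlog : 0 ≤ Real.log (1 + r / Real.sqrt τ) := Real.log_nonneg (by linarith)
  have hDl : leaves c ≤ D := by omega
  rcases lt_or_ge A 0 with hA | hA
  · have h1 : E.N (Udev x c t τ s) ≤ 2 * (nrm c * Wt τ) :=
      E.N_le_of_Bd (Udev_Bd hc x t hτ (by linarith)) hDl
    refine h1.trans (mul_le_mul_of_nonneg_right ?_ hΛ0.le)
    have h2 : (2 : ℝ) ≤ Real.exp 3 := by
      have := Real.add_one_le_exp (3 : ℝ)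
      linarith
    refine h2.trans (Real.exp_le_exp.2 ?_)
    linarith
  · have hs : s = -((-s.re : ℝ) : ℂ) + Complex.I * (s.im : ℝ) := by
      rw [mul_comm]
      push_cast
      rw [neg_neg]
      exact (Complex.re_add_im s).symm
    have hre : |s.re| ≤ ‖s‖ := Complex.abs_re_le_norm s
    have key := vector_level E x t c τ hc hDl hP hτ (A := A) (r := r) (η := Real.sqrt τ) hA hsτ
      (fun k g hg hp ν hν hk => hCB n D E x t c τ r (Real.sqrt τ) A g hc hD hτ hsτ hg hProd k hp ν hν hk)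
      (fun ν hν => hTB n D E x t c τ r (Real.sqrt τ) A hc hD hτ hsτ hA hProd ν hν)
      (σ := -s.re) (y := s.im) hσ (by nlinarith [sq_nonneg s.re]) (by
        rw [abs_le] at hre
        rw [le_div_iff₀ (by norm_num)] at hσ2
        linarith [hre.1])
    rw [← hs] at key
    refine key.trans (mul_le_mul_of_nonneg_right ?_ hΛ0.le)
    have e1 : Real.exp (-(3 / 20 * A - 3 - 4 * Real.log (1 + r / Real.sqrt τ)))
        = Real.exp 3 * (1 + r / Real.sqrt τ) ^ 4 * Real.exp (-(3 / 20 * A)) := by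
      have h4 : (1 + r / Real.sqrt τ) ^ 4 = Real.exp (4 * Real.log (1 + r / Real.sqrt τ)) := by
        rw [mul_comm, Real.exp_mul, Real.exp_log (by linarith)]
        norm_cast
      rw [h4, ← Real.exp_add, ← Real.exp_add]
      congr 1
      ring
    rw [e1]
    refine mul_le_mul_of_nonneg_right ?_ (Real.exp_pos _).le
    have h8 : (8 : ℝ) ≤ Real.exp 3 := by
      have h1 := Real.exp_one_gt_d9
      have h2 : Real.exp 3 = Real.exp 1 ^ 3 := by
        rw [← Real.exp_nat_mul]; norm_num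
      rw [h2]
      have : (2 : ℝ) ^ 3 ≤ Real.exp 1 ^ 3 := pow_le_pow_left₀ (by norm_num) (by linarith) 3
      linarith
    have h1 : (1 + r / Real.sqrt τ) ≤ (1 + r / Real.sqrt τ) ^ 4 :=
      le_self_pow₀ (by linarith) (by norm_num)
    exact mul_le_mul h8 h1 (by linarith) (Real.exp_pos _).le

theorem finalStep_of (hCB : ChainBound) (hTB : TrivialBound) : FinalStepStatement := by
  refine ⟨3, by norm_num, ?_⟩
  intro n D E x t τ A hD ht hP hτ hProd
  have hsτ : 0 < Real.sqrt τ := Real.sqrt_pos.2 hτ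
  have hc : ∀ nd ∈ ([] : Code), 0 < nd.τ ∧ 1 ≤ nd.k := by simp
  have hlv : leaves [] = 1 := rfl
  have hnrm : nrm [] = 1 := rfl
  have hval : (val [] t : R n) = xv t := val_nil t
  have hW : 0 < Wt τ := Wt_pos
  have hpi := Real.pi_pos
  have hrη : 0 < π / Real.sqrt τ := div_pos hpi hsτ
  have hlog : 0 ≤ Real.log (1 + π / Real.sqrt τ) := Real.log_nonneg (by linarith)
  rcases lt_or_ge A 0 with hA | hA
  · have h1 : E.N (dev x (xv t)) ≤ 2 * 1 :=
      E.N_le_of_Bd ((Bd.xv t le_rfl).dev x) (by omega)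
    have h2 : (2 : ℝ) ≤ Real.exp 3 := by
      have := Real.add_one_le_exp (3 : ℝ)
      linarith
    have h3 : Real.exp 3 ≤ Real.exp (-((3 / 20) * A - 3 - 4 * Real.log (1 + π / Real.sqrt τ))) := by
      refine Real.exp_le_exp.2 ?_
      linarith
    have h4 := one_le_Wt (τ := τ)
    have h5 : 0 < Real.exp (-((3 / 20) * A - 3 - 4 * Real.log (1 + π / Real.sqrt τ))) :=
      Real.exp_pos _
    nlinarith
  · have key := vector_final E x t [] τ hc (by rw [hlv]; omega) hP ht hτ (A := A)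
      (η := Real.sqrt τ) hA hsτ
      (fun k g hg hp ν hν hk => hCB n D E x t [] τ π (Real.sqrt τ) A g hc (by rw [hlv]; omega)
        hτ hsτ hg hProd k hp ν hν hk)
      (fun ν hν => hTB n D E x t [] τ π (Real.sqrt τ) A hc (by rw [hlv]; omega) hτ hsτ hA hProd ν hν)
    rw [hval, hnrm, one_mul] at key
    refine key.trans ?_
    rw [mul_comm]
    refine mul_le_mul_of_nonneg_left ?_ hW.le
    have e1 : Real.exp (-(3 / 20 * A - 3 - 4 * Real.log (1 + π / Real.sqrt τ)))
        = Real.exp 3 * (1 + π / Real.sqrt τ) ^ 4 * Real.exp (-(3 / 20 * A)) := by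
      have h4 : (1 + π / Real.sqrt τ) ^ 4 = Real.exp (4 * Real.log (1 + π / Real.sqrt τ)) := by
        rw [mul_comm, Real.exp_mul, Real.exp_log (by linarith)]
        norm_cast
      rw [h4, ← Real.exp_add, ← Real.exp_add]
      congr 1
      ring
    rw [e1]
    have h6 : Real.exp (-(A / 6)) ≤ Real.exp (-(3 / 20 * A)) := Real.exp_le_exp.2 (by linarith)
    have h8 : (8 : ℝ) ≤ Real.exp 3 := by
      have h1 := Real.exp_one_gt_d9
      have h2 : Real.exp 3 = Real.exp 1 ^ 3 := by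
        rw [← Real.exp_nat_mul]; norm_num
      rw [h2]
      have : (2 : ℝ) ^ 3 ≤ Real.exp 1 ^ 3 := pow_le_pow_left₀ (by norm_num) (by linarith) 3
      linarith
    have h1 : (1 + π / Real.sqrt τ) ≤ (1 + π / Real.sqrt τ) ^ 4 :=
      le_self_pow₀ (by linarith) (by norm_num)
    have h9 : 8 * (1 + π / Real.sqrt τ) ≤ Real.exp 3 * (1 + π / Real.sqrt τ) ^ 4 :=
      mul_le_mul h8 h1 (by linarith) (Real.exp_pos _).le
    exact mul_le_mul h9 h6 (Real.exp_pos _).le (by positivity)

end Crest.Agent.R300U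
end

-- ▼ part R300/PE
section

set_option autoImplicit false

/-!
Row 300, upper bound: pseudo-expectations of degree `D` on functions of a Boolean word
(blueprint U of helper300, section 0), and the `Bd` calculus.
-/

namespace Crest.Agent.R300

open Finset

/-- words with positions in `ι`. -/
abbrev Cube (ι : Type*) := ι → Bool

/-- complex functions of a word. -/
abbrev Fn (ι : Type*) := Cube ι → ℂ

/-- a bit as a complex number. -/
def bitC (b : Bool) : ℂ := if b then 1 else 0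

@[simp] theorem bitC_true : bitC true = 1 := rfl
@[simp] theorem bitC_false : bitC false = 0 := rfl




section mon

variable {ι : Type*}

/-- the monomial `x_S = ∏_{j ∈ S} x_j`. -/
def mon (S : Finset ι) : Fn ι := fun x => ∏ j ∈ S, bitC (x j)

/-- the coordinate function `x_j`. -/
def coord (j : ι) : Fn ι := fun x => bitC (x j)



@[simp] theorem mon_empty : mon (∅ : Finset ι) = 1 := by
  funext x; simp [mon]

theorem mon_singleton (j : ι) : mon ({j} : Finset ι) = coord j := by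
  funext x; simp [mon, coord]

theorem mon_eq_ite (S : Finset ι) (x : Cube ι) :
    mon S x = if ∀ j ∈ S, x j = true then 1 else 0 := by
  classical
  unfold mon
  split_ifs with h
  · exact Finset.prod_eq_one fun j hj => by rw [h j hj]; rfl
  · push Not at h
    obtain ⟨j, hj, hx⟩ := h
    exact Finset.prod_eq_zero hj (by simp at hx; rw [hx]; rfl)

theorem mon_mul_mon [DecidableEq ι] (S T : Finset ι) : mon S * mon T = mon (S ∪ T) := by
  funext x
  simp only [Pi.mul_apply, mon_eq_ite]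
  by_cases h1 : ∀ j ∈ S, x j = true
  · by_cases h2 : ∀ j ∈ T, x j = true
    · have h3 : ∀ j ∈ S ∪ T, x j = true := fun j hj =>
        (Finset.mem_union.mp hj).elim (h1 j) (h2 j)
      rw [if_pos h1, if_pos h2, if_pos h3, mul_one]
    · have h3 : ¬ ∀ j ∈ S ∪ T, x j = true := fun h =>
        h2 fun j hj => h j (Finset.mem_union_right _ hj)
      rw [if_neg h2, if_neg h3, mul_zero]
  · have h3 : ¬ ∀ j ∈ S ∪ T, x j = true := fun h =>
      h1 fun j hj => h j (Finset.mem_union_left _ hj)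
    rw [if_neg h1, if_neg h3, zero_mul]

theorem mon_mul_self (S : Finset ι) : mon S * mon S = mon S := by
  classical
  rw [mon_mul_mon, Finset.union_self]

theorem star_mon (S : Finset ι) : star (mon S) = mon S := by
  funext x
  simp only [Pi.star_apply, mon_eq_ite]
  split_ifs <;> simp



end mon

section Bd

variable {ι : Type*} [Fintype ι]

/-- `BdOn A d c P`: `P` is a combination of monomials `x_S`, `S ⊆ A`, `|S| ≤ d`, with
coefficients of total mass `≤ c`. -/
def BdOn (A : Finset ι) (d : ℕ) (c : ℝ) (P : Fn ι) : Prop :=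
  ∃ a : Finset ι → ℂ, (∀ S, a S ≠ 0 → S ⊆ A ∧ S.card ≤ d) ∧
    (P = ∑ S, a S • mon S) ∧ ∑ S, ‖a S‖ ≤ c

/-- `Bd d c P`: degree `≤ d` and coefficient mass `≤ c`. -/
abbrev Bd (d : ℕ) (c : ℝ) (P : Fn ι) : Prop := BdOn Finset.univ d c P

/-- degree `≤ d`. -/
def Deg (d : ℕ) (P : Fn ι) : Prop := ∃ c, Bd d c P

/-- degree `≤ d` and only variables in `A`. -/
def DegOn (A : Finset ι) (d : ℕ) (P : Fn ι) : Prop := ∃ c, BdOn A d c P

variable {A B : Finset ι} {d e : ℕ} {c c' : ℝ} {P Q : Fn ι}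


theorem BdOn.mono (h : BdOn A d c P) (hA : A ⊆ B) (hd : d ≤ e) (hc : c ≤ c') :
    BdOn B e c' P := by
  obtain ⟨a, h1, h2, h3⟩ := h
  exact ⟨a, fun S hS => ⟨(h1 S hS).1.trans hA, (h1 S hS).2.trans hd⟩, h2, h3.trans hc⟩

theorem BdOn.mono_deg (h : BdOn A d c P) (hd : d ≤ e) : BdOn A e c P :=
  h.mono subset_rfl hd le_rfl

theorem BdOn.mono_mass (h : BdOn A d c P) (hc : c ≤ c') : BdOn A d c' P :=
  h.mono subset_rfl le_rfl hc

theorem BdOn.toBd (h : BdOn A d c P) : Bd d c P := h.mono (Finset.subset_univ _) le_rfl le_rfl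

theorem BdOn.deg (h : BdOn A d c P) : Deg d P := ⟨c, h.toBd⟩


theorem DegOn.deg (h : DegOn A d P) : Deg d P := h.elim fun _ hc => hc.deg

theorem BdOn.zero (hc : 0 ≤ c) : BdOn A d c (0 : Fn ι) :=
  ⟨0, by simp, by simp, by simpa using hc⟩

theorem BdOn.smul_mon {S : Finset ι} (hS : S ⊆ A) (hd : S.card ≤ d) (z : ℂ) :
    BdOn A d ‖z‖ (z • mon S) := by
  classical
  refine ⟨fun T => if T = S then z else 0, ?_, ?_, ?_⟩
  · intro T hT
    by_cases h : T = S
    · subst h; exact ⟨hS, hd⟩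
    · simp [h] at hT
  · simp only [ite_smul, zero_smul, Finset.sum_ite_eq', Finset.mem_univ, if_true]
  · apply le_of_eq
    simp only [apply_ite norm, norm_zero, Finset.sum_ite_eq', Finset.mem_univ, if_true]

theorem BdOn.mon {S : Finset ι} (hS : S ⊆ A) (hd : S.card ≤ d) : BdOn A d 1 (mon S) := by
  have := BdOn.smul_mon hS hd 1
  simpa using this

theorem BdOn.coord {j : ι} (hj : j ∈ A) (hd : 1 ≤ d) : BdOn A d 1 (coord j) := by
  rw [← mon_singleton]
  exact BdOn.mon (by simpa using hj) (by simpa using hd)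

theorem BdOn.const (z : ℂ) : BdOn A d ‖z‖ (fun _ => z : Fn ι) := by
  have h := BdOn.smul_mon (A := A) (S := ∅) (d := d) (by simp) (by simp) z
  have e : (z • R300.mon (∅ : Finset ι)) = (fun _ => z : Fn ι) := by
    funext x; simp
  rwa [e] at h

theorem BdOn.one : BdOn A d 1 (1 : Fn ι) := by
  have h := BdOn.mon (A := A) (S := ∅) (d := d) (by simp) (by simp)
  simpa using h

theorem BdOn.add (hP : BdOn A d c P) (hQ : BdOn A d c' Q) : BdOn A d (c + c') (P + Q) := by
  obtain ⟨a, h1, h2, h3⟩ := hP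
  obtain ⟨b, k1, k2, k3⟩ := hQ
  refine ⟨a + b, ?_, ?_, ?_⟩
  · intro S hS
    by_cases ha : a S = 0
    · exact k1 S (by intro hb; exact hS (by simp [ha, hb]))
    · exact h1 S ha
  · rw [h2, k2, ← Finset.sum_add_distrib]
    exact Finset.sum_congr rfl fun S _ => by simp [add_smul]
  · calc ∑ S, ‖(a + b) S‖ ≤ ∑ S, (‖a S‖ + ‖b S‖) := Finset.sum_le_sum fun S _ => norm_add_le _ _
      _ = ∑ S, ‖a S‖ + ∑ S, ‖b S‖ := Finset.sum_add_distrib
      _ ≤ c + c' := add_le_add h3 k3

theorem BdOn.smul (hP : BdOn A d c P) (z : ℂ) : BdOn A d (‖z‖ * c) (z • P) := by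
  obtain ⟨a, h1, h2, h3⟩ := hP
  refine ⟨fun S => z * a S, ?_, ?_, ?_⟩
  · intro S hS
    exact h1 S (right_ne_zero_of_mul hS)
  · rw [h2, Finset.smul_sum]
    exact Finset.sum_congr rfl fun S _ => by rw [smul_smul]
  · simp only [norm_mul, ← Finset.mul_sum]
    exact mul_le_mul_of_nonneg_left h3 (norm_nonneg _)

theorem BdOn.neg (hP : BdOn A d c P) : BdOn A d c (-P) := by
  have := hP.smul (-1)
  simpa using this

theorem BdOn.sub (hP : BdOn A d c P) (hQ : BdOn A d c' Q) : BdOn A d (c + c') (P - Q) := by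
  rw [sub_eq_add_neg]
  exact hP.add hQ.neg

theorem BdOn.sum {κ : Type*} (s : Finset κ) (c : κ → ℝ) (P : κ → Fn ι)
    (h : ∀ k ∈ s, BdOn A d (c k) (P k)) : BdOn A d (∑ k ∈ s, c k) (∑ k ∈ s, P k) := by
  classical
  induction s using Finset.induction_on with
  | empty => simpa using BdOn.zero (A := A) (d := d) le_rfl
  | insert k s hk ih =>
    rw [Finset.sum_insert hk, Finset.sum_insert hk]
    exact (h k (Finset.mem_insert_self _ _)).add
      (ih fun j hj => h j (Finset.mem_insert_of_mem hj))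

theorem BdOn.star (hP : BdOn A d c P) : BdOn A d c (star P) := by
  obtain ⟨a, h1, h2, h3⟩ := hP
  refine ⟨fun S => Star.star (a S), ?_, ?_, ?_⟩
  · intro S hS
    exact h1 S (by simpa using hS)
  · rw [h2, star_sum]
    refine Finset.sum_congr rfl fun S _ => ?_
    rw [star_smul, star_mon]
  · simpa using h3

theorem BdOn.mul (hP : BdOn A d c P) (hQ : BdOn A e c' Q) : BdOn A (d + e) (c * c') (P * Q) := by
  classical
  obtain ⟨a, h1, h2, h3⟩ := hP
  obtain ⟨b, k1, k2, k3⟩ := hQ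
  have hPQ : P * Q = ∑ S, ∑ T, (a S * b T) • R300.mon (S ∪ T) := by
    rw [h2, k2, Finset.sum_mul]
    refine Finset.sum_congr rfl fun S _ => ?_
    rw [Finset.mul_sum]
    refine Finset.sum_congr rfl fun T _ => ?_
    rw [smul_mul_smul_comm, mon_mul_mon]
  rw [hPQ]
  have hterm : ∀ S T, BdOn A (d + e) (‖a S‖ * ‖b T‖) ((a S * b T) • R300.mon (S ∪ T)) := by
    intro S T
    by_cases ha : a S = 0
    · simpa [ha] using BdOn.zero (A := A) (d := d + e) le_rfl
    by_cases hb : b T = 0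
    · simpa [hb] using BdOn.zero (A := A) (d := d + e) le_rfl
    have := BdOn.smul_mon (A := A) (S := S ∪ T) (d := d + e)
      (Finset.union_subset (h1 S ha).1 (k1 T hb).1)
      ((Finset.card_union_le _ _).trans (add_le_add (h1 S ha).2 (k1 T hb).2)) (a S * b T)
    rwa [norm_mul] at this
  have h := BdOn.sum Finset.univ _ _ fun S _ => BdOn.sum Finset.univ _ _ fun T _ => hterm S T
  refine h.mono_mass ?_
  rw [← Finset.sum_mul_sum]
  exact mul_le_mul h3 k3 (Finset.sum_nonneg fun _ _ => norm_nonneg _)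
    ((Finset.sum_nonneg fun _ _ => norm_nonneg _).trans h3)

theorem BdOn.prod {κ : Type*} (s : Finset κ) (d : κ → ℕ) (c : κ → ℝ) (P : κ → Fn ι)
    (h : ∀ k ∈ s, BdOn A (d k) (c k) (P k)) :
    BdOn A (∑ k ∈ s, d k) (∏ k ∈ s, c k) (∏ k ∈ s, P k) := by
  classical
  induction s using Finset.induction_on with
  | empty => simpa using BdOn.one (A := A) (d := 0)
  | insert k s hk ih =>
    rw [Finset.sum_insert hk, Finset.prod_insert hk, Finset.prod_insert hk]
    exact (h k (Finset.mem_insert_self _ _)).mul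
      (ih fun j hj => h j (Finset.mem_insert_of_mem hj))

theorem BdOn.pow (hP : BdOn A d c P) (k : ℕ) : BdOn A (k * d) (c ^ k) (P ^ k) := by
  have := BdOn.prod (Finset.range k) (fun _ => d) (fun _ => c) (fun _ => P) (fun _ _ => hP)
  simpa using this



theorem Deg.mono (h : Deg d P) (hd : d ≤ e) : Deg e P := h.imp fun _ hc => hc.mono_deg hd

theorem Deg.zero : Deg d (0 : Fn ι) := ⟨0, BdOn.zero le_rfl⟩

theorem Deg.one : Deg d (1 : Fn ι) := ⟨1, BdOn.one⟩

theorem Deg.const (z : ℂ) : Deg d (fun _ => z : Fn ι) := ⟨_, BdOn.const z⟩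

theorem Deg.add (hP : Deg d P) (hQ : Deg d Q) : Deg d (P + Q) := by
  obtain ⟨c, hc⟩ := hP
  obtain ⟨c', hc'⟩ := hQ
  exact ⟨_, hc.add hc'⟩

theorem Deg.smul (hP : Deg d P) (z : ℂ) : Deg d (z • P) := by
  obtain ⟨c, hc⟩ := hP
  exact ⟨_, hc.smul z⟩

theorem Deg.neg (hP : Deg d P) : Deg d (-P) := by
  obtain ⟨c, hc⟩ := hP
  exact ⟨_, hc.neg⟩

theorem Deg.sub (hP : Deg d P) (hQ : Deg d Q) : Deg d (P - Q) := by
  obtain ⟨c, hc⟩ := hP
  obtain ⟨c', hc'⟩ := hQ
  exact ⟨_, hc.sub hc'⟩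

theorem Deg.star (hP : Deg d P) : Deg d (star P) := by
  obtain ⟨c, hc⟩ := hP
  exact ⟨_, hc.star⟩

theorem Deg.mul (hP : Deg d P) (hQ : Deg e Q) : Deg (d + e) (P * Q) := by
  obtain ⟨c, hc⟩ := hP
  obtain ⟨c', hc'⟩ := hQ
  exact ⟨_, hc.mul hc'⟩

theorem Deg.sum {κ : Type*} (s : Finset κ) (P : κ → Fn ι) (h : ∀ k ∈ s, Deg d (P k)) :
    Deg d (∑ k ∈ s, P k) := by
  classical
  induction s using Finset.induction_on with
  | empty => simpa using Deg.zero
  | insert k s hk ih =>
    rw [Finset.sum_insert hk]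
    exact (h k (Finset.mem_insert_self _ _)).add
      (ih fun j hj => h j (Finset.mem_insert_of_mem hj))

theorem Deg.prod {κ : Type*} (s : Finset κ) (d : κ → ℕ) (P : κ → Fn ι)
    (h : ∀ k ∈ s, Deg (d k) (P k)) : Deg (∑ k ∈ s, d k) (∏ k ∈ s, P k) := by
  classical
  induction s using Finset.induction_on with
  | empty => simpa using Deg.one (d := 0)
  | insert k s hk ih =>
    rw [Finset.sum_insert hk, Finset.prod_insert hk]
    exact (h k (Finset.mem_insert_self _ _)).mul
      (ih fun j hj => h j (Finset.mem_insert_of_mem hj))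

theorem Deg.mon {S : Finset ι} (hd : S.card ≤ d) : Deg d (mon S) :=
  ⟨1, BdOn.mon (Finset.subset_univ _) hd⟩

theorem Deg.coord (j : ι) (hd : 1 ≤ d) : Deg d (coord j) :=
  ⟨1, BdOn.coord (Finset.mem_univ _) hd⟩

end Bd

/-- A pseudo-expectation of degree `D`: a linear functional on functions of a word, normalised,
real, and nonnegative on squares of polynomials of degree `≤ D`. -/
structure PE (ι : Type*) [Fintype ι] (D : ℕ) where
  /-- the functional -/
  L : Fn ι →ₗ[ℂ] ℂ
  map_one : L 1 = 1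
  map_star : ∀ f, L (star f) = star (L f)
  pos : ∀ P, Deg D P → 0 ≤ (L (star P * P)).re

namespace PE

variable {ι : Type*} [Fintype ι] {D : ℕ} (E : PE ι D)
variable {A B : Finset ι} {d e : ℕ} {c c' : ℝ} {P Q : Fn ι}

/-- the seminorm `N(P) = sqrt (L |P|^2)`. -/
noncomputable def N (P : Fn ι) : ℝ := Real.sqrt (E.L (star P * P)).re

theorem N_nonneg (P : Fn ι) : 0 ≤ E.N P := Real.sqrt_nonneg _

theorem L_self_im (P : Fn ι) : (E.L (star P * P)).im = 0 := by
  have h := E.map_star (star P * P)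
  rw [star_mul, star_star] at h
  have h2 := congrArg Complex.im h
  simp at h2
  linarith

theorem L_self_eq (P : Fn ι) : E.L (star P * P) = ((E.L (star P * P)).re : ℂ) := by
  apply Complex.ext
  · simp
  · simpa using E.L_self_im P

theorem N_sq (hP : Deg D P) : E.N P ^ 2 = (E.L (star P * P)).re := by
  unfold N
  rw [Real.sq_sqrt (E.pos P hP)]

theorem N_star (P : Fn ι) : E.N (star P) = E.N P := by
  unfold N
  rw [star_star, mul_comm]

theorem N_smul (z : ℂ) (P : Fn ι) : E.N (z • P) = ‖z‖ * E.N P := by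
  unfold N
  have h : star (z • P) * (z • P) = (star z * z) • (star P * P) := by
    rw [star_smul, smul_mul_smul_comm]
  rw [h, map_smul, smul_eq_mul]
  have h2 : star z * z = ((‖z‖ ^ 2 : ℝ) : ℂ) := by
    have := Complex.conj_mul' z
    simpa using this
  rw [h2, Complex.re_ofReal_mul, Real.sqrt_mul (by positivity), Real.sqrt_sq (norm_nonneg _)]

theorem N_neg (P : Fn ι) : E.N (-P) = E.N P := by
  have := E.N_smul (-1) P
  simpa using this

theorem N_zero : E.N 0 = 0 := by
  unfold N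
  simp

theorem N_const (z : ℂ) : E.N (fun _ => z) = ‖z‖ := by
  have h : (fun _ => z : Fn ι) = z • (1 : Fn ι) := by funext x; simp
  rw [h, E.N_smul]
  have : E.N 1 = 1 := by
    unfold N
    simp [E.map_one]
  rw [this, mul_one]

theorem N_one : E.N 1 = 1 := by
  unfold N
  simp [E.map_one]

/-- Cauchy-Schwarz. -/
theorem cauchy (hP : Deg D P) (hQ : Deg D Q) : ‖E.L (star P * Q)‖ ≤ E.N P * E.N Q := by
  set z := E.L (star P * Q) with hz
  -- for every real t and unit w : 0 ≤ N(P)^2 t^2 - 2 t |z| + N(Q)^2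
  have key : ∀ t : ℝ, 0 ≤ E.N P ^ 2 * t ^ 2 - 2 * t * ‖z‖ + E.N Q ^ 2 := by
    intro t
    obtain ⟨w, hw1, hw2⟩ : ∃ w : ℂ, ‖w‖ = 1 ∧ star w * z = (‖z‖ : ℂ) := by
      by_cases h0 : z = 0
      · exact ⟨1, by simp, by simp [h0]⟩
      · refine ⟨z / ‖z‖, ?_, ?_⟩
        · rw [norm_div]
          simp [h0]
        · have hne : (‖z‖ : ℂ) ≠ 0 := by
            simpa using h0
          have h5 : star z * z = (‖z‖ : ℂ) ^ 2 := by
            have := Complex.conj_mul' z
            simpa using this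
          have h6 : star (z / (‖z‖ : ℂ)) = star z / (‖z‖ : ℂ) := by
            simp
          rw [h6, div_mul_eq_mul_div, h5]
          field_simp
    set R : Fn ι := ((t : ℂ) * w) • P - Q with hR
    have hRdeg : Deg D R := (hP.smul _).sub hQ
    have hpos := E.pos R hRdeg
    have e1 : star R * R = (star ((t : ℂ) * w) * ((t : ℂ) * w)) • (star P * P)
        - (star ((t : ℂ) * w)) • (star P * Q) - ((t : ℂ) * w) • (star Q * P) + star Q * Q := by
      rw [hR]
      simp only [star_sub, star_smul]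
      funext x
      simp only [Pi.mul_apply, Pi.sub_apply, Pi.add_apply, Pi.smul_apply, Pi.star_apply,
        smul_eq_mul]
      ring
    have e2 : E.L (star Q * P) = star z := by
      rw [hz, ← E.map_star, star_mul, star_star]
    rw [e1, map_add, map_sub, map_sub, map_smul, map_smul, map_smul, e2, ← hz, E.L_self_eq P,
      E.L_self_eq Q, ← E.N_sq hP, ← E.N_sq hQ] at hpos
    have e3 : star ((t : ℂ) * w) * ((t : ℂ) * w) = ((t ^ 2 : ℝ) : ℂ) := by
      have h7 : star w * w = 1 := by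
        have := Complex.conj_mul' w
        rw [hw1] at this
        simpa using this
      have h8 : star ((t : ℂ) * w) = (t : ℂ) * star w := by
        simp
      rw [h8]
      calc (t : ℂ) * star w * ((t : ℂ) * w) = (t : ℂ) ^ 2 * (star w * w) := by ring
        _ = _ := by rw [h7]; push_cast; ring
    have e4 : star ((t : ℂ) * w) * z = ((t * ‖z‖ : ℝ) : ℂ) := by
      have h8 : star ((t : ℂ) * w) = (t : ℂ) * star w := by
        simp
      rw [h8, mul_assoc, hw2]
      push_cast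
      ring
    have e5 : (t : ℂ) * w * star z = ((t * ‖z‖ : ℝ) : ℂ) := by
      have := congrArg star e4
      rw [star_mul, star_star] at this
      rw [mul_comm, this]
      simp
    simp only [smul_eq_mul] at hpos
    rw [e3, e4, e5] at hpos
    simp only [Complex.add_re, Complex.sub_re, ← Complex.ofReal_mul, Complex.ofReal_re] at hpos
    nlinarith
  -- discriminant
  have hd := discrim_le_zero (a := E.N P ^ 2) (b := -(2 * ‖z‖)) (c := E.N Q ^ 2) (by
    intro t
    have := key t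
    nlinarith)
  unfold discrim at hd
  have h9 : ‖z‖ ^ 2 ≤ (E.N P * E.N Q) ^ 2 := by nlinarith
  exact le_of_sq_le_sq h9 (mul_nonneg (E.N_nonneg _) (E.N_nonneg _))

theorem N_add_le (hP : Deg D P) (hQ : Deg D Q) : E.N (P + Q) ≤ E.N P + E.N Q := by
  have h1 : E.N (P + Q) ^ 2 ≤ (E.N P + E.N Q) ^ 2 := by
    rw [E.N_sq (hP.add hQ)]
    have e1 : star (P + Q) * (P + Q) = star P * P + star P * Q + star Q * P + star Q * Q := by
      rw [star_add]; ring
    rw [e1, map_add, map_add, map_add]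
    simp only [Complex.add_re]
    rw [← E.N_sq hP, ← E.N_sq hQ]
    have h2 := (Complex.re_le_norm (E.L (star P * Q))).trans (E.cauchy hP hQ)
    have h3 := (Complex.re_le_norm (E.L (star Q * P))).trans (E.cauchy hQ hP)
    nlinarith
  exact le_of_sq_le_sq h1 (add_nonneg (E.N_nonneg _) (E.N_nonneg _))

theorem N_sub_le (hP : Deg D P) (hQ : Deg D Q) : E.N (P - Q) ≤ E.N P + E.N Q := by
  rw [sub_eq_add_neg]
  refine (E.N_add_le hP hQ.neg).trans ?_
  rw [E.N_neg]


theorem N_sum_le {κ : Type*} (s : Finset κ) (P : κ → Fn ι) (h : ∀ k ∈ s, Deg D (P k)) :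
    E.N (∑ k ∈ s, P k) ≤ ∑ k ∈ s, E.N (P k) := by
  classical
  induction s using Finset.induction_on with
  | empty => simp [E.N_zero]
  | insert k s hk ih =>
    rw [Finset.sum_insert hk, Finset.sum_insert hk]
    have h1 := fun j hj => h j (Finset.mem_insert_of_mem (a := j) (b := k) hj)
    exact (E.N_add_le (h k (Finset.mem_insert_self _ _)) (Deg.sum s P h1)).trans
      (add_le_add le_rfl (ih h1))

theorem norm_L_le (hP : Deg D P) : ‖E.L P‖ ≤ E.N P := by
  have := E.cauchy (Deg.one (d := D)) hP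
  rw [star_one, one_mul, E.N_one, one_mul] at this
  exact this

/-- Lemma M: multiplication by a monomial is a contraction. -/
theorem N_mon_mul_le {S : Finset ι} (hP : Deg d P) (hd : S.card + d ≤ D) :
    E.N (mon S * P) ≤ E.N P := by
  have hPD : Deg D P := hP.mono (le_trans (Nat.le_add_left _ _) hd)
  have h1 : Deg D (mon S * P) := ((Deg.mon le_rfl).mul hP).mono hd
  have h2 : Deg D ((1 - mon S) * P) := by
    have h3 : Deg S.card (1 - mon S : Fn ι) := Deg.one.sub (Deg.mon le_rfl)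
    exact (h3.mul hP).mono hd
  have h4 : E.N (mon S * P) ^ 2 ≤ E.N P ^ 2 := by
    rw [E.N_sq h1, E.N_sq hPD]
    have hpos := E.pos _ h2
    have e1 : star ((1 - mon S) * P) * ((1 - mon S) * P) =
        star P * P - star (mon S * P) * (mon S * P) := by
      simp only [star_mul', star_sub, star_one, star_mon]
      have := mon_mul_self S
      calc (1 - mon S) * star P * ((1 - mon S) * P)
          = star P * P * (1 - 2 * mon S + mon S * mon S) := by ring
        _ = star P * P * (1 - 2 * (mon S * mon S) + mon S * mon S) := by rw [this]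
        _ = _ := by ring
    rw [e1, map_sub, Complex.sub_re] at hpos
    linarith
  exact le_of_sq_le_sq h4 (E.N_nonneg _)

/-- multiplication by a polynomial of mass `c` has norm `≤ c`. -/
theorem N_mul_le (hQ : Bd d c Q) (hP : Deg e P) (hd : d + e ≤ D) :
    E.N (Q * P) ≤ c * E.N P := by
  obtain ⟨a, h1, h2, h3⟩ := hQ
  have hterm : ∀ S : Finset ι, Deg D (a S • (mon S * P)) ∧
      E.N (a S • (mon S * P)) ≤ ‖a S‖ * E.N P := by
    intro S
    by_cases ha : a S = 0
    · rw [ha, zero_smul, E.N_zero]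
      exact ⟨Deg.zero, by simp⟩
    · have hcard := (h1 S ha).2
      refine ⟨(((Deg.mon hcard).mul hP).mono hd).smul _, ?_⟩
      rw [E.N_smul]
      exact mul_le_mul_of_nonneg_left
        (E.N_mon_mul_le hP (le_trans (Nat.add_le_add_right hcard _) hd)) (norm_nonneg _)
  have e1 : Q * P = ∑ S, a S • (mon S * P) := by
    rw [h2, Finset.sum_mul]
    exact Finset.sum_congr rfl fun S _ => by rw [smul_mul_assoc]
  rw [e1]
  refine (E.N_sum_le _ _ fun S _ => (hterm S).1).trans ?_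
  refine (Finset.sum_le_sum fun S _ => (hterm S).2).trans ?_
  rw [← Finset.sum_mul]
  exact mul_le_mul_of_nonneg_right h3 (E.N_nonneg _)

theorem N_mul_le' (hQ : Bd d c Q) (hP : Deg e P) (hd : d + e ≤ D) :
    E.N (P * Q) ≤ c * E.N P := by
  rw [mul_comm]
  exact E.N_mul_le hQ hP hd




/-! ### the known prefix -/

/-- the letters in `A` are known to be those of `xs`. -/
def Fix (xs : Cube ι) (A : Finset ι) : Prop :=
  ∀ j ∈ A, E.N (coord j - fun _ => bitC (xs j)) = 0

variable {E}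

theorem Fix.mono {xs : Cube ι} (h : E.Fix xs A) (hBA : B ⊆ A) : E.Fix xs B :=
  fun j hj => h j (hBA hj)




variable (E)

/-! ### evaluation at a word -/

/-- evaluation at a word is a pseudo-expectation of every degree. -/
def eval (D : ℕ) (y : Cube ι) : PE ι D where
  L := LinearMap.proj y
  map_one := rfl
  map_star := fun _ => rfl
  pos := by
    intro P _
    have : (LinearMap.proj y : Fn ι →ₗ[ℂ] ℂ) (star P * P) = star (P y) * P y := rfl
    rw [this]
    have h2 : star (P y) * P y = ((‖P y‖ ^ 2 : ℝ) : ℂ) := by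
      have := Complex.conj_mul' (P y)
      simpa using this
    rw [h2, Complex.ofReal_re]
    positivity

@[simp] theorem eval_L (y : Cube ι) (P : Fn ι) : (eval D y).L P = P y := rfl

@[simp] theorem eval_N (y : Cube ι) (P : Fn ι) : (eval D y).N P = ‖P y‖ := by
  unfold N
  have : (eval D y).L (star P * P) = star (P y) * P y := rfl
  rw [this]
  have h2 : star (P y) * P y = ((‖P y‖ ^ 2 : ℝ) : ℂ) := by
    have := Complex.conj_mul' (P y)
    simpa using this
  rw [h2, Complex.ofReal_re, Real.sqrt_sq (norm_nonneg _)]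


end PE

end Crest.Agent.R300
end

-- ▼ part R300/ChainCore
section

set_option autoImplicit false

/-!
Row 300, upper bound: the L² chain of a pseudo-expectation, abstract form.
-/

namespace Crest.Agent.R300

open Finset

namespace PE

variable {ι : Type*} [Fintype ι] {D : ℕ} (E : PE ι D)

/-- deviation from the value at `x`. -/
def dv (x : Cube ι) (P : Fn ι) : Fn ι := P - fun _ => P x

variable {E} in
theorem dv_deg {x : Cube ι} {d : ℕ} {P : Fn ι} (hP : Deg d P) : Deg d (dv x P) :=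
  hP.sub (Deg.const _)

theorem ratio_step {m : ℕ} (hD : 6 * m ≤ D) {x : Cube ι} {F F' : Fn ι} (hF : Bd (2 * m) 1 F)
    (hF' : Bd (2 * m) 1 F') {ε ϱ : ℝ} (hε : 0 ≤ ε) (hϱ : 0 < ϱ) (hz : ϱ ≤ ‖F x‖)
    (hz' : ϱ ≤ ‖F' x‖) (h4 : E.N (dv x (star F' * F')) ≤ ε)
    (h4' : E.N (dv x (F * star F')) ≤ ε) :
    E.N ((F x)⁻¹ • F - (F' x)⁻¹ • F') ≤ 2 * ε / ϱ ^ 3 := by
  have hzn : F x ≠ 0 := by
    intro h; rw [h, norm_zero] at hz; linarith
  have hzn' : F' x ≠ 0 := by
    intro h; rw [h, norm_zero] at hz'; linarith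
  have hsn' : star (F' x) ≠ 0 := by simpa using hzn'
  have key : (F x)⁻¹ • F - (F' x)⁻¹ • F' = (F x * (star (F' x) * F' x))⁻¹ •
      (-(F * dv x (star F' * F')) + dv x (F * star F') * F') := by
    funext y
    simp only [dv, Pi.smul_apply, Pi.sub_apply, Pi.add_apply, Pi.neg_apply, Pi.mul_apply,
      Pi.star_apply, smul_eq_mul]
    field_simp
    ring
  have d1 : Deg (2 * m + 2 * m) (dv x (star F' * F')) := dv_deg (hF'.star.deg.mul hF'.deg)
  have d2 : Deg (2 * m + 2 * m) (dv x (F * star F')) := dv_deg (hF.deg.mul hF'.star.deg)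
  have n1 : E.N (F * dv x (star F' * F')) ≤ 1 * ε :=
    (E.N_mul_le hF d1 (by omega)).trans (by linarith)
  have n2 : E.N (dv x (F * star F') * F') ≤ 1 * ε :=
    (E.N_mul_le' hF' d2 (by omega)).trans (by linarith)
  have d3 : Deg D (-(F * dv x (star F' * F'))) := ((hF.deg.mul d1).mono (by omega)).neg
  have d4 : Deg D (dv x (F * star F') * F') := (d2.mul hF'.deg).mono (by omega)
  have n3 : E.N (-(F * dv x (star F' * F')) + dv x (F * star F') * F') ≤ 2 * ε := by
    refine (E.N_add_le d3 d4).trans ?_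
    rw [E.N_neg]
    linarith
  rw [key, E.N_smul, norm_inv, norm_mul, norm_mul, norm_star]
  have hpos : 0 < ‖F x‖ * (‖F' x‖ * ‖F' x‖) := by
    have := norm_pos_iff.2 hzn
    have := norm_pos_iff.2 hzn'
    positivity
  have hge : ϱ ^ 3 ≤ ‖F x‖ * (‖F' x‖ * ‖F' x‖) := by
    have : ϱ ^ 3 = ϱ * (ϱ * ϱ) := by ring
    rw [this]
    exact mul_le_mul hz (mul_le_mul hz' hz' hϱ.le (norm_nonneg _)) (by positivity) (norm_nonneg _)
  have hinv : (‖F x‖ * (‖F' x‖ * ‖F' x‖))⁻¹ ≤ (ϱ ^ 3)⁻¹ := inv_anti₀ (by positivity) hge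
  calc (‖F x‖ * (‖F' x‖ * ‖F' x‖))⁻¹ * E.N _ ≤ (ϱ ^ 3)⁻¹ * (2 * ε) :=
        mul_le_mul hinv n3 (E.N_nonneg _) (by positivity)
    _ = 2 * ε / ϱ ^ 3 := by ring

theorem ratio_zero {x : Cube ι} {F : Fn ι} {ε ϱ : ℝ} (hε : 0 ≤ ε) (hϱ : 0 < ϱ)
    (hz : ϱ ≤ ‖F x‖) (h : E.N (dv x F) ≤ ε) :
    E.N ((F x)⁻¹ • F - 1) ≤ ε / ϱ := by
  have hzn : F x ≠ 0 := by
    intro h; rw [h, norm_zero] at hz; linarith
  have key : (F x)⁻¹ • F - 1 = (F x)⁻¹ • dv x F := by
    funext y
    simp only [dv, Pi.smul_apply, Pi.sub_apply, Pi.one_apply, smul_eq_mul]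
    field_simp
  rw [key, E.N_smul, norm_inv]
  have hinv : (‖F x‖)⁻¹ ≤ ϱ⁻¹ := inv_anti₀ hϱ hz
  calc ‖F x‖⁻¹ * E.N (dv x F) ≤ ϱ⁻¹ * ε := mul_le_mul hinv h (E.N_nonneg _) (by positivity)
    _ = ε / ϱ := by ring

/-- chain: ratios `F_j / F_j(x)` stay near `1`. -/
theorem ratio_chain {m : ℕ} (hD : 6 * m ≤ D) {x : Cube ι} {F : ℕ → Fn ι} {k : ℕ} {ε ϱ : ℝ}
    (hF : ∀ j ≤ k, Bd (2 * m) 1 (F j)) (hε : 0 ≤ ε) (hϱ : 0 < ϱ) (hϱ1 : ϱ ≤ 1)
    (hz : ∀ j ≤ k, ϱ ≤ ‖F j x‖)
    (h0 : E.N (dv x (F 0)) ≤ ε)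
    (h4 : ∀ j ≤ k, E.N (dv x (star (F j) * F j)) ≤ ε)
    (h4' : ∀ j < k, E.N (dv x (F (j + 1) * star (F j))) ≤ ε) :
    ∀ j ≤ k, E.N ((F j x)⁻¹ • F j - 1) ≤ (2 * j + 1) * (ε / ϱ ^ 3) := by
  intro j
  induction j with
  | zero =>
    intro hj
    refine (E.ratio_zero hε hϱ (hz 0 hj) h0).trans ?_
    have : ε / ϱ ≤ ε / ϱ ^ 3 := by
      apply div_le_div_of_nonneg_left hε (by positivity)
      calc ϱ ^ 3 = ϱ * ϱ ^ 2 := by ring
        _ ≤ ϱ * 1 := mul_le_mul_of_nonneg_left (by nlinarith) hϱ.le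
        _ = ϱ := by ring
    simpa using this
  | succ j ih =>
    intro hj
    have i1 := ih (by omega)
    have i2 := E.ratio_step hD (x := x) (hF (j + 1) hj) (hF j (by omega)) hε hϱ (hz _ hj)
      (hz j (by omega)) (h4 j (by omega)) (h4' j (by omega))
    have hdeg : ∀ i ≤ k, Deg D ((F i x)⁻¹ • F i) := fun i hi =>
      ((hF i hi).deg.mono (by omega)).smul _
    have e : (F (j + 1) x)⁻¹ • F (j + 1) - 1
        = ((F (j + 1) x)⁻¹ • F (j + 1) - (F j x)⁻¹ • F j) + ((F j x)⁻¹ • F j - 1) := by ring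
    rw [e]
    refine (E.N_add_le ((hdeg _ hj).sub (hdeg j (by omega)))
      ((hdeg j (by omega)).sub Deg.one)).trans ?_
    push_cast
    have : 2 * ε / ϱ ^ 3 = 2 * (ε / ϱ ^ 3) := by ring
    rw [this] at i2
    linarith

theorem recover {m : ℕ} (hD : 6 * m ≤ D) {x : Cube ι} {V F : Fn ι} (hV : Bd m 1 V)
    (hF : Bd (2 * m) 1 F) {ε ϱ δ : ℝ} (hε : 0 ≤ ε) (hϱ : 0 < ϱ) (hz : ϱ ≤ ‖F x‖)
    (h2 : E.N (dv x (star F * F)) ≤ ε) (h3 : E.N (dv x (V * star F)) ≤ ε)
    (hX : E.N ((F x)⁻¹ • F - 1) ≤ δ) :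
    E.N (dv x V) ≤ 2 * ε / ϱ ^ 2 + ‖V x‖ * δ := by
  have hzn : F x ≠ 0 := by
    intro h; rw [h, norm_zero] at hz; linarith
  have hsn : star (F x) ≠ 0 := by simpa using hzn
  have key : dv x V = (star (F x) * F x)⁻¹ •
      (-(V * dv x (star F * F)) + dv x (V * star F) * F) + V x • ((F x)⁻¹ • F - 1) := by
    funext y
    simp only [dv, Pi.smul_apply, Pi.sub_apply, Pi.add_apply, Pi.neg_apply, Pi.mul_apply,
      Pi.star_apply, Pi.one_apply, smul_eq_mul]
    field_simp
    ring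
  have d1 : Deg (2 * m + 2 * m) (dv x (star F * F)) := dv_deg (hF.star.deg.mul hF.deg)
  have d2 : Deg (m + 2 * m) (dv x (V * star F)) := dv_deg (hV.deg.mul hF.star.deg)
  have n1 : E.N (V * dv x (star F * F)) ≤ 1 * ε :=
    (E.N_mul_le hV d1 (by omega)).trans (by linarith)
  have n2 : E.N (dv x (V * star F) * F) ≤ 1 * ε :=
    (E.N_mul_le' hF d2 (by omega)).trans (by linarith)
  have d3 : Deg D (-(V * dv x (star F * F))) := ((hV.deg.mul d1).mono (by omega)).neg
  have d4 : Deg D (dv x (V * star F) * F) := (d2.mul hF.deg).mono (by omega)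
  have n3 : E.N (-(V * dv x (star F * F)) + dv x (V * star F) * F) ≤ 2 * ε := by
    refine (E.N_add_le d3 d4).trans ?_
    rw [E.N_neg]
    linarith
  have d5 : Deg D ((F x)⁻¹ • F - 1) := ((hF.deg.mono (by omega)).smul _).sub Deg.one
  rw [key]
  refine (E.N_add_le ((d3.add d4).smul _) (d5.smul _)).trans ?_
  rw [E.N_smul, E.N_smul, norm_inv, norm_mul, norm_star]
  have hge : ϱ ^ 2 ≤ ‖F x‖ * ‖F x‖ := by
    have : ϱ ^ 2 = ϱ * ϱ := by ring
    rw [this]
    exact mul_le_mul hz hz hϱ.le (norm_nonneg _)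
  have hinv : (‖F x‖ * ‖F x‖)⁻¹ ≤ (ϱ ^ 2)⁻¹ := inv_anti₀ (by positivity) hge
  have h5 : (‖F x‖ * ‖F x‖)⁻¹ * E.N (-(V * dv x (star F * F)) + dv x (V * star F) * F)
      ≤ 2 * ε / ϱ ^ 2 := by
    calc _ ≤ (ϱ ^ 2)⁻¹ * (2 * ε) := mul_le_mul hinv n3 (E.N_nonneg _) (by positivity)
      _ = 2 * ε / ϱ ^ 2 := by ring
  exact add_le_add h5 (mul_le_mul_of_nonneg_left hX (norm_nonneg _))

theorem star_ratio {x : Cube ι} (F : Fn ι) :
    E.N ((star F x)⁻¹ • star F - 1) = E.N ((F x)⁻¹ • F - 1) := by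
  have : (star F x)⁻¹ • star F - 1 = star ((F x)⁻¹ • F - 1) := by
    rw [star_sub, star_smul, star_one]
    simp
  rw [this, E.N_star]

/-- crude bound from the modulus relation alone. -/
theorem crude {m : ℕ} (hD : 2 * m ≤ D) {x : Cube ι} {V : Fn ι} (hV : Bd m 1 V) {ε : ℝ}
    (h : E.N (dv x (star V * V)) ≤ ε) : E.N (dv x V) ≤ 2 * ‖V x‖ + Real.sqrt ε := by
  have dV : Deg D V := hV.deg.mono (by omega)
  have d1 : Deg D (dv x (star V * V)) := dv_deg ((hV.star.deg.mul hV.deg).mono (by omega))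
  have hL := (Complex.re_le_norm _).trans (E.norm_L_le d1)
  have e1 : E.L (dv x (star V * V)) = E.L (star V * V) - ((‖V x‖ ^ 2 : ℝ) : ℂ) := by
    have : (dv x (star V * V)) = star V * V - ((‖V x‖ ^ 2 : ℝ) : ℂ) • (1 : Fn ι) := by
      funext y
      simp only [dv, Pi.sub_apply, Pi.mul_apply, Pi.star_apply, Pi.smul_apply, Pi.one_apply,
        smul_eq_mul, mul_one]
      congr 1
      have := Complex.conj_mul' (V x)
      simpa using this
    rw [this, map_sub, map_smul, E.map_one, smul_eq_mul, mul_one]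
  rw [e1, Complex.sub_re, Complex.ofReal_re, ← E.N_sq dV] at hL
  have h2 : E.N V ^ 2 ≤ ‖V x‖ ^ 2 + ε := by linarith
  have hε : 0 ≤ ε := (E.N_nonneg _).trans h
  have h3 : E.N V ≤ ‖V x‖ + Real.sqrt ε := by
    have h4 : E.N V ^ 2 ≤ (‖V x‖ + Real.sqrt ε) ^ 2 := by
      have h5 := Real.sq_sqrt hε
      have h6 : 0 ≤ ‖V x‖ * Real.sqrt ε := by positivity
      nlinarith
    exact le_of_sq_le_sq h4 (by positivity)
  have h7 : E.N (dv x V) ≤ E.N V + E.N (fun _ => V x : Fn ι) :=
    E.N_sub_le dV (Deg.const _)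
  rw [E.N_const] at h7
  linarith

end PE

end Crest.Agent.R300
end

-- ▼ part R300/U/Chain

/-!
# Row 300, upper bound: the L² chain for windowed transforms
-/

set_option autoImplicit false

namespace Crest.Agent.R300U

namespace Ch

open Crest.Agent

variable {n D : ℕ}

theorem mono_eq (S : Finset (Fin n)) : (mono S : R n) = R300.mon S := by
  funext x
  rw [R300.mon_eq_ite]
  unfold mono
  split_ifs <;> rfl

theorem bd {d : ℕ} {c : ℝ} {P : R n} (h : Bd d c P) : R300.Bd d c P := by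
  obtain ⟨a, h1, h2, h3⟩ := h
  refine ⟨a, fun S hS => ⟨Finset.subset_univ _, ?_⟩, ?_, h2⟩
  · by_contra hc
    exact hS (h1 S (by omega))
  · rw [h3]
    exact Finset.sum_congr rfl fun S _ => by rw [mono_eq]

theorem bd' {d : ℕ} {c : ℝ} {P : R n} (h : R300.Bd d c P) : Bd d c P := by
  obtain ⟨a, h1, h2, h3⟩ := h
  refine ⟨a, fun S hS => ?_, h3, ?_⟩
  · by_contra hc
    have := (h1 S hc).2
    omega
  · rw [h2]
    exact Finset.sum_congr rfl fun S _ => by rw [mono_eq]

/-- the pseudo-expectation in the sense of `R300.PE`. -/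
noncomputable def pe (E : PE n D) : R300.PE (Fin n) D :=
  ⟨E.L, E.one, E.herm, fun P ⟨c, hc⟩ => E.pos P c (bd' hc)⟩

theorem pe_N (E : PE n D) (P : R n) : (pe E).N P = E.N P := rfl

theorem dv_eq (x : Fin n → Bool) (P : R n) : R300.PE.dv x P = dev x P := rfl

end Ch

section

variable {n D : ℕ} (E : PE n D) (x : Fin n → Bool) (t : ℕ) (c : Code) (τ r η A : ℝ)

/-- normalised transform -/
noncomputable def Vn (c : Code) (t : ℕ) (τ ν : ℝ) : R n :=
  (((nrm c * Wt τ)⁻¹ : ℝ) : ℂ) • V c t τ ν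

variable {c τ}

theorem nrmWt_pos (hc : ∀ nd ∈ c, 0 < nd.τ ∧ 1 ≤ nd.k) : 0 < nrm c * Wt τ :=
  mul_pos (nrm_pos hc) Wt_pos

theorem Vn_Bd (hc : ∀ nd ∈ c, 0 < nd.τ ∧ 1 ≤ nd.k) (hτ : 0 < τ) (ν : ℝ) :
    Bd (leaves c) 1 (Vn c t τ ν : R n) := by
  have hW : 0 < nrm c * Wt τ := nrmWt_pos hc
  have := (V_Bd (n := n) hc t hτ ν).smul (((nrm c * Wt τ)⁻¹ : ℝ) : ℂ)
  refine this.mono_mass ?_
  rw [Complex.norm_real, Real.norm_eq_abs, abs_of_pos (inv_pos.2 hW), inv_mul_cancel₀ hW.ne']

theorem norm_Vn (hc : ∀ nd ∈ c, 0 < nd.τ ∧ 1 ≤ nd.k) (ν : ℝ) :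
    ‖(Vn c t τ ν : R n) x‖ = ‖(V c t τ ν : R n) x‖ / (nrm c * Wt τ) := by
  have hW : 0 < nrm c * Wt τ := nrmWt_pos hc
  unfold Vn
  rw [Pi.smul_apply, norm_smul, Complex.norm_real, Real.norm_eq_abs, abs_of_pos (inv_pos.2 hW)]
  ring

theorem dev_V_eq_Vn (hc : ∀ nd ∈ c, 0 < nd.τ ∧ 1 ≤ nd.k) (ν : ℝ) :
    E.N (dev x (V c t τ ν)) = (nrm c * Wt τ) * E.N (dev x (Vn c t τ ν)) := by
  have hW : 0 < nrm c * Wt τ := nrmWt_pos hc
  have e : (Vn c t τ ν : R n) = (((nrm c * Wt τ)⁻¹ : ℝ) : ℂ) • V c t τ ν := rfl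
  rw [e, dev_smul, E.N_smul, Complex.norm_real, Real.norm_eq_abs, abs_of_pos (inv_pos.2 hW),
    ← mul_assoc, mul_inv_cancel₀ hW.ne', one_mul]

variable {E x t r η A}

theorem prod2 (hc : ∀ nd ∈ c, 0 < nd.τ ∧ 1 ≤ nd.k) (h : ProdKnown E x t c τ r η A) {a b : ℝ}
    (ha : |a| ≤ r) (hb : |b| ≤ r) (hab : |a - b| ≤ η) :
    E.N (dev x (Vn c t τ a * star (Vn c t τ b))) ≤ Real.exp (-A) := by
  have hW : 0 < nrm c * Wt τ := nrmWt_pos hc
  set W := nrm c * Wt τ with hWdef
  have h2 := h 2 le_rfl (by norm_num) ![false, true] ![a, b]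
    (by intro i; fin_cases i <;> simpa) (by
      simpa [tot, Fin.sum_univ_two, sub_eq_add_neg] using hab)
  have e1 : (Pr c t τ ![false, true] ![a, b] : R n) = V c t τ a * star (V c t τ b) := by
    simp [Pr, Fin.prod_univ_two, cj]
  rw [e1] at h2
  have e2 : (Vn c t τ a * star (Vn c t τ b) : R n)
      = (((W⁻¹) ^ 2 : ℝ) : ℂ) • (V c t τ a * star (V c t τ b)) := by
    funext y
    simp only [Vn, Pi.mul_apply, Pi.star_apply, Pi.smul_apply, smul_eq_mul, star_mul', ← hWdef]
    have : star (((W⁻¹ : ℝ)) : ℂ) = ((W⁻¹ : ℝ) : ℂ) := Complex.conj_ofReal _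
    rw [this]
    push_cast
    ring
  rw [e2, dev_smul, E.N_smul, Complex.norm_real, Real.norm_eq_abs, abs_of_pos (by positivity)]
  calc (W⁻¹) ^ 2 * E.N (dev x (V c t τ a * star (V c t τ b)))
      ≤ (W⁻¹) ^ 2 * (Real.exp (-A) * W ^ 2) := mul_le_mul_of_nonneg_left h2 (by positivity)
    _ = Real.exp (-A) := by field_simp

theorem prod3 (hc : ∀ nd ∈ c, 0 < nd.τ ∧ 1 ≤ nd.k) (h : ProdKnown E x t c τ r η A) {a b e : ℝ}
    (ha : |a| ≤ r) (hb : |b| ≤ r) (he : |e| ≤ r) (hab : |a - b + e| ≤ η) :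
    E.N (dev x (Vn c t τ a * star (Vn c t τ b) * Vn c t τ e)) ≤ Real.exp (-A) := by
  have hW : 0 < nrm c * Wt τ := nrmWt_pos hc
  set W := nrm c * Wt τ with hWdef
  have h2 := h 3 (by norm_num) (by norm_num) ![false, true, false] ![a, b, e]
    (by intro i; fin_cases i <;> simpa) (by
      simpa [tot, Fin.sum_univ_three, sub_eq_add_neg] using hab)
  have e1 : (Pr c t τ ![false, true, false] ![a, b, e] : R n)
      = V c t τ a * star (V c t τ b) * V c t τ e := by
    simp [Pr, Fin.prod_univ_three, cj]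
  rw [e1] at h2
  have e2 : (Vn c t τ a * star (Vn c t τ b) * Vn c t τ e : R n)
      = (((W⁻¹) ^ 3 : ℝ) : ℂ) • (V c t τ a * star (V c t τ b) * V c t τ e) := by
    funext y
    simp only [Vn, Pi.mul_apply, Pi.star_apply, Pi.smul_apply, smul_eq_mul, star_mul', ← hWdef]
    have : star (((W⁻¹ : ℝ)) : ℂ) = ((W⁻¹ : ℝ) : ℂ) := Complex.conj_ofReal _
    rw [this]
    push_cast
    ring
  rw [e2, dev_smul, E.N_smul, Complex.norm_real, Real.norm_eq_abs, abs_of_pos (by positivity)]
  calc (W⁻¹) ^ 3 * E.N (dev x (V c t τ a * star (V c t τ b) * V c t τ e))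
      ≤ (W⁻¹) ^ 3 * (Real.exp (-A) * W ^ 3) := mul_le_mul_of_nonneg_left h2 (by positivity)
    _ = Real.exp (-A) := by field_simp

theorem prod4 (hc : ∀ nd ∈ c, 0 < nd.τ ∧ 1 ≤ nd.k) (h : ProdKnown E x t c τ r η A)
    {a b e f : ℝ} (ha : |a| ≤ r) (hb : |b| ≤ r) (he : |e| ≤ r) (hf : |f| ≤ r)
    (hab : |a - b - e + f| ≤ η) :
    E.N (dev x (Vn c t τ a * star (Vn c t τ b) * (star (Vn c t τ e) * Vn c t τ f)))
      ≤ Real.exp (-A) := by
  have hW : 0 < nrm c * Wt τ := nrmWt_pos hc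
  set W := nrm c * Wt τ with hWdef
  have h2 := h 4 (by norm_num) le_rfl ![false, true, true, false] ![a, b, e, f]
    (by intro i; fin_cases i <;> simpa) (by
      simpa [tot, Fin.sum_univ_four, sub_eq_add_neg] using hab)
  have e1 : (Pr c t τ ![false, true, true, false] ![a, b, e, f] : R n)
      = V c t τ a * star (V c t τ b) * (star (V c t τ e) * V c t τ f) := by
    simp [Pr, Fin.prod_univ_four, cj, mul_assoc]
  rw [e1] at h2
  have e2 : (Vn c t τ a * star (Vn c t τ b) * (star (Vn c t τ e) * Vn c t τ f) : R n)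
      = (((W⁻¹) ^ 4 : ℝ) : ℂ) • (V c t τ a * star (V c t τ b) *
        (star (V c t τ e) * V c t τ f)) := by
    funext y
    simp only [Vn, Pi.mul_apply, Pi.star_apply, Pi.smul_apply, smul_eq_mul, star_mul', ← hWdef]
    have : star (((W⁻¹ : ℝ)) : ℂ) = ((W⁻¹ : ℝ) : ℂ) := Complex.conj_ofReal _
    rw [this]
    push_cast
    ring
  rw [e2, dev_smul, E.N_smul, Complex.norm_real, Real.norm_eq_abs, abs_of_pos (by positivity)]
  calc (W⁻¹) ^ 4 * E.N (dev x (V c t τ a * star (V c t τ b) * (star (V c t τ e) * V c t τ f)))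
      ≤ (W⁻¹) ^ 4 * (Real.exp (-A) * W ^ 4) := mul_le_mul_of_nonneg_left h2 (by positivity)
    _ = Real.exp (-A) := by field_simp

end

/-- The chain in L². -/
theorem chain_bound {n D : ℕ} (E : PE n D) (x : Fin n → Bool) (t : ℕ) (c : Code)
    (τ r η A g : ℝ) (hc : ∀ nd ∈ c, 0 < nd.τ ∧ 1 ≤ nd.k) (hD : 6 * leaves c ≤ D) (hτ : 0 < τ)
    (hη : 0 < η) (hg : 0 ≤ g) (h : ProdKnown E x t c τ r η A) (k : ℕ)
    (hp : ∀ j ≤ k, ∃ y : ℝ, |y| ≤ r ∧ |y + j * η| ≤ r ∧
      Real.exp (-g) * (nrm c * Wt τ) ^ 2 ≤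
        ‖(V c t τ y : R n) x‖ * ‖(V c t τ (y + j * η) : R n) x‖)
    {ν : ℝ} (hν : |ν| ≤ r) (hk : |(|ν|) - k * η| ≤ η) :
    E.N (dev x (V c t τ ν)) ≤ 4 * (k + 2) * Real.exp (-A + 3 * g) * (nrm c * Wt τ) *
      max (‖(V c t τ ν : R n) x‖ / (nrm c * Wt τ)) (Real.exp (-g)) := by
  have hW : 0 < nrm c * Wt τ := nrmWt_pos hc
  have hp' : ∀ j : ℕ, ∃ y : ℝ, j ≤ k → |y| ≤ r ∧ |y + j * η| ≤ r ∧
      Real.exp (-g) * (nrm c * Wt τ) ^ 2 ≤
        ‖(V c t τ y : R n) x‖ * ‖(V c t τ (y + j * η) : R n) x‖ := by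
    intro j
    by_cases hj : j ≤ k
    · obtain ⟨y, hy⟩ := hp j hj
      exact ⟨y, fun _ => hy⟩
    · exact ⟨0, fun h => absurd h hj⟩
  choose y hy using hp'
  set m := leaves c with hm
  set ϱ := Real.exp (-g) with hϱ
  have hϱ0 : 0 < ϱ := Real.exp_pos _
  have hϱ1 : ϱ ≤ 1 := Real.exp_le_one_iff.2 (by linarith)
  set ε := Real.exp (-A) with hε
  have hε0 : 0 ≤ ε := (Real.exp_pos _).le
  have hbd : ∀ ν, Crest.Agent.R300.Bd m 1 (Vn c t τ ν : R n) := fun ν => Ch.bd (Vn_Bd t hc hτ ν)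
  set F : ℕ → R n := fun j => Vn c t τ (y j + j * η) * star (Vn c t τ (y j)) with hF
  have hFbd : ∀ j ≤ k, Crest.Agent.R300.Bd (2 * m) 1 (F j) := by
    intro j _
    have := (hbd (y j + j * η)).mul (hbd (y j)).star
    rw [mul_one, ← two_mul] at this
    exact this
  have hFx : ∀ j ≤ k, ϱ ≤ ‖F j x‖ := by
    intro j hj
    have h1 := (hy j hj).2.2
    simp only [hF, Pi.mul_apply, Pi.star_apply, norm_mul, norm_star]
    rw [norm_Vn x t hc, norm_Vn x t hc, div_mul_div_comm, le_div_iff₀ (by positivity), ← pow_two]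
    rw [mul_comm ‖(V c t τ (y j + j * η) : R n) x‖]
    exact h1
  have hchain := (Ch.pe E).ratio_chain (m := m) hD (x := x) (F := F) (k := k) (ε := ε) (ϱ := ϱ)
    hFbd hε0 hϱ0 hϱ1 hFx
    (by
      have h1 := hy 0 (Nat.zero_le _)
      exact prod2 hc h h1.2.1 h1.1 (by simpa using hη.le))
    (by
      intro j hj
      have h1 := hy j hj
      have h2 := prod4 hc h h1.2.1 h1.1 h1.2.1 h1.1 (by
        rw [show y j + j * η - y j - (y j + j * η) + y j = 0 by ring]
        simpa using hη.le)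
      have e : star (F j) * F j = Vn c t τ (y j + j * η) * star (Vn c t τ (y j)) *
          (star (Vn c t τ (y j + j * η)) * Vn c t τ (y j)) := by
        simp only [hF, star_mul', star_star]
        ring
      rw [Ch.dv_eq, Ch.pe_N, e]
      exact h2)
    (by
      intro j hj
      have h1 := hy j hj.le
      have h1' := hy (j + 1) hj
      have h2 := prod4 hc h h1'.2.1 h1'.1 h1.2.1 h1.1 (by
        rw [show y (j + 1) + ((j + 1 : ℕ) : ℝ) * η - y (j + 1) - (y j + j * η) + y j = η by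
          push_cast; ring]
        rw [abs_of_pos hη])
      have e : F (j + 1) * star (F j) =
          Vn c t τ (y (j + 1) + ((j + 1 : ℕ) : ℝ) * η) * star (Vn c t τ (y (j + 1))) *
          (star (Vn c t τ (y j + j * η)) * Vn c t τ (y j)) := by
        simp only [hF, star_mul', star_star]
      rw [Ch.dv_eq, Ch.pe_N, e]
      exact h2) k le_rfl
  have hyk := hy k le_rfl
  have h4k : E.N (dev x (star (F k) * F k)) ≤ ε := by
    have h2 := prod4 hc h hyk.2.1 hyk.1 hyk.2.1 hyk.1 (by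
      rw [show y k + k * η - y k - (y k + k * η) + y k = 0 by ring]
      simpa using hη.le)
    have e : star (F k) * F k = Vn c t τ (y k + k * η) * star (Vn c t τ (y k)) *
        (star (Vn c t τ (y k + k * η)) * Vn c t τ (y k)) := by
      simp only [hF, star_mul', star_star]
      ring
    rw [e]
    exact h2
  have hrec : E.N (dev x (Vn c t τ ν)) ≤
      2 * ε / ϱ ^ 2 + ‖(Vn c t τ ν : R n) x‖ * ((2 * k + 1) * (ε / ϱ ^ 3)) := by
    rcases le_or_gt 0 ν with hpos | hneg
    · refine (Ch.pe E).recover (m := m) hD (x := x) (V := Vn c t τ ν) (F := F k) (hbd ν)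
        (hFbd k le_rfl) hε0 hϱ0 (hFx k le_rfl) h4k ?_ hchain
      have h3 := prod3 hc h hν hyk.2.1 hyk.1 (by
        rw [abs_of_nonneg hpos] at hk
        rwa [show ν - (y k + k * η) + y k = ν - k * η by ring])
      have e : Vn c t τ ν * star (F k) =
          Vn c t τ ν * star (Vn c t τ (y k + k * η)) * Vn c t τ (y k) := by
        simp only [hF, star_mul', star_star]
        ring
      rw [Ch.dv_eq, Ch.pe_N, e]
      exact h3
    · have hstar : (Ch.pe E).N ((star (F k) x)⁻¹ • star (F k) - 1) ≤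
          (2 * k + 1) * (ε / ϱ ^ 3) := by
        rw [R300.PE.star_ratio]
        exact hchain
      refine (Ch.pe E).recover (m := m) hD (x := x) (V := Vn c t τ ν) (F := star (F k)) (hbd ν)
        (hFbd k le_rfl).star hε0 hϱ0 ?_ ?_ ?_ hstar
      · rw [Pi.star_apply, norm_star]
        exact hFx k le_rfl
      · rw [star_star, mul_comm]
        exact h4k
      · rw [star_star]
        have h3 := prod3 hc h hν hyk.1 hyk.2.1 (by
          rw [abs_of_neg hneg] at hk
          rw [show ν - y k + (y k + k * η) = -(-ν - k * η) by ring, abs_neg]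
          exact hk)
        have e : Vn c t τ ν * F k =
            Vn c t τ ν * star (Vn c t τ (y k)) * Vn c t τ (y k + k * η) := by
          simp only [hF]
          ring
        rw [Ch.dv_eq, Ch.pe_N, e]
        exact h3
  set M := max (‖(V c t τ ν : R n) x‖ / (nrm c * Wt τ)) ϱ with hM
  have hM1 : ‖(Vn c t τ ν : R n) x‖ ≤ M := by
    rw [norm_Vn x t hc]
    exact le_max_left _ _
  have hM2 : ϱ ≤ M := le_max_right _ _
  have hM0 : 0 < M := lt_of_lt_of_le hϱ0 hM2
  have e3 : ε / ϱ ^ 3 = Real.exp (-A + 3 * g) := by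
    rw [hε, hϱ, ← Real.exp_nat_mul, ← Real.exp_sub]
    congr 1
    push_cast
    ring
  have h5 : 2 * ε / ϱ ^ 2 ≤ 2 * (ε / ϱ ^ 3) * M := by
    have : 2 * ε / ϱ ^ 2 = 2 * (ε / ϱ ^ 3) * ϱ := by field_simp
    rw [this]
    exact mul_le_mul_of_nonneg_left hM2 (by positivity)
  have h6 : ‖(Vn c t τ ν : R n) x‖ * ((2 * k + 1) * (ε / ϱ ^ 3)) ≤
      M * ((2 * k + 1) * (ε / ϱ ^ 3)) :=
    mul_le_mul_of_nonneg_right hM1 (by positivity)
  rw [dev_V_eq_Vn E x t hc]
  have h7 : E.N (dev x (Vn c t τ ν)) ≤ 4 * (k + 2) * (ε / ϱ ^ 3) * M := by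
    have h8 : 0 ≤ (ε / ϱ ^ 3) * M := by positivity
    have hk0 : (0 : ℝ) ≤ k := Nat.cast_nonneg k
    nlinarith [mul_nonneg hk0 h8]
  rw [e3] at h7
  calc (nrm c * Wt τ) * E.N (dev x (Vn c t τ ν))
      ≤ (nrm c * Wt τ) * (4 * (k + 2) * Real.exp (-A + 3 * g) * M) :=
        mul_le_mul_of_nonneg_left h7 hW.le
    _ = 4 * (k + 2) * Real.exp (-A + 3 * g) * (nrm c * Wt τ) * M := by ring

/-- Bound from the modulus relation alone. -/
theorem trivial_bound {n D : ℕ} (E : PE n D) (x : Fin n → Bool) (t : ℕ) (c : Code)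
    (τ r η A : ℝ) (hc : ∀ nd ∈ c, 0 < nd.τ ∧ 1 ≤ nd.k) (hD : 6 * leaves c ≤ D) (hτ : 0 < τ)
    (hη : 0 < η) (hA : 0 ≤ A) (h : ProdKnown E x t c τ r η A) {ν : ℝ} (hν : |ν| ≤ r) :
    E.N (dev x (V c t τ ν)) ≤ 3 * (nrm c * Wt τ) *
      max (‖(V c t τ ν : R n) x‖ / (nrm c * Wt τ)) (Real.exp (-A / 3)) := by
  have hW : 0 < nrm c * Wt τ := nrmWt_pos hc
  have hbd : Crest.Agent.R300.Bd (leaves c) 1 (Vn c t τ ν : R n) := Ch.bd (Vn_Bd t hc hτ ν)
  have h2 := prod2 hc h hν hν (by simpa using hη.le)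
  have h3 : (Ch.pe E).N (R300.PE.dv x (star (Vn c t τ ν : R n) * Vn c t τ ν)) ≤
      Real.exp (-A) := by
    rw [mul_comm]
    exact h2
  have h4 := (Ch.pe E).crude (m := leaves c) (by omega) (x := x) hbd h3
  rw [Ch.dv_eq, Ch.pe_N] at h4
  have h5 : Real.sqrt (Real.exp (-A)) ≤ Real.exp (-A / 3) := by
    rw [Real.sqrt_le_left (Real.exp_pos _).le, ← Real.exp_nat_mul]
    apply Real.exp_le_exp.2
    push_cast
    linarith
  rw [dev_V_eq_Vn E x t hc]
  set M := max (‖(V c t τ ν : R n) x‖ / (nrm c * Wt τ)) (Real.exp (-A / 3)) with hM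
  have hM1 : ‖(Vn c t τ ν : R n) x‖ ≤ M := by
    rw [norm_Vn x t hc]
    exact le_max_left _ _
  have hM2 : Real.exp (-A / 3) ≤ M := le_max_right _ _
  have h6 : E.N (dev x (Vn c t τ ν)) ≤ 3 * M := by linarith
  calc (nrm c * Wt τ) * E.N (dev x (Vn c t τ ν)) ≤ (nrm c * Wt τ) * (3 * M) :=
        mul_le_mul_of_nonneg_left h6 hW.le
    _ = 3 * (nrm c * Wt τ) * M := by ring

end Crest.Agent.R300U
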