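import Crest.Agent.R300.U.Defs
import Crest.Agent.R300.Contour
import Crest.Agent.R300.U.Calc
import Crest.Agent.R300.U.Iface

-- ▼ part R300/U/SupDefs
section
/-!
Row 300, upper bound, superposition step: definitions and the interface between the two halves
(owner helper276).  See blueprint U part 2 (note 6380), item A.
-/
set_option autoImplicit false

namespace Crest.Agent.R300U.Sup

open Complex MeasureTheory

/-- slope parameter of the kinked contour -/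
noncomputable def kap : ℝ := 9 / 20

/-- `R(y) = sqrt τ + kap |y|` -/
noncomputable def Rw (τ y : ℝ) : ℝ := Real.sqrt τ + kap * |y|

/-- contour point `s(y) = -(sqrt τ + kap |y|) + i y` -/
noncomputable def sC (τ y : ℝ) : ℂ := -((Rw τ y : ℝ) : ℂ) + I * y

/-- total weight: `(2π)⁻¹ T^(-1/2) (1 + i kap sgn y) exp(s(y)²/(2T)) exp(-Z²/2)`, `p = (y, Z)`. -/
noncomputable def Wg (T τ : ℝ) (p : ℝ × ℝ) : ℂ :=
  ((1 / (2 * Real.pi * Real.sqrt T) : ℝ) : ℂ) * (1 + I * ((kap * Real.sign p.1 : ℝ) : ℂ)) *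
    cexp (sC τ p.1 ^ 2 / (2 * T)) * ((Real.exp (-p.2 ^ 2 / 2) : ℝ) : ℂ)

/-- real part of the node exponent -/
noncomputable def rhoS (T τ : ℝ) (p : ℝ × ℝ) : ℝ := τ * (p.2 / Real.sqrt T + Rw τ p.1 / T)

/-- good region of the integration variables `(y, Z)` -/
def Good (T B : ℝ) (p : ℝ × ℝ) : Prop :=
  |p.1| ≤ 10 * Real.sqrt (B * T) ∧ |p.2| ≤ 10 * Real.sqrt B

/-- HALF 1 (pure real analysis). -/
def GaussStatement : Prop :=
  ∃ C : ℝ, 0 ≤ C ∧ ∀ (k : ℕ) (τ' τ A B : ℝ), 2 ≤ k → k ≤ 4 → 0 < τ' → 1000 * τ' ≤ τ →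
    1 ≤ A → A ≤ B → ∃ g : ℝ × ℝ → ℝ, Integrable g ∧ (∫ p, g p) ≤ Real.exp (C - A) ∧
      (∀ p, Good (k * τ - τ') B p →
        ‖Wg (k * τ - τ') τ p‖ *
          Real.exp (((k : ℝ) - 1) * (max (rhoS (k * τ - τ') τ p) 0) ^ 2 / (2 * τ)) *
          Real.exp (-A) ≤ g p) ∧
      (∀ p, ¬ Good (k * τ - τ') B p →
        ‖Wg (k * τ - τ') τ p‖ *
          Real.exp (((k : ℝ) - 1) * (max (rhoS (k * τ - τ') τ p) 0) ^ 2 / (2 * τ)) * 2 ≤ g p)

/-- HALF 1' (constants of the good region). -/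
def GoodStatement : Prop :=
  ∀ (k : ℕ) (τ' τ B : ℝ), 2 ≤ k → k ≤ 4 → 0 < τ' → 1000 * τ' ≤ τ → 1 ≤ B →
    (∀ (y ω : ℝ), |ω| ≤ Real.sqrt τ →
      (sC τ y + I * ω).re ≤ -Real.sqrt τ ∧
      (sC τ y + I * ω).im ^ 2 ≤ 6 * (sC τ y + I * ω).re ^ 2) ∧
    (∀ (p : ℝ × ℝ), Good (k * τ - τ') B p →
      rhoS (k * τ - τ') τ p ≤ 12 * Real.sqrt (B * τ) ∧
      (∀ ω : ℝ, |ω| ≤ Real.sqrt τ → ‖sC τ p.1 + I * ω‖ ≤ 32 * Real.sqrt (B * τ)) ∧
      (∀ r ν : ℝ, 32 * Real.sqrt (B * τ) ≤ r → |ν| ≤ r →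
        |-(p.1 * τ / (k * τ - τ')) + ν| ≤ 2 * r))

end Crest.Agent.R300U.Sup
end

-- ▼ part R300/U/SupId
section
/-!
Row 300, upper bound, superposition step: the scalar identity (kinked contour + Gaussian).
-/
set_option autoImplicit false

namespace Crest.Agent.R300U.Sup

open Complex MeasureTheory
open Crest.Agent.R300

theorem kap_nonneg : (0:ℝ) ≤ kap := by unfold kap; norm_num

theorem kap_lt_one : kap < 1 := by unfold kap; norm_num

theorem sC_eq (τ y : ℝ) :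
    sC τ (-(2 * Real.pi) * y) = -(2 * Real.pi) * Contour.ctr (Real.sqrt τ / (2 * Real.pi)) kap y := by
  have hpi := Real.pi_pos
  have hpiC : (Real.pi : ℂ) ≠ 0 := by exact_mod_cast hpi.ne'
  unfold sC Rw Contour.ctr
  rw [abs_mul, abs_neg, abs_of_pos (by positivity : 0 < 2 * Real.pi)]
  push_cast
  field_simp
  ring

theorem sign_neg_mul (y : ℝ) : Real.sign (-(2 * Real.pi) * y) = - Real.sign y := by
  have hpi := Real.pi_pos
  rcases lt_trichotomy y 0 with h | h | h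
  · rw [Real.sign_of_neg h, Real.sign_of_pos (by nlinarith)]; ring
  · subst h; simp
  · rw [Real.sign_of_pos h, Real.sign_of_neg (by nlinarith)]

/-- the one dimensional contour integral in the variables of `Sup`. -/
theorem int_y {T τ : ℝ} (hT : 0 < T) (z : ℂ) :
    Integrable (fun y : ℝ => (1 + I * ((kap * Real.sign y : ℝ) : ℂ)) *
      cexp (sC τ y ^ 2 / (2 * T) + sC τ y * z)) ∧
    ∫ y : ℝ, (1 + I * ((kap * Real.sign y : ℝ) : ℂ)) *
      cexp (sC τ y ^ 2 / (2 * T) + sC τ y * z)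
      = ((Real.sqrt (2 * Real.pi * T) : ℝ) : ℂ) * cexp (-(T / 2) * z ^ 2) := by
  have hpi := Real.pi_pos
  have hpiC : (Real.pi : ℂ) ≠ 0 := by exact_mod_cast hpi.ne'
  have hTC : (T : ℂ) ≠ 0 := by exact_mod_cast hT.ne'
  set G : ℝ → ℂ := fun y : ℝ => (1 + I * ((kap * Real.sign y : ℝ) : ℂ)) *
      cexp (sC τ y ^ 2 / (2 * T) + sC τ y * z) with hG
  have hA : 0 < 2 * Real.pi / T := by positivity
  have hK := Contour.kink hA 0 z (Real.sqrt τ / (2 * Real.pi)) kap_nonneg kap_lt_one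
  have hpt : ∀ x : ℝ, G (-(2 * Real.pi) * x) =
      Contour.gf (2 * Real.pi / T) 0 z (Contour.ctr (Real.sqrt τ / (2 * Real.pi)) kap x)
        * Contour.dctr kap x := by
    intro x
    simp only [hG]
    rw [sC_eq, sign_neg_mul, mul_comm]
    unfold Contour.gf Contour.dctr
    congr 1
    · congr 1
      push_cast
      field_simp
      ring
    · push_cast
      ring
  have hne : -(2 * Real.pi) ≠ 0 := by
    have := hpi.ne'
    simp [this]
  have hint : Integrable G := by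
    rw [← integrable_comp_mul_left_iff G hne]
    refine hK.1.congr (Filter.Eventually.of_forall fun x => (hpt x).symm)
  refine ⟨hint, ?_⟩
  have h1 := Measure.integral_comp_mul_left G (-(2 * Real.pi))
  have h2 : ∫ x : ℝ, G (-(2 * Real.pi) * x) = ((1 / Real.sqrt (2 * Real.pi / T) : ℝ) : ℂ) *
      cexp (2 * Real.pi * 0 * z - Real.pi * z ^ 2 / ((2 * Real.pi / T : ℝ) : ℂ)) := by
    rw [← hK.2]
    exact integral_congr_ae (Filter.Eventually.of_forall hpt)
  rw [h2] at h1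
  have habs : |(-(2 * Real.pi))⁻¹| = (2 * Real.pi)⁻¹ := by
    rw [inv_neg, abs_neg, abs_of_pos (by positivity)]
  rw [habs] at h1
  have h3 : ∫ y, G y = ((2 * Real.pi : ℝ) : ℂ) * (((1 / Real.sqrt (2 * Real.pi / T) : ℝ) : ℂ) *
      cexp (2 * Real.pi * 0 * z - Real.pi * z ^ 2 / ((2 * Real.pi / T : ℝ) : ℂ))) := by
    rw [h1, Complex.real_smul]
    push_cast
    field_simp
  rw [h3, ← mul_assoc]
  congr 1
  · rw [← Complex.ofReal_mul]
    congr 1
    have h4 : Real.sqrt (2 * Real.pi * T) = Real.sqrt (2 * Real.pi) * Real.sqrt T :=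
      Real.sqrt_mul (by positivity) _
    have h5 : Real.sqrt (2 * Real.pi / T) = Real.sqrt (2 * Real.pi) / Real.sqrt T :=
      Real.sqrt_div (by positivity) _
    rw [h4, h5]
    have h6 : 0 < Real.sqrt (2 * Real.pi) := by positivity
    have h7 : 0 < Real.sqrt T := by positivity
    have h8 : Real.sqrt (2 * Real.pi) ^ 2 = 2 * Real.pi := Real.sq_sqrt (by positivity)
    field_simp
    rw [h8]
  · congr 1
    push_cast
    field_simp
    ring

theorem int_Z (c : ℂ) :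
    Integrable (fun x : ℝ => cexp (c * x) * ((Real.exp (-x ^ 2 / 2) : ℝ) : ℂ)) ∧
    ∫ x : ℝ, cexp (c * x) * ((Real.exp (-x ^ 2 / 2) : ℝ) : ℂ)
      = ((Real.sqrt (2 * Real.pi) : ℝ) : ℂ) * cexp (c ^ 2 / 2) := by
  have hpi := Real.pi_pos
  have hpt : ∀ x : ℝ, cexp (c * x) * ((Real.exp (-x ^ 2 / 2) : ℝ) : ℂ)
      = cexp ((-(1/2) : ℂ) * x ^ 2 + c * x + 0) := by
    intro x
    rw [Complex.ofReal_exp, ← Complex.exp_add]
    congr 1
    push_cast
    ring
  simp_rw [hpt]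
  have hb : ((-(1/2) : ℂ)).re < 0 := by norm_num
  refine ⟨integrable_cexp_quadratic' hb c 0, ?_⟩
  rw [integral_cexp_quadratic hb c 0]
  congr 1
  · have : (Real.pi : ℂ) / -(-(1/2)) = ((2 * Real.pi : ℝ) : ℂ) := by push_cast; ring
    rw [this]
    have h2 : (1 / 2 : ℂ) = ((1 / 2 : ℝ) : ℂ) := by push_cast; ring
    rw [h2, ← Complex.ofReal_cpow (by positivity), ← Real.sqrt_eq_rpow]
  · congr 1
    ring

/-- SCALAR IDENTITY: for real `m, U`,
`∬ Wg · exp(s m + U (τ Z/√T - s τ/T)) = exp(-(T/2) m² + τ m U)`. -/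
theorem scalar_identity {T τ : ℝ} (hT : 0 < T) (m U : ℝ) :
    Integrable (fun p : ℝ × ℝ => Wg T τ p *
      cexp (sC τ p.1 * m + U * (τ * (p.2 / Real.sqrt T) - sC τ p.1 * τ / T))) ∧
    ∫ p : ℝ × ℝ, Wg T τ p *
      cexp (sC τ p.1 * m + U * (τ * (p.2 / Real.sqrt T) - sC τ p.1 * τ / T))
      = cexp (-(T / 2) * m ^ 2 + τ * m * U) := by
  have hpi := Real.pi_pos
  have hTC : (T : ℂ) ≠ 0 := by exact_mod_cast hT.ne'
  have hsT : 0 < Real.sqrt T := Real.sqrt_pos.mpr hT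
  have hsTC : ((Real.sqrt T : ℝ) : ℂ) ≠ 0 := by exact_mod_cast hsT.ne'
  set c : ℂ := U * τ / Real.sqrt T with hc
  set z : ℂ := m - U * τ / T with hz
  obtain ⟨hy1, hy2⟩ := int_y (τ := τ) hT z
  obtain ⟨hZ1, hZ2⟩ := int_Z c
  have hpt : ∀ p : ℝ × ℝ, Wg T τ p *
      cexp (sC τ p.1 * m + U * (τ * (p.2 / Real.sqrt T) - sC τ p.1 * τ / T))
      = ((1 / (2 * Real.pi * Real.sqrt T) : ℝ) : ℂ) *
        (((1 + I * ((kap * Real.sign p.1 : ℝ) : ℂ)) *
          cexp (sC τ p.1 ^ 2 / (2 * T) + sC τ p.1 * z)) *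
        (cexp (c * p.2) * ((Real.exp (-p.2 ^ 2 / 2) : ℝ) : ℂ))) := by
    intro p
    unfold Wg
    have e : cexp (sC τ p.1 ^ 2 / (2 * T)) *
        cexp (sC τ p.1 * m + U * (τ * (p.2 / Real.sqrt T) - sC τ p.1 * τ / T))
        = cexp (sC τ p.1 ^ 2 / (2 * T) + sC τ p.1 * z) * cexp (c * p.2) := by
      rw [← Complex.exp_add, ← Complex.exp_add]
      congr 1
      rw [hz, hc]
      field_simp
      ring
    linear_combination (((1 / (2 * Real.pi * Real.sqrt T) : ℝ) : ℂ) *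
      (1 + I * ((kap * Real.sign p.1 : ℝ) : ℂ)) * ((Real.exp (-p.2 ^ 2 / 2) : ℝ) : ℂ)) * e
  simp_rw [hpt]
  have hprod := hy1.mul_prod hZ1
  refine ⟨hprod.const_mul _, ?_⟩
  rw [integral_const_mul]
  have hI : ∫ p : ℝ × ℝ, ((1 + I * ((kap * Real.sign p.1 : ℝ) : ℂ)) *
          cexp (sC τ p.1 ^ 2 / (2 * T) + sC τ p.1 * z)) *
        (cexp (c * p.2) * ((Real.exp (-p.2 ^ 2 / 2) : ℝ) : ℂ))
      = (∫ y : ℝ, (1 + I * ((kap * Real.sign y : ℝ) : ℂ)) *
          cexp (sC τ y ^ 2 / (2 * T) + sC τ y * z)) *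
        ∫ x : ℝ, cexp (c * x) * ((Real.exp (-x ^ 2 / 2) : ℝ) : ℂ) :=
    integral_prod_mul (μ := volume) (ν := volume)
      (fun y : ℝ => (1 + I * ((kap * Real.sign y : ℝ) : ℂ)) *
          cexp (sC τ y ^ 2 / (2 * T) + sC τ y * z))
      (fun x : ℝ => cexp (c * x) * ((Real.exp (-x ^ 2 / 2) : ℝ) : ℂ))
  rw [hI, hy2, hZ2]
  have e1 : ((1 / (2 * Real.pi * Real.sqrt T) : ℝ) : ℂ) *
      (((Real.sqrt (2 * Real.pi * T) : ℝ) : ℂ) * cexp (-(T / 2) * z ^ 2) *
        (((Real.sqrt (2 * Real.pi) : ℝ) : ℂ) * cexp (c ^ 2 / 2)))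
      = (((1 / (2 * Real.pi * Real.sqrt T)) * (Real.sqrt (2 * Real.pi * T) *
          Real.sqrt (2 * Real.pi)) : ℝ) : ℂ) * (cexp (-(T / 2) * z ^ 2) * cexp (c ^ 2 / 2)) := by
    push_cast; ring
  have e2 : (1 / (2 * Real.pi * Real.sqrt T)) * (Real.sqrt (2 * Real.pi * T) *
          Real.sqrt (2 * Real.pi)) = 1 := by
    rw [Real.sqrt_mul (by positivity)]
    have h8 : Real.sqrt (2 * Real.pi) * Real.sqrt (2 * Real.pi) = 2 * Real.pi :=
      Real.mul_self_sqrt (by positivity)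
    have h9 : Real.sqrt (2 * Real.pi) * Real.sqrt T * Real.sqrt (2 * Real.pi)
        = (2 * Real.pi) * Real.sqrt T := by
      linear_combination (Real.sqrt T) * h8
    rw [h9]
    field_simp
  rw [e1, e2, Complex.ofReal_one, one_mul, ← Complex.exp_add]
  congr 1
  rw [hz, hc]
  have h10 : ((Real.sqrt T : ℝ) : ℂ) ^ 2 = T := by
    rw [← Complex.ofReal_pow, Real.sq_sqrt hT.le]
  field_simp
  rw [h10]
  ring

end Crest.Agent.R300U.Sup
end

-- ▼ part R300/U/SupExp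
section
/-!
Row 300, upper bound, superposition step: expansion of products into composites.
-/
set_option autoImplicit false

namespace Crest.Agent.R300U.Sup

open Complex MeasureTheory

/-- delay tuples with minimum `0` -/
noncomputable def dset (k M : ℕ) : Finset (Fin k → ℕ) :=
  (Fintype.piFinset (fun _ : Fin k => Finset.range (M + 1))).filter (fun d => ∃ a, d a = 0)

/-- product of the children at the positions `M - d_a` -/
noncomputable def PP {n : ℕ} (c : Code) {k : ℕ} (flag : Fin k → Bool) (M : ℕ) (d : Fin k → ℕ) :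
    R n := ∏ a : Fin k, cj (flag a) (val c (M - d a))

/-- signed frequency -/
noncomputable def sg (b : Bool) (ν : ℝ) : ℝ := if b then -ν else ν

/-- the node of the composite with integration variables `p` -/
noncomputable def ndp (k : ℕ) (flag : Fin k → Bool) (T τ : ℝ) (ν : Fin k → ℝ) (p : ℝ × ℝ) : Node :=
  ⟨k, flag, τ, rhoS T τ p, fun a => -(p.1 * τ / T) + -(sg (flag a) (ν a))⟩

theorem abs_sg (b : Bool) (ν : ℝ) : |sg b ν| = |ν| := by
  unfold sg; split_ifs <;> simp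

theorem tot_eq {k : ℕ} (flag : Fin k → Bool) (ν : Fin k → ℝ) :
    tot flag ν = ∑ a, sg (flag a) (ν a) := rfl

/-- coefficient of a product, closed form. -/
theorem coef_prod {k : ℕ} (flag : Fin k → Bool) (ν : Fin k → ℝ) (τ : ℝ) (M t : ℕ)
    (d : Fin k → ℕ) :
    ∏ a : Fin k, cexp (-(τ * ((M : ℝ) - d a - t) ^ 2 / 2 : ℝ) +
        I * (if flag a then -ν a else ν a : ℝ) * ((M : ℂ) - d a - t))
      = cexp (-((k : ℂ) * τ / 2) * ((M : ℂ) - t) ^ 2 + τ * ((M : ℂ) - t) * (∑ a, (d a : ℂ))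
          - τ / 2 * (∑ a, (d a : ℂ) ^ 2) + I * (tot flag ν : ℂ) * ((M : ℂ) - t)
          - I * ∑ a, (sg (flag a) (ν a) : ℂ) * (d a : ℂ)) := by
  rw [← Complex.exp_sum]
  congr 1
  have h : ∀ a : Fin k, (-(τ * ((M : ℝ) - d a - t) ^ 2 / 2 : ℝ) +
        I * (if flag a then -ν a else ν a : ℝ) * ((M : ℂ) - d a - t) : ℂ)
      = -(τ / 2) * ((M : ℂ) - t) ^ 2 + (τ * ((M : ℂ) - t)) * (d a : ℂ)
        - (τ / 2) * (d a : ℂ) ^ 2 + (I * ((M : ℂ) - t)) * (sg (flag a) (ν a) : ℂ)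
        - I * ((sg (flag a) (ν a) : ℂ) * (d a : ℂ)) := by
    intro a
    unfold sg
    push_cast
    ring
  rw [Finset.sum_congr rfl fun a _ => h a]
  simp only [Finset.sum_sub_distrib, Finset.sum_add_distrib, ← Finset.mul_sum, Finset.sum_const,
    Finset.card_univ, Fintype.card_fin, nsmul_eq_mul, tot_eq, Complex.ofReal_sum]
  ring

/-- coefficient of the composite, closed form. -/
theorem coef_node {k : ℕ} (flag : Fin k → Bool) (ν : Fin k → ℝ) (T τ : ℝ) (p : ℝ × ℝ)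
    (d : Fin k → ℕ) :
    ∏ a : Fin k, cexp (-(τ * (d a : ℝ) ^ 2 / 2 : ℝ) +
        ((rhoS T τ p : ℂ) + I * ((-(p.1 * τ / T) + -(sg (flag a) (ν a)) : ℝ) : ℂ)) * (d a : ℂ))
      = cexp ((∑ a, (d a : ℂ)) * (τ * (p.2 / Real.sqrt T) - sC τ p.1 * τ / T)
          - τ / 2 * (∑ a, (d a : ℂ) ^ 2) - I * ∑ a, (sg (flag a) (ν a) : ℂ) * (d a : ℂ)) := by
  rw [← Complex.exp_sum]
  congr 1
  have hs : ((rhoS T τ p : ℝ) : ℂ) + I * ((-(p.1 * τ / T) : ℝ) : ℂ)
      = τ * (p.2 / Real.sqrt T) - sC τ p.1 * τ / T := by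
    unfold rhoS sC
    push_cast
    ring
  have h : ∀ a : Fin k, (-(τ * (d a : ℝ) ^ 2 / 2 : ℝ) +
        ((rhoS T τ p : ℂ) + I * ((-(p.1 * τ / T) + -(sg (flag a) (ν a)) : ℝ) : ℂ)) * (d a : ℂ) : ℂ)
      = (τ * (p.2 / Real.sqrt T) - sC τ p.1 * τ / T) * (d a : ℂ) - (τ / 2) * (d a : ℂ) ^ 2
        - I * ((sg (flag a) (ν a) : ℂ) * (d a : ℂ)) := by
    intro a
    rw [← hs]
    push_cast
    ring
  rw [Finset.sum_congr rfl fun a _ => h a]
  rw [Finset.sum_sub_distrib, Finset.sum_sub_distrib, ← Finset.mul_sum, ← Finset.mul_sum,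
    ← Finset.mul_sum]
  ring

/-- coefficient of the product as an integral over composites. -/
theorem coef_integral {k : ℕ} (flag : Fin k → Bool) (ν : Fin k → ℝ) {τ τ' : ℝ}
    (hT : 0 < (k : ℝ) * τ - τ') (M t : ℕ) (d : Fin k → ℕ) :
    Integrable (fun p : ℝ × ℝ => Wg (k * τ - τ') τ p *
      (cexp (-(τ' * ((M : ℝ) - t) ^ 2 / 2 : ℝ) + (sC τ p.1 + I * (tot flag ν : ℂ)) * ((M : ℂ) - t)) *
      ∏ a : Fin k, cexp (-(τ * (d a : ℝ) ^ 2 / 2 : ℝ) +
        ((rhoS (k * τ - τ') τ p : ℂ) +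
          I * ((-(p.1 * τ / (k * τ - τ')) + -(sg (flag a) (ν a)) : ℝ) : ℂ)) * (d a : ℂ)))) ∧
    ∫ p : ℝ × ℝ, Wg (k * τ - τ') τ p *
      (cexp (-(τ' * ((M : ℝ) - t) ^ 2 / 2 : ℝ) + (sC τ p.1 + I * (tot flag ν : ℂ)) * ((M : ℂ) - t)) *
      ∏ a : Fin k, cexp (-(τ * (d a : ℝ) ^ 2 / 2 : ℝ) +
        ((rhoS (k * τ - τ') τ p : ℂ) +
          I * ((-(p.1 * τ / (k * τ - τ')) + -(sg (flag a) (ν a)) : ℝ) : ℂ)) * (d a : ℂ)))
      = ∏ a : Fin k, cexp (-(τ * ((M : ℝ) - d a - t) ^ 2 / 2 : ℝ) +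
        I * (if flag a then -ν a else ν a : ℝ) * ((M : ℂ) - d a - t)) := by
  obtain ⟨h1, h2⟩ := scalar_identity (τ := τ) hT ((M : ℝ) - t) (∑ a, (d a : ℝ))
  set base : ℂ := -(τ' / 2) * ((M : ℂ) - t) ^ 2 + I * (tot flag ν : ℂ) * ((M : ℂ) - t)
    - τ / 2 * (∑ a, (d a : ℂ) ^ 2) - I * ∑ a, (sg (flag a) (ν a) : ℂ) * (d a : ℂ) with hbase
  have hpt : ∀ p : ℝ × ℝ, Wg (k * τ - τ') τ p *
      (cexp (-(τ' * ((M : ℝ) - t) ^ 2 / 2 : ℝ) + (sC τ p.1 + I * (tot flag ν : ℂ)) * ((M : ℂ) - t)) *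
      ∏ a : Fin k, cexp (-(τ * (d a : ℝ) ^ 2 / 2 : ℝ) +
        ((rhoS (k * τ - τ') τ p : ℂ) +
          I * ((-(p.1 * τ / (k * τ - τ')) + -(sg (flag a) (ν a)) : ℝ) : ℂ)) * (d a : ℂ)))
      = cexp base * (Wg (k * τ - τ') τ p *
        cexp (sC τ p.1 * ((M : ℝ) - t : ℝ) + ((∑ a, (d a : ℝ) : ℝ) : ℂ) *
          (τ * (p.2 / Real.sqrt (k * τ - τ')) - sC τ p.1 * τ / ((k * τ - τ' : ℝ) : ℂ)))) := by
    intro p
    rw [coef_node]
    have e : cexp (-(τ' * ((M : ℝ) - t) ^ 2 / 2 : ℝ) +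
          (sC τ p.1 + I * (tot flag ν : ℂ)) * ((M : ℂ) - t)) *
        cexp ((∑ a, (d a : ℂ)) * (τ * (p.2 / Real.sqrt (k * τ - τ')) -
          sC τ p.1 * τ / ((k * τ - τ' : ℝ) : ℂ))
          - τ / 2 * (∑ a, (d a : ℂ) ^ 2) - I * ∑ a, (sg (flag a) (ν a) : ℂ) * (d a : ℂ))
        = cexp base * cexp (sC τ p.1 * ((M : ℝ) - t : ℝ) + ((∑ a, (d a : ℝ) : ℝ) : ℂ) *
          (τ * (p.2 / Real.sqrt (k * τ - τ')) - sC τ p.1 * τ / ((k * τ - τ' : ℝ) : ℂ))) := by
      rw [← Complex.exp_add, ← Complex.exp_add]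
      congr 1
      rw [hbase]
      push_cast
      ring
    rw [e]
    ring
  simp_rw [hpt]
  refine ⟨h1.const_mul _, ?_⟩
  rw [integral_const_mul, h2, coef_prod, ← Complex.exp_add]
  congr 1
  rw [hbase]
  push_cast
  ring

end Crest.Agent.R300U.Sup
end

-- ▼ part R300/U/Super
section
/-!
Row 300, upper bound, superposition step: assembly.
-/
set_option autoImplicit false

namespace Crest.Agent.R300U.Sup

open Complex MeasureTheory

theorem val_cons {n : ℕ} (nd : Node) (c : Code) (M : ℕ) :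
    (val (nd :: c) M : R n) = ∑ d ∈ (Fintype.piFinset (fun _ : Fin nd.k =>
      Finset.range (M + 1))).filter (fun d => ∃ a, d a = 0),
      ∏ a : Fin nd.k,
        (Complex.exp (-(nd.τ * (d a : ℝ) ^ 2 / 2 : ℝ) + ((nd.ρ : ℂ) + Complex.I * nd.f a) * (d a : ℂ)) •
          cj (nd.flag a) (val c (M - d a))) := by
  simp only [val]

theorem prod_smul_PP {n : ℕ} (c : Code) {k : ℕ} (flag : Fin k → Bool) (M : ℕ) (d : Fin k → ℕ)
    (z : Fin k → ℂ) :
    (∏ a : Fin k, (z a • cj (flag a) (val c (M - d a))) : R n) = (∏ a, z a) • PP c flag M d :=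
  Finset.prod_smul _ _ _

/-- value of the composite with integration variables `p`. -/
theorem val_ndp {n : ℕ} (c : Code) {k : ℕ} (flag : Fin k → Bool) (T τ : ℝ) (ν : Fin k → ℝ)
    (p : ℝ × ℝ) (M : ℕ) :
    (val (ndp k flag T τ ν p :: c) M : R n) = ∑ d ∈ dset k M,
      (∏ a : Fin k, cexp (-(τ * (d a : ℝ) ^ 2 / 2 : ℝ) +
        ((rhoS T τ p : ℂ) + I * ((-(p.1 * τ / T) + -(sg (flag a) (ν a)) : ℝ) : ℂ)) * (d a : ℂ))) •
        PP c flag M d := by
  rw [val_cons]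
  refine Finset.sum_congr rfl fun d _ => ?_
  exact prod_smul_PP c flag M d _

theorem PP_Bd {n : ℕ} {c : Code} (hc : ∀ nd ∈ c, 0 < nd.τ ∧ 1 ≤ nd.k) {k : ℕ}
    (flag : Fin k → Bool) (M : ℕ) (d : Fin k → ℕ) :
    Bd (k * leaves c) (nrm c ^ k) (PP c flag M d : R n) := by
  have h := Bd.prod (Finset.univ : Finset (Fin k)) (fun _ => leaves c) (fun _ => nrm c)
    (fun a => cj (flag a) (val c (M - d a) : R n)) (fun a _ => (val_Bd hc _).cj (flag a))
  simpa [PP] using h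

theorem PP_known {n D : ℕ} {E : PE n D} {x : Fin n → Bool} {t : ℕ} (h : Prefix E x t)
    (c : Code) {k : ℕ} (flag : Fin k → Bool) {M : ℕ} (hM : M < t) (d : Fin k → ℕ)
    (hD : k * leaves c ≤ D) : E.N (dev x (PP c flag M d : R n)) = 0 := by
  have h1 := Kn.prod (E := E) (x := x) (Finset.univ : Finset (Fin k)) (fun _ => leaves c)
    (fun a => cj (flag a) (val c (M - d a) : R n))
    (fun a _ => (Kn.val h c (lt_of_le_of_lt (Nat.sub_le _ _) hM)).cj (flag a))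
  apply Kn.N_dev (d := ∑ _a : Fin k, leaves c) h1
  simpa using hD

theorem superposition_of (hG : GaussStatement) (hGd : GoodStatement) : SuperpositionStatement := by
  obtain ⟨C, hC, hgauss⟩ := hG
  refine ⟨C + Real.log 4, add_nonneg hC (Real.log_nonneg (by norm_num)), ?_⟩
  intro n D E x t c τ' τ r A B hc hD hpre hτ' hττ hA hAB hr hdeep k hk2 hk4 flag ν hν htot
  have hτ : 0 < τ := by linarith
  have hk2R : (2:ℝ) ≤ k := by exact_mod_cast hk2
  have hk4R : (k:ℝ) ≤ 4 := by exact_mod_cast hk4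
  have hT : 0 < (k:ℝ) * τ - τ' := by nlinarith
  have hkD : k * leaves c ≤ D := le_trans (Nat.mul_le_mul_right _ hk4) hD
  set T : ℝ := (k:ℝ) * τ - τ' with hTdef
  -- coefficients
  set c0 : ℕ → (Fin k → ℕ) → ℂ := fun M d =>
    ∏ a : Fin k, cexp (-(τ * ((M : ℝ) - d a - t) ^ 2 / 2 : ℝ) +
        I * (if flag a then -ν a else ν a : ℝ) * ((M : ℂ) - d a - t)) with hc0
  have hexp : dev x (Pr c t τ flag ν : R n) = ∑ M ∈ Finset.range n, ∑ d ∈ dset k M,
      c0 M d • dev x (PP c flag M d) := by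
    rw [Pr_expand c t τ (by omega) flag ν, dev_sum]
    refine Finset.sum_congr rfl fun M _ => ?_
    rw [dev_sum]
    refine Finset.sum_congr rfl fun d _ => ?_
    rw [prod_smul_PP, dev_smul]
  set G1 : R n := ∑ M ∈ (Finset.range n).filter (fun M => M < t), ∑ d ∈ dset k M,
      c0 M d • dev x (PP c flag M d) with hG1
  set G2 : R n := ∑ M ∈ Finset.Ico t n, ∑ d ∈ dset k M,
      c0 M d • dev x (PP c flag M d) with hG2
  have hsplit : dev x (Pr c t τ flag ν : R n) = G1 + G2 := by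
    rw [hexp, hG1, hG2, ← Finset.sum_filter_add_sum_filter_not (Finset.range n) (fun M => M < t)]
    congr 1
    apply Finset.sum_congr _ fun _ _ => rfl
    ext M
    simp only [Finset.mem_filter, Finset.mem_range, Finset.mem_Ico, not_lt]
    tauto
  -- degree bounds
  have hPPdev : ∀ (M : ℕ) (d : Fin k → ℕ), Bd D (2 * nrm c ^ k) (dev x (PP c flag M d : R n)) :=
    fun M d => ((PP_Bd hc flag M d).dev x).mono_deg hkD
  have hBdS : ∀ s : Finset ℕ, Bd D (∑ M ∈ s, ∑ d ∈ dset k M, ‖c0 M d‖ * (2 * nrm c ^ k))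
      (∑ M ∈ s, ∑ d ∈ dset k M, c0 M d • dev x (PP c flag M d : R n)) := by
    intro s
    exact Bd.sum s _ _ fun M _ => Bd.sum _ _ _ fun d _ => (hPPdev M d).smul _
  have hG1B := hBdS ((Finset.range n).filter (fun M => M < t))
  have hG2B := hBdS (Finset.Ico t n)
  rw [← hG1] at hG1B
  rw [← hG2] at hG2B
  -- the known part
  have hN1 : E.N G1 = 0 := by
    refine le_antisymm ?_ (E.N_nonneg _)
    rw [hG1]
    refine (E.N_sum_le _ (fun M => ∑ d ∈ dset k M, ‖c0 M d‖ * (2 * nrm c ^ k)) _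
      (fun M _ => Bd.sum _ _ _ fun d _ => (hPPdev M d).smul _)).trans ?_
    refine Finset.sum_nonpos fun M hM => ?_
    have hMt : M < t := (Finset.mem_filter.mp hM).2
    refine (E.N_sum_le _ (fun d => ‖c0 M d‖ * (2 * nrm c ^ k)) _
      (fun d _ => (hPPdev M d).smul _)).trans ?_
    refine Finset.sum_nonpos fun d _ => ?_
    rw [E.N_smul, PP_known hpre c flag hMt d hkD, mul_zero]
  -- the majorant
  obtain ⟨g, hgint, hgle, hgood, hbad⟩ := hgauss k τ' τ A B hk2 hk4 hτ' hττ hA hAB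
  obtain ⟨hgd1, hgd2⟩ := hGd k τ' τ B hk2 hk4 hτ' hττ (le_trans hA hAB)
  set ω : ℝ := tot flag ν with hω
  set U : ℝ × ℝ → R n := fun p => Udev x (ndp k flag T τ ν p :: c) t τ' (sC τ p.1 + I * (ω : ℂ))
    with hU
  set K : ℝ := k * Wt τ ^ (k - 1) * nrm c ^ k * Wt τ' with hK
  have hnc : 0 < nrm c := nrm_pos hc
  have hK0 : 0 ≤ K := by
    rw [hK]
    have := (Wt_pos (τ := τ)).le
    have := (Wt_pos (τ := τ')).le
    positivity
  have hndc : ∀ p : ℝ × ℝ, ∀ nd ∈ ndp k flag T τ ν p :: c, 0 < nd.τ ∧ 1 ≤ nd.k := by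
    intro p nd hnd
    rcases List.mem_cons.mp hnd with h | h
    · subst h
      exact ⟨hτ, by show 1 ≤ k; omega⟩
    · exact hc nd h
  have hnrm : ∀ p : ℝ × ℝ, nrm (ndp k flag T τ ν p :: c) * Wt τ'
      = K * Real.exp (((k : ℝ) - 1) * (max (rhoS T τ p) 0) ^ 2 / (2 * τ)) := by
    intro p
    rw [nrm_cons_eq, hK]
    simp only [ndp]
    ring
  have hUB : ∀ p : ℝ × ℝ, Bd (leaves (ndp k flag T τ ν p :: c))
      (2 * (nrm (ndp k flag T τ ν p :: c) * Wt τ')) (U p) := by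
    intro p
    apply Udev_Bd (hndc p) x t hτ'
    have := (hgd1 p.1 ω htot).1
    have h0 := Real.sqrt_nonneg τ
    linarith
  have hlv : ∀ p : ℝ × ℝ, leaves (ndp k flag T τ ν p :: c) ≤ D := by
    intro p
    show k * leaves c ≤ D
    exact hkD
  have hUN : ∀ p : ℝ × ℝ, ‖Wg T τ p‖ * E.N (U p) ≤ K * g p := by
    intro p
    by_cases hp : Good T B p
    · have h1 := hdeep (ndp k flag T τ ν p) hk2 hk4 rfl (hgd2 p hp).1 (by
        intro a
        apply (hgd2 p hp).2.2 r _ hr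
        rw [abs_neg, abs_sg]
        exact hν a) (sC τ p.1 + I * (ω : ℂ)) (hgd1 p.1 ω htot).1 (hgd1 p.1 ω htot).2
          ((hgd2 p hp).2.1 ω htot)
      rw [hnrm] at h1
      calc ‖Wg T τ p‖ * E.N (U p) ≤ ‖Wg T τ p‖ * (Real.exp (-A) *
            (K * Real.exp (((k : ℝ) - 1) * (max (rhoS T τ p) 0) ^ 2 / (2 * τ)))) :=
            mul_le_mul_of_nonneg_left h1 (norm_nonneg _)
        _ = K * (‖Wg T τ p‖ * Real.exp (((k : ℝ) - 1) * (max (rhoS T τ p) 0) ^ 2 / (2 * τ)) *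
            Real.exp (-A)) := by ring
        _ ≤ K * g p := mul_le_mul_of_nonneg_left (hgood p hp) hK0
    · have h1 := E.N_le_of_Bd (hUB p) (hlv p)
      rw [hnrm] at h1
      calc ‖Wg T τ p‖ * E.N (U p) ≤ ‖Wg T τ p‖ * (2 * (K *
            Real.exp (((k : ℝ) - 1) * (max (rhoS T τ p) 0) ^ 2 / (2 * τ)))) :=
            mul_le_mul_of_nonneg_left h1 (norm_nonneg _)
        _ = K * (‖Wg T τ p‖ * Real.exp (((k : ℝ) - 1) * (max (rhoS T τ p) 0) ^ 2 / (2 * τ)) *
            2) := by ring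
        _ ≤ K * g p := mul_le_mul_of_nonneg_left (hbad p hp) hK0
  -- the functional
  set ell : R n →ₗ[ℂ] ℂ := E.L ∘ₗ LinearMap.mulLeft ℂ (star G2) with hell
  have hellapp : ∀ P : R n, ell P = E.L (star G2 * P) := fun P => rfl
  set cU : ℕ → (Fin k → ℕ) → ℝ × ℝ → ℂ := fun M d p =>
    Wg T τ p *
      (cexp (-(τ' * ((M : ℝ) - t) ^ 2 / 2 : ℝ) + (sC τ p.1 + I * (ω : ℂ)) * ((M : ℂ) - t)) *
      ∏ a : Fin k, cexp (-(τ * (d a : ℝ) ^ 2 / 2 : ℝ) +
        ((rhoS T τ p : ℂ) +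
          I * ((-(p.1 * τ / T) + -(sg (flag a) (ν a)) : ℝ) : ℂ)) * (d a : ℂ))) with hcU
  have hcI : ∀ (M : ℕ) (d : Fin k → ℕ), Integrable (cU M d) ∧ ∫ p, cU M d p = c0 M d := by
    intro M d
    exact coef_integral flag ν hT M t d
  have hellU : ∀ p : ℝ × ℝ, Wg T τ p * ell (U p) = ∑ M ∈ Finset.Ico t n, ∑ d ∈ dset k M,
      cU M d p * ell (dev x (PP c flag M d)) := by
    intro p
    rw [hU]
    simp only [Udev]
    rw [map_sum, Finset.mul_sum]
    refine Finset.sum_congr rfl fun M _ => ?_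
    rw [val_ndp, dev_sum, Finset.smul_sum, map_sum, Finset.mul_sum]
    refine Finset.sum_congr rfl fun d _ => ?_
    rw [dev_smul, smul_smul, map_smul, smul_eq_mul, hcU]
    ring
  have hellG : ell G2 = ∫ p, Wg T τ p * ell (U p) := by
    have h1 : ell G2 = ∑ M ∈ Finset.Ico t n, ∑ d ∈ dset k M,
        c0 M d * ell (dev x (PP c flag M d)) := by
      rw [hG2, map_sum]
      refine Finset.sum_congr rfl fun M _ => ?_
      rw [map_sum]
      refine Finset.sum_congr rfl fun d _ => ?_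
      rw [map_smul, smul_eq_mul]
    simp_rw [hellU]
    rw [h1, integral_finsetSum _ fun M _ => integrable_finsetSum _ fun d _ =>
      (hcI M d).1.mul_const _]
    refine Finset.sum_congr rfl fun M _ => ?_
    rw [integral_finsetSum _ fun d _ => (hcI M d).1.mul_const _]
    refine Finset.sum_congr rfl fun d _ => ?_
    rw [integral_mul_const, (hcI M d).2]
  have hbound : ‖ell G2‖ ≤ E.N G2 * (K * Real.exp (C - A)) := by
    rw [hellG]
    have h1 : ‖∫ p, Wg T τ p * ell (U p)‖ ≤ ∫ p, E.N G2 * (K * g p) := by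
      apply norm_integral_le_of_norm_le ((hgint.const_mul K).const_mul (E.N G2))
      refine Filter.Eventually.of_forall fun p => ?_
      rw [norm_mul, hellapp]
      have h2 := E.cauchy hG2B ((hUB p).mono_deg (hlv p))
      calc ‖Wg T τ p‖ * ‖E.L (star G2 * U p)‖ ≤ ‖Wg T τ p‖ * (E.N G2 * E.N (U p)) :=
            mul_le_mul_of_nonneg_left h2 (norm_nonneg _)
        _ = E.N G2 * (‖Wg T τ p‖ * E.N (U p)) := by ring
        _ ≤ E.N G2 * (K * g p) := mul_le_mul_of_nonneg_left (hUN p) (E.N_nonneg _)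
    refine h1.trans ?_
    rw [integral_const_mul, integral_const_mul]
    exact mul_le_mul_of_nonneg_left (mul_le_mul_of_nonneg_left hgle hK0) (E.N_nonneg _)
  have hN2 : E.N G2 ≤ K * Real.exp (C - A) := by
    have h1 : E.N G2 ^ 2 ≤ E.N G2 * (K * Real.exp (C - A)) := by
      rw [E.N_sq hG2B]
      exact (Complex.re_le_norm _).trans hbound
    rcases (E.N_nonneg G2).eq_or_lt with h0 | h0
    · rw [← h0]
      exact mul_nonneg hK0 (Real.exp_pos _).le
    · have h2 : E.N G2 * E.N G2 ≤ E.N G2 * (K * Real.exp (C - A)) := by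
        rw [← sq]; exact h1
      exact le_of_mul_le_mul_left h2 h0
  have hN : E.N (dev x (Pr c t τ flag ν)) ≤ K * Real.exp (C - A) := by
    rw [hsplit]
    refine (E.N_add_le hG1B hG2B).trans ?_
    rw [hN1, zero_add]
    exact hN2
  refine hN.trans ?_
  -- constants
  have hratio : 0 < τ / τ' := by positivity
  have hr1 : 1 ≤ τ / τ' := by rw [le_div_iff₀ hτ']; linarith
  have hW : Wt τ' ≤ Real.sqrt (τ / τ') * Wt τ := by
    unfold Wt
    have h1 : Real.sqrt (2 * Real.pi / τ') = Real.sqrt (τ / τ') * Real.sqrt (2 * Real.pi / τ) := by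
      rw [← Real.sqrt_mul hratio.le]
      congr 1
      field_simp
    have h2 : 1 ≤ Real.sqrt (τ / τ') := by
      rw [Real.one_le_sqrt]; exact hr1
    rw [h1]
    nlinarith [Real.sqrt_nonneg (2 * Real.pi / τ)]
  have hexpo : Real.exp (-(A - (C + Real.log 4) - 1 / 2 * Real.log (τ / τ')))
      = 4 * Real.exp (C - A) * Real.sqrt (τ / τ') := by
    have e1 : -(A - (C + Real.log 4) - 1 / 2 * Real.log (τ / τ'))
        = Real.log 4 + (C - A) + 1 / 2 * Real.log (τ / τ') := by ring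
    rw [e1, Real.exp_add, Real.exp_add, Real.exp_log (by norm_num : (0:ℝ) < 4)]
    congr 1
    rw [Real.sqrt_eq_rpow, Real.rpow_def_of_pos hratio, mul_comm]
  rw [hexpo, mul_pow, hK]
  have hWτ : 0 < Wt τ := Wt_pos
  have hWτ' : 0 < Wt τ' := Wt_pos
  have hpow : Wt τ ^ (k - 1) * Wt τ = Wt τ ^ k := by
    rw [← pow_succ]; congr 1; omega
  have hE : 0 < Real.exp (C - A) := Real.exp_pos _
  calc (k:ℝ) * Wt τ ^ (k - 1) * nrm c ^ k * Wt τ' * Real.exp (C - A)
      ≤ 4 * Wt τ ^ (k - 1) * nrm c ^ k * (Real.sqrt (τ / τ') * Wt τ) * Real.exp (C - A) := by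
        gcongr
    _ = 4 * Real.exp (C - A) * Real.sqrt (τ / τ') * (nrm c ^ k * (Wt τ ^ (k - 1) * Wt τ)) := by
        ring
    _ = 4 * Real.exp (C - A) * Real.sqrt (τ / τ') * (nrm c ^ k * Wt τ ^ k) := by rw [hpow]

end Crest.Agent.R300U.Sup
end

-- ▼ part R300/U/SupGauss
section
/-!
Row 300, upper bound, superposition step: the Gaussian double integral (helper847).
-/
set_option autoImplicit false

namespace Crest.Agent.R300U.Sup

open Complex MeasureTheory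

namespace Gauss

theorem quad_ineq (Z a b θ : ℝ) (hb : b ^ 2 ≤ 51 / 100) (hθ : θ ≤ 7502 / 10000) :
    -Z ^ 2 / 2 + 1 / 2 * ((b + 9 / 20 * a) ^ 2 - a ^ 2) + θ / 2 * (Z + (b + 9 / 20 * a)) ^ 2 ≤
      24 - 2 / 100 * Z ^ 2 - 28 / 1000 * a ^ 2 := by
  have h1 : θ / 2 * (Z + (b + 9 / 20 * a)) ^ 2 ≤ 7502 / 20000 * (Z + (b + 9 / 20 * a)) ^ 2 := by
    apply mul_le_mul_of_nonneg_right _ (sq_nonneg _)
    linarith
  set R := b + 9 / 20 * a with hR
  have h2 : R ^ 2 ≤ 105 / 100 * (9 / 20) ^ 2 * a ^ 2 + 21 * b ^ 2 := by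
    rw [hR]
    nlinarith [sq_nonneg (9 / 20 * a - 20 * b)]
  have h3 : 0 ≤ (Z - (3751 / 1049) * R) ^ 2 := sq_nonneg _
  nlinarith [h1, h2, h3, sq_nonneg a, sq_nonneg Z, sq_nonneg R]

theorem norm_Wg (T τ : ℝ) (hT : 0 < T) (p : ℝ × ℝ) :
    ‖Wg T τ p‖ ≤ 1 / (2 * Real.pi * Real.sqrt T) * (1 + kap) *
      Real.exp (((Rw τ p.1) ^ 2 - p.1 ^ 2) / (2 * T)) * Real.exp (-p.2 ^ 2 / 2) := by
  have hpi := Real.pi_pos
  have hsT : 0 < Real.sqrt T := Real.sqrt_pos.mpr hT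
  unfold Wg
  rw [norm_mul, norm_mul, norm_mul]
  have e1 : ‖((1 / (2 * Real.pi * Real.sqrt T) : ℝ) : ℂ)‖ = 1 / (2 * Real.pi * Real.sqrt T) := by
    rw [Complex.norm_real, Real.norm_eq_abs, abs_of_pos (by positivity)]
  have e2 : ‖(1 + I * ((kap * Real.sign p.1 : ℝ) : ℂ))‖ ≤ 1 + kap := by
    refine (norm_add_le _ _).trans ?_
    rw [norm_one, norm_mul, Complex.norm_I, one_mul, Complex.norm_real, Real.norm_eq_abs]
    have hk : (0 : ℝ) ≤ kap := by unfold kap; norm_num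
    have : |kap * Real.sign p.1| ≤ kap := by
      rw [abs_mul, abs_of_nonneg hk]
      have : |Real.sign p.1| ≤ 1 := by
        rcases Real.sign_apply_eq p.1 with h | h | h <;> rw [h] <;> norm_num
      nlinarith
    linarith
  have e3 : ‖cexp (sC τ p.1 ^ 2 / (2 * T))‖ = Real.exp (((Rw τ p.1) ^ 2 - p.1 ^ 2) / (2 * T)) := by
    rw [Complex.norm_exp]
    congr 1
    have : sC τ p.1 ^ 2 / (2 * (T : ℂ)) = ((((Rw τ p.1) ^ 2 - p.1 ^ 2) / (2 * T) : ℝ) : ℂ) +
        ((-(2 * (Rw τ p.1) * p.1) / (2 * T) : ℝ) : ℂ) * I := by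
      unfold sC
      push_cast
      have hT' : (T : ℂ) ≠ 0 := by exact_mod_cast hT.ne'
      field_simp
      ring_nf
      rw [Complex.I_sq]
      ring
    rw [this]
    simp only [Complex.add_re, Complex.ofReal_re, Complex.mul_re, Complex.I_re, Complex.ofReal_im,
      Complex.I_im, mul_zero, zero_mul, sub_zero, add_zero]
  have e4 : ‖((Real.exp (-p.2 ^ 2 / 2) : ℝ) : ℂ)‖ = Real.exp (-p.2 ^ 2 / 2) := by
    rw [Complex.norm_real, Real.norm_eq_abs, abs_of_pos (Real.exp_pos _)]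
  rw [e1, e3, e4]
  gcongr

theorem exponent_le (k : ℕ) (τ' τ : ℝ) (h2 : 2 ≤ k) (h4 : k ≤ 4) (h' : 0 < τ')
    (hττ : 1000 * τ' ≤ τ) (p : ℝ × ℝ) :
    ((Rw τ p.1) ^ 2 - p.1 ^ 2) / (2 * (k * τ - τ')) + -p.2 ^ 2 / 2 +
      ((k : ℝ) - 1) * (max (rhoS (k * τ - τ') τ p) 0) ^ 2 / (2 * τ) ≤
      24 - 2 / 100 * p.2 ^ 2 - 28 / 1000 * (p.1 ^ 2 / (k * τ - τ')) := by
  have hτ : 0 < τ := by linarith
  have hk2 : (2 : ℝ) ≤ k := by exact_mod_cast h2
  have hk4 : (k : ℝ) ≤ 4 := by exact_mod_cast h4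
  set T := (k : ℝ) * τ - τ' with hTdef
  have hT0 : (k - 1 / 1000) * τ ≤ T := by rw [hTdef]; nlinarith
  have hT : 0 < T := by nlinarith
  have hsT : 0 < Real.sqrt T := Real.sqrt_pos.mpr hT
  have hsq : Real.sqrt T ^ 2 = T := Real.sq_sqrt hT.le
  set a := |p.1| / Real.sqrt T with ha
  set b := Real.sqrt τ / Real.sqrt T with hb
  set θ := ((k : ℝ) - 1) * τ / T with hθ
  have hb2 : b ^ 2 ≤ 51 / 100 := by
    rw [hb, div_pow, Real.sq_sqrt hτ.le, hsq, div_le_iff₀ hT]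
    nlinarith
  have hθ2 : θ ≤ 7502 / 10000 := by
    rw [hθ, div_le_iff₀ hT]
    nlinarith
  have hab : a ^ 2 = p.1 ^ 2 / T := by
    rw [ha, div_pow, sq_abs, hsq]
  have hR : (b + 9 / 20 * a) = Rw τ p.1 / Real.sqrt T := by
    rw [ha, hb]; unfold Rw kap; ring
  have hmain := quad_ineq p.2 a b θ hb2 hθ2
  have hmax : (max (rhoS T τ p) 0) ^ 2 ≤ (rhoS T τ p) ^ 2 := by
    rcases le_total (rhoS T τ p) 0 with h | h
    · rw [max_eq_right h]; nlinarith [sq_nonneg (rhoS T τ p)]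
    · rw [max_eq_left h]
  have hrho : ((k : ℝ) - 1) * (rhoS T τ p) ^ 2 / (2 * τ) = θ / 2 * (p.2 + (b + 9 / 20 * a)) ^ 2 := by
    rw [hR, hθ]
    unfold rhoS
    have : Rw τ p.1 / T = Rw τ p.1 / Real.sqrt T / Real.sqrt T := by
      rw [div_div, ← sq, hsq]
    rw [this]
    have : ((k : ℝ) - 1) * τ / T / 2 * (p.2 + Rw τ p.1 / Real.sqrt T) ^ 2 =
        ((k : ℝ) - 1) * τ / (Real.sqrt T ^ 2) / 2 * (p.2 + Rw τ p.1 / Real.sqrt T) ^ 2 := by
      rw [hsq]
    rw [this]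
    field_simp
  have h1 : ((k : ℝ) - 1) * (max (rhoS T τ p) 0) ^ 2 / (2 * τ) ≤
      θ / 2 * (p.2 + (b + 9 / 20 * a)) ^ 2 := by
    rw [← hrho]
    have : 0 ≤ (k : ℝ) - 1 := by linarith
    gcongr
  have h2 : ((Rw τ p.1) ^ 2 - p.1 ^ 2) / (2 * T) = 1 / 2 * ((b + 9 / 20 * a) ^ 2 - a ^ 2) := by
    rw [hR, hab, div_pow, hsq]
    field_simp
  rw [h2, ← hab]
  linarith

end Gauss

open Gauss in
theorem gaussStatement : GaussStatement := by
  refine ⟨30, by norm_num, ?_⟩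
  intro k τ' τ A B h2 h4 h' hττ hA hAB
  have hτ : 0 < τ := by linarith
  have hk2 : (2 : ℝ) ≤ k := by exact_mod_cast h2
  have hT : 0 < (k : ℝ) * τ - τ' := by nlinarith
  have hexp := exponent_le k τ' τ h2 h4 h' hττ
  set T := (k : ℝ) * τ - τ' with hTdef
  have hsT : 0 < Real.sqrt T := Real.sqrt_pos.mpr hT
  have hpi := Real.pi_pos
  have hpi3 := Real.pi_gt_three
  -- basic bound
  have hbase : ∀ p : ℝ × ℝ, ‖Wg T τ p‖ *
      Real.exp (((k : ℝ) - 1) * (max (rhoS T τ p) 0) ^ 2 / (2 * τ)) ≤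
      1 / (2 * Real.sqrt T) * Real.exp (24 - 2 / 100 * p.2 ^ 2 - 28 / 1000 * (p.1 ^ 2 / T)) := by
    intro p
    have h := norm_Wg T τ hT p
    calc ‖Wg T τ p‖ * Real.exp (((k : ℝ) - 1) * (max (rhoS T τ p) 0) ^ 2 / (2 * τ))
        ≤ (1 / (2 * Real.pi * Real.sqrt T) * (1 + kap) *
          Real.exp (((Rw τ p.1) ^ 2 - p.1 ^ 2) / (2 * T)) * Real.exp (-p.2 ^ 2 / 2)) *
          Real.exp (((k : ℝ) - 1) * (max (rhoS T τ p) 0) ^ 2 / (2 * τ)) :=
        mul_le_mul_of_nonneg_right h (Real.exp_pos _).le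
      _ = (1 / (2 * Real.pi * Real.sqrt T) * (1 + kap)) *
          Real.exp (((Rw τ p.1) ^ 2 - p.1 ^ 2) / (2 * T) + -p.2 ^ 2 / 2 +
            ((k : ℝ) - 1) * (max (rhoS T τ p) 0) ^ 2 / (2 * τ)) := by
        rw [Real.exp_add, Real.exp_add]; ring
      _ ≤ (1 / (2 * Real.sqrt T)) *
          Real.exp (24 - 2 / 100 * p.2 ^ 2 - 28 / 1000 * (p.1 ^ 2 / T)) := by
        apply mul_le_mul _ (Real.exp_le_exp.mpr (hexp p)) (Real.exp_pos _).le (by positivity)
        unfold kap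
        rw [div_mul_eq_mul_div, one_mul, div_le_div_iff₀ (by positivity) (by positivity)]
        nlinarith
  refine ⟨fun p => (1 / Real.sqrt T) * Real.exp (24 - A) *
    (Real.exp (-(14 / 1000 / T) * p.1 ^ 2) * Real.exp (-(1 / 100) * p.2 ^ 2)), ?_, ?_, ?_, ?_⟩
  · apply Integrable.const_mul
    exact Integrable.mul_prod (integrable_exp_neg_mul_sq (by positivity))
      (integrable_exp_neg_mul_sq (by norm_num))
  · rw [integral_const_mul]
    have : (∫ p : ℝ × ℝ, Real.exp (-(14 / 1000 / T) * p.1 ^ 2) * Real.exp (-(1 / 100) * p.2 ^ 2)) =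
        Real.sqrt (Real.pi / (14 / 1000 / T)) * Real.sqrt (Real.pi / (1 / 100)) := by
      have h := MeasureTheory.integral_prod_mul (μ := (volume : Measure ℝ)) (ν := (volume : Measure ℝ))
        (fun y : ℝ => Real.exp (-(14 / 1000 / T) * y ^ 2)) (fun Z : ℝ => Real.exp (-(1 / 100) * Z ^ 2))
      rw [integral_gaussian, integral_gaussian] at h
      rw [← h]
      rfl
    rw [this]
    have h1 : Real.sqrt (Real.pi / (14 / 1000 / T)) * Real.sqrt (Real.pi / (1 / 100)) ≤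
        Real.sqrt T * Real.exp 6 := by
      rw [← Real.sqrt_mul (by positivity)]
      apply Real.sqrt_le_iff.mpr
      refine ⟨by positivity, ?_⟩
      rw [mul_pow, Real.sq_sqrt hT.le]
      have he : (2.7 : ℝ) ≤ Real.exp 1 := by
        have := Real.exp_one_gt_d9; linarith
      have he6 : (2.7 : ℝ) ^ 12 ≤ Real.exp 6 ^ 2 := by
        have : Real.exp 6 ^ 2 = Real.exp 1 ^ 12 := by
          rw [← Real.exp_nat_mul, ← Real.exp_nat_mul]; norm_num
        rw [this]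
        gcongr
      have hpi4 : Real.pi ≤ 3.15 := Real.pi_lt_d2.le
      have : Real.pi / (14 / 1000 / T) * (Real.pi / (1 / 100)) = T * (Real.pi ^ 2 * (100000 / 14)) := by
        field_simp
        ring
      rw [this]
      apply mul_le_mul_of_nonneg_left _ hT.le
      have : Real.pi ^ 2 ≤ 3.15 ^ 2 := by gcongr
      norm_num at he6 this ⊢
      nlinarith
    calc (1 / Real.sqrt T) * Real.exp (24 - A) *
          (Real.sqrt (Real.pi / (14 / 1000 / T)) * Real.sqrt (Real.pi / (1 / 100)))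
        ≤ (1 / Real.sqrt T) * Real.exp (24 - A) * (Real.sqrt T * Real.exp 6) := by gcongr
      _ = Real.exp (30 - A) := by
        rw [show (30 : ℝ) - A = (24 - A) + 6 by ring, Real.exp_add (24 - A) 6]
        field_simp
  · intro p hp
    refine (mul_le_mul_of_nonneg_right (hbase p) (Real.exp_pos _).le).trans ?_
    have : (1 / Real.sqrt T) * Real.exp (24 - A) *
        (Real.exp (-(14 / 1000 / T) * p.1 ^ 2) * Real.exp (-(1 / 100) * p.2 ^ 2)) =
        (1 / Real.sqrt T) * (Real.exp (24 - A + (-(14 / 1000 / T) * p.1 ^ 2) + (-(1 / 100) * p.2 ^ 2))) := by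
      rw [Real.exp_add, Real.exp_add]; ring
    beta_reduce
    rw [this, mul_assoc, ← Real.exp_add]
    apply mul_le_mul
    · rw [div_le_div_iff₀ (by positivity) hsT]; nlinarith
    · apply Real.exp_le_exp.mpr
      have h1 : 0 ≤ p.1 ^ 2 / T := by positivity
      have h2 : -(14 / 1000 / T) * p.1 ^ 2 = -(14 / 1000) * (p.1 ^ 2 / T) := by ring
      rw [h2]
      nlinarith [sq_nonneg p.2]
    · exact (Real.exp_pos _).le
    · positivity
  · intro p hp
    refine (mul_le_mul_of_nonneg_right (hbase p) (by norm_num : (0:ℝ) ≤ 2)).trans ?_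
    have h0 : (1 / Real.sqrt T) * Real.exp (24 - A) *
        (Real.exp (-(14 / 1000 / T) * p.1 ^ 2) * Real.exp (-(1 / 100) * p.2 ^ 2)) =
        (1 / Real.sqrt T) * (Real.exp (24 - A + (-(14 / 1000 / T) * p.1 ^ 2) + (-(1 / 100) * p.2 ^ 2))) := by
      rw [Real.exp_add, Real.exp_add]; ring
    beta_reduce
    rw [h0]
    have h1 : 1 / (2 * Real.sqrt T) * Real.exp (24 - 2 / 100 * p.2 ^ 2 - 28 / 1000 * (p.1 ^ 2 / T)) * 2 =
        (1 / Real.sqrt T) * Real.exp (24 - 2 / 100 * p.2 ^ 2 - 28 / 1000 * (p.1 ^ 2 / T)) := by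
      field_simp
    rw [h1]
    apply mul_le_mul_of_nonneg_left _ (by positivity)
    apply Real.exp_le_exp.mpr
    have h2 : -(14 / 1000 / T) * p.1 ^ 2 = -(14 / 1000) * (p.1 ^ 2 / T) := by ring
    rw [h2]
    have hB : 0 < B := by linarith
    have h3 : 0 ≤ p.1 ^ 2 / T := by positivity
    unfold Good at hp
    rw [not_and_or, not_le, not_le] at hp
    rcases hp with hp | hp
    · have h4 : 100 * B ≤ p.1 ^ 2 / T := by
        rw [le_div_iff₀ hT]
        have h5 : (10 * Real.sqrt (B * T)) ^ 2 ≤ |p.1| ^ 2 := by gcongr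
        rw [mul_pow, Real.sq_sqrt (by positivity), sq_abs] at h5
        linarith
      nlinarith [sq_nonneg p.2]
    · have h4 : 100 * B ≤ p.2 ^ 2 := by
        have h5 : (10 * Real.sqrt B) ^ 2 ≤ |p.2| ^ 2 := by gcongr
        rw [mul_pow, Real.sq_sqrt (by positivity), sq_abs] at h5
        linarith
      nlinarith [sq_nonneg p.2]

end Crest.Agent.R300U.Sup
end

-- ▼ part R300/U/SupGood
/-!
Row 300, upper bound, superposition step: constants of the good region,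
`goodStatement : GoodStatement`.
-/
set_option autoImplicit false

namespace Crest.Agent.R300U.Sup

open Complex

theorem sC_add_re (τ y ω : ℝ) : (sC τ y + I * ω).re = -Rw τ y := by
  simp [sC]

theorem sC_add_im (τ y ω : ℝ) : (sC τ y + I * ω).im = y + ω := by
  simp [sC]

/-- **Half 1'**: constants of the good region. -/
theorem goodStatement : GoodStatement := by
  intro k τ' τ B hk hk4 hτ' h hB
  have hτ : 0 < τ := by linarith
  have hk2 : (2 : ℝ) ≤ k := by exact_mod_cast hk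
  have hk4' : (k : ℝ) ≤ 4 := by exact_mod_cast hk4
  have hT1 : 1.999 * τ ≤ k * τ - τ' := by nlinarith
  have hT2 : k * τ - τ' ≤ 4 * τ := by nlinarith
  set T := k * τ - τ' with hTdef
  have hT : 0 < T := by linarith
  set v := Real.sqrt τ with hv
  set w := Real.sqrt T with hw
  set b := Real.sqrt B with hb
  have hv0 : 0 < v := Real.sqrt_pos.mpr hτ
  have hw0 : 0 < w := Real.sqrt_pos.mpr hT
  have hb1 : 1 ≤ b := by
    rw [hb]; exact Real.one_le_sqrt.mpr hB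
  have hv2 : v ^ 2 = τ := Real.sq_sqrt hτ.le
  have hw2 : w ^ 2 = T := Real.sq_sqrt hT.le
  have hBτ : Real.sqrt (B * τ) = b * v := Real.sqrt_mul (by linarith) τ
  have hBT : Real.sqrt (B * T) = b * w := Real.sqrt_mul (by linarith) T
  have hvw : v ≤ 0.7073 * w := by
    apply le_of_sq_le_sq _ (by positivity)
    rw [mul_pow, hv2, hw2]; nlinarith
  have hwv : w ≤ 2 * v := by
    apply le_of_sq_le_sq _ (by positivity)
    rw [mul_pow, hv2, hw2]; linarith
  have hvwd : v / w ≤ 0.7073 := by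
    rw [div_le_iff₀ hw0]; exact hvw
  have hvwd0 : 0 ≤ v / w := by positivity
  rw [hBτ]
  refine ⟨?_, ?_⟩
  · intro y ω hω
    rw [sC_add_re, sC_add_im]
    have hy := abs_nonneg y
    have hR : Rw τ y = v + 9 / 20 * |y| := by unfold Rw kap; rfl
    rw [hR]
    refine ⟨by linarith, ?_⟩
    have h1 : |y + ω| ≤ |y| + v := (abs_add_le y ω).trans (by linarith)
    have h2 : (y + ω) ^ 2 ≤ (|y| + v) ^ 2 := by
      rw [← sq_abs (y + ω)]
      exact pow_le_pow_left₀ (abs_nonneg _) h1 2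
    nlinarith [mul_nonneg hy hv0.le]
  · intro p hp
    obtain ⟨hy, hZ⟩ := hp
    rw [hBT] at hy
    have hy0 := abs_nonneg p.1
    have hR : Rw τ p.1 = v + 9 / 20 * |p.1| := by unfold Rw kap; rfl
    have hbv : 0 < b * v := by positivity
    have hv_le : v ≤ b * v := by nlinarith
    have hy' : |p.1| ≤ 20 * (b * v) := by
      have : b * w ≤ b * (2 * v) := mul_le_mul_of_nonneg_left hwv (by linarith)
      linarith
    refine ⟨?_, ?_, ?_⟩
    · have e : rhoS T τ p = v / w * (v * p.2) + (v / w) ^ 2 * (v + 9 / 20 * |p.1|) := by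
        unfold rhoS
        rw [hR, ← hw, ← hv2, ← hw2]
        field_simp
      rw [e]
      have h1 : v / w * (v * p.2) ≤ 0.7073 * (v * (10 * b)) := by
        calc v / w * (v * p.2) ≤ v / w * (v * (10 * b)) := by
              apply mul_le_mul_of_nonneg_left _ hvwd0
              exact mul_le_mul_of_nonneg_left ((le_abs_self _).trans hZ) hv0.le
          _ ≤ 0.7073 * (v * (10 * b)) := by
              apply mul_le_mul_of_nonneg_right hvwd (by positivity)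
      have h2 : (v / w) ^ 2 ≤ 0.5003 := by nlinarith
      have h3 : (v / w) ^ 2 * v ≤ 0.5003 * v := mul_le_mul_of_nonneg_right h2 hv0.le
      have h4 : (v / w) ^ 2 * (9 / 20 * |p.1|) ≤ 4.5 * (0.7073 * (b * v)) := by
        calc (v / w) ^ 2 * (9 / 20 * |p.1|) ≤ (v / w) ^ 2 * (9 / 20 * (10 * (b * w))) := by
              apply mul_le_mul_of_nonneg_left _ (sq_nonneg _)
              linarith
          _ = 4.5 * ((v / w) * (b * v)) := by field_simp; ring
          _ ≤ 4.5 * (0.7073 * (b * v)) := by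
              apply mul_le_mul_of_nonneg_left _ (by norm_num)
              exact mul_le_mul_of_nonneg_right hvwd hbv.le
      nlinarith
    · intro ω hω
      have h1 : ‖sC τ p.1 + I * ω‖ ≤ |(sC τ p.1 + I * ω).re| + |(sC τ p.1 + I * ω).im| :=
        Complex.norm_le_abs_re_add_abs_im _
      rw [sC_add_re, sC_add_im, hR, abs_neg, abs_of_nonneg (by positivity)] at h1
      have h2 : |p.1 + ω| ≤ |p.1| + v := (abs_add_le _ _).trans (by linarith)
      linarith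
    · intro r ν hr hν
      have h1 : |-(p.1 * τ / T)| ≤ |p.1| := by
        rw [abs_neg, abs_div, abs_mul, abs_of_pos hτ, abs_of_pos hT, div_le_iff₀ hT]
        apply mul_le_mul_of_nonneg_left _ hy0
        linarith
      have h2 := abs_add_le (-(p.1 * τ / T)) ν
      linarith

end Crest.Agent.R300U.Sup
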