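import Crest.Agent.R300.U.Chain_Mg
import Crest.Agent.R300.U.SupGood_Mg
import Crest.Agent.R300.U.AccRep
import Crest.Agent.R300.U.Iface
import Crest.Agent.R300.U.Kernel1D
import Mathlib
import Crest.Agent.R300.U.Defs
import Crest.Agent.R300.U.UMain

-- ▼ part R300/U/LevelFinal
section

/-!
# Row 300, upper bound: `LevelStepStatement` and `FinalStepStatement`
-/

set_option autoImplicit false

namespace Crest.Agent.R300U

theorem chainBound : ChainBound := by
  intro n D E x t c τ r η A g hc hD hτ hη hg hProd k hp ν hν hk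
  exact chain_bound E x t c τ r η A g hc hD hτ hη hg hProd k hp hν hk

theorem trivialBound : TrivialBound := by
  intro n D E x t c τ r η A hc hD hτ hη hA hProd ν hν
  have := trivial_bound E x t c τ r η A hc hD hτ hη hA hProd hν
  rwa [neg_div] at this

theorem levelStep : LevelStepStatement := levelStep_of chainBound trivialBound

theorem finalStep : FinalStepStatement := finalStep_of chainBound trivialBound

end Crest.Agent.R300U
end

-- ▼ part R300/U/SupFin
section
/-!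
Row 300, upper bound: the superposition step.
-/
set_option autoImplicit false

namespace Crest.Agent.R300U

/-- **Superposition step.** -/
theorem superposition : SuperpositionStatement :=
  Sup.superposition_of Sup.gaussStatement Sup.goodStatement

end Crest.Agent.R300U
end

-- ▼ part R300/U/AccCode
section
/-!
Row 300, AccessStatement: the skeleton of a code (owner helper862).
-/
set_option autoImplicit false

namespace Crest.Agent.R300U

open scoped BigOperators

theorem Adm.le {s : Sched} : ∀ {c : Code} {j : ℕ}, Adm s j c → j ≤ s.h + 1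
  | [], j, h => by
      have : j = s.h + 1 := h
      omega
  | nd :: c, j, h => by
      have h1 : Adm s (j + 1) c := h.2.2.2.2.2
      have := Adm.le h1
      omega

theorem Adm.leaves_le {s : Sched} : ∀ {c : Code} {j : ℕ}, Adm s j c → leaves c ≤ 4 ^ (s.h + 1 - j)
  | [], j, h => by
      simp [leaves, Nat.one_le_pow]
  | nd :: c, j, h => by
      have h1 : Adm s (j + 1) c := h.2.2.2.2.2
      have h2 := Adm.leaves_le h1
      have h3 := Adm.le h1
      have h4 : nd.k ≤ 4 := h.2.1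
      have e : s.h + 1 - j = (s.h + 1 - (j + 1)) + 1 := by omega
      rw [e, pow_succ, leaves]
      calc nd.k * leaves c ≤ 4 * 4 ^ (s.h + 1 - (j + 1)) := Nat.mul_le_mul h4 h2
        _ = _ := by ring

/-- the kernel class of the edges: closed under conjugation, contains the child kernels -/
structure KerClass (s : Sched) (Ker : ℕ → (ℕ → ℂ) → Prop) : Prop where
  conj : ∀ j g, Ker j g → Ker j (fun d => star (g d))
  child : ∀ j, 1 ≤ j → j ≤ s.h → ∀ ρ f : ℝ, ρ ≤ 12 * Real.sqrt (2 * s.A j * s.τ j) →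
    |f| ≤ 2 * s.r j →
    Ker j (fun d => Complex.exp (-(s.τ j * (d : ℝ) ^ 2 / 2 : ℝ) + ((ρ : ℂ) + Complex.I * f) * (d : ℂ)))

theorem KerClass.cjn {s : Sched} {Ker : ℕ → (ℕ → ℂ) → Prop} (hK : KerClass s Ker) {j : ℕ}
    {g : ℕ → ℂ} (h : Ker j g) (b : Bool) : Ker j (fun d => cjn b (g d)) := by
  cases b
  · simpa [R300U.cjn] using h
  · simpa [R300U.cjn] using hK.conj j g h

/-- skeleton representation of a code, head at level `j` -/
theorem code_rep {s : Sched} {Ker : ℕ → (ℕ → ℂ) → Prop} (hK : KerClass s Ker) :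
    ∀ (c : Code) (j : ℕ), 1 ≤ j → Adm s j c →
    ∃ (ι κ : Type) (_ : Fintype ι) (_ : DecidableEq ι) (_ : Nonempty ι) (_ : Fintype κ)
      (A B : κ → Finset ι) (g : κ → ℕ → ℂ) (lev : κ → ℕ),
      Fintype.card ι = leaves c ∧ (∀ e, B e ⊆ A e) ∧ (∀ e, j ≤ lev e ∧ lev e ≤ s.h) ∧
      (∀ i, j ≤ i → (Finset.univ.filter (fun e => lev e = i)).card ≤ 4 ^ (i + 1 - j)) ∧
      (∀ e, Ker (lev e) (g e)) ∧ ∀ n : ℕ, Rep (n := n) (val c) A B g := by
  classical
  intro c
  induction c with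
  | nil =>
    intro j hj h
    refine ⟨Unit, Empty, inferInstance, inferInstance, inferInstance, inferInstance,
      fun _ => ∅, fun _ => ∅, fun _ _ => 0, fun _ => 0, ?_, ?_, ?_, ?_, ?_, ?_⟩
    · simp [leaves]
    · intro e; exact e.elim
    · intro e; exact e.elim
    · intro i _; simp
    · intro e; exact e.elim
    · intro n
      have := rep_leaf (n := n)
      intro M
      rw [val]
      exact this M
  | cons nd c ih =>
    intro j hj h
    obtain ⟨hk2, hk4, hτ, hρ, hf, hadm⟩ := h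
    have hjle : j + 1 ≤ s.h + 1 := Adm.le hadm
    obtain ⟨ι, κ, _, _, _, _, A, B, g, lev, hcard, hBA, hlev, hcnt, hg, hrep⟩ :=
      ih (j + 1) (by omega) hadm
    have hk0 : 0 < nd.k := by omega
    have : Nonempty (Fin nd.k) := ⟨⟨0, hk0⟩⟩
    refine ⟨Fin nd.k × ι, Fin nd.k ⊕ Fin nd.k × κ, inferInstance, inferInstance, inferInstance,
      inferInstance, nodeA nd.k A, nodeB nd.k B,
      nodeG nd.k nd.flag (fun a d => Complex.exp (-(nd.τ * (d : ℝ) ^ 2 / 2 : ℝ) +
        ((nd.ρ : ℂ) + Complex.I * nd.f a) * (d : ℂ))) g,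
      Sum.elim (fun _ => j) (fun ae => lev ae.2), ?_, ?_, ?_, ?_, ?_, ?_⟩
    · rw [Fintype.card_prod, Fintype.card_fin, hcard, leaves]
    · rintro (a | ⟨a, e⟩)
      · exact Finset.subset_univ _
      · exact Finset.map_subset_map.mpr (hBA e)
    · rintro (a | ⟨a, e⟩)
      · simp only [Sum.elim_inl]; omega
      · have := hlev e
        simp only [Sum.elim_inr]; omega
    · intro i hi
      have hfin : (Finset.univ.filter (fun e : Fin nd.k ⊕ Fin nd.k × κ =>
          Sum.elim (fun _ => j) (fun ae => lev ae.2) e = i)) ⊆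
          (Finset.univ.filter (fun _ : Fin nd.k => j = i)).disjSum
            (Finset.univ ×ˢ (Finset.univ.filter (fun e => lev e = i))) := by
        intro e he
        rw [Finset.mem_filter] at he
        rcases e with a | ⟨a, e⟩
        · rw [Finset.inl_mem_disjSum, Finset.mem_filter]
          exact ⟨Finset.mem_univ _, he.2⟩
        · rw [Finset.inr_mem_disjSum, Finset.mem_product, Finset.mem_filter]
          exact ⟨Finset.mem_univ _, Finset.mem_univ _, he.2⟩
      refine (Finset.card_le_card hfin).trans ?_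
      rw [Finset.card_disjSum, Finset.card_product, Finset.card_univ, Fintype.card_fin]
      by_cases hij : j = i
      · subst hij
        have h0 : (Finset.univ.filter (fun e => lev e = j)) = ∅ := by
          rw [Finset.filter_eq_empty_iff]
          intro e _
          have := (hlev e).1
          omega
        rw [h0]
        have h1 : (Finset.univ.filter (fun _ : Fin nd.k => j = j)).card ≤ nd.k := by
          refine (Finset.card_filter_le _ _).trans ?_
          simp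
        have h2 : j + 1 - j = 1 := by omega
        rw [h2, Finset.card_empty, mul_zero, add_zero, pow_one]
        exact h1.trans hk4
      · have h0 : (Finset.univ.filter (fun _ : Fin nd.k => j = i)) = ∅ := by
          rw [Finset.filter_eq_empty_iff]
          intro a _
          exact hij
        rw [h0, Finset.card_empty, zero_add]
        have h1 := hcnt i (by omega)
        have h2 : i + 1 - j = (i + 1 - (j + 1)) + 1 := by omega
        rw [h2, pow_succ, mul_comm (4 ^ _) 4]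
        exact Nat.mul_le_mul hk4 h1
    · rintro (a | ⟨a, e⟩)
      · simp only [Sum.elim_inl, nodeG]
        rw [hτ]
        exact hK.child j hj (by omega) nd.ρ (nd.f a) hρ (hf a)
      · simp only [Sum.elim_inr, nodeG]
        exact hK.cjn (hg e) _
    · intro n
      have h1 := rep_node hk0 (hrep n) nd.flag (fun a d => Complex.exp (-(nd.τ * (d : ℝ) ^ 2 / 2 : ℝ) +
        ((nd.ρ : ℂ) + Complex.I * nd.f a) * (d : ℂ)))
      intro M
      rw [← h1 M, val]

/-- skeleton representation of the top-level products -/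
theorem top_rep {s : Sched} {Ker : ℕ → (ℕ → ℂ) → Prop} (hK : KerClass s Ker) {c : Code}
    (hc : Adm s 1 c) {k : ℕ} (hk1 : 1 ≤ k) (hk4 : k ≤ 4) (flag : Fin k → Bool) (E : Fin k → ℕ → ℂ)
    (hE : ∀ a, Ker 0 (E a)) :
    ∃ (ι κ : Type) (_ : Fintype ι) (_ : DecidableEq ι) (_ : Nonempty ι) (_ : Fintype κ)
      (A B : κ → Finset ι) (g : κ → ℕ → ℂ) (lev : κ → ℕ),
      Fintype.card ι ≤ 4 ^ (s.h + 1) ∧ (∀ e, B e ⊆ A e) ∧ (∀ e, lev e ≤ s.h) ∧
      (∀ i, (Finset.univ.filter (fun e => lev e = i)).card ≤ 4 ^ (i + 1)) ∧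
      (∀ e, Ker (lev e) (g e)) ∧
      ∀ n : ℕ, ∏ a : Fin k, cj (flag a) (∑ u ∈ Finset.range n, E a u • (val c u : R n)) =
        skel A B g := by
  classical
  obtain ⟨ι, κ, _, _, _, _, A, B, g, lev, hcard, hBA, hlev, hcnt, hg, hrep⟩ :=
    code_rep hK c 1 le_rfl hc
  have : Nonempty (Fin k) := ⟨⟨0, hk1⟩⟩
  refine ⟨Fin k × ι, Fin k ⊕ Fin k × κ, inferInstance, inferInstance, inferInstance,
    inferInstance, rootA k A, rootB k B, nodeG k flag (fun a u => cjn (flag a) (E a u)) g,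
    Sum.elim (fun _ => 0) (fun ae => lev ae.2), ?_, ?_, ?_, ?_, ?_, ?_⟩
  · rw [Fintype.card_prod, Fintype.card_fin, hcard]
    have := Adm.leaves_le hc
    rw [Nat.add_sub_cancel] at this
    calc k * leaves c ≤ 4 * 4 ^ s.h := Nat.mul_le_mul hk4 this
      _ = _ := by ring
  · rintro (a | ⟨a, e⟩)
    · exact Finset.empty_subset _
    · exact Finset.map_subset_map.mpr (hBA e)
  · rintro (a | ⟨a, e⟩)
    · simp only [Sum.elim_inl]; omega
    · have := hlev e
      simp only [Sum.elim_inr]; omega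
  · intro i
    have hfin : (Finset.univ.filter (fun e : Fin k ⊕ Fin k × κ =>
        Sum.elim (fun _ => 0) (fun ae => lev ae.2) e = i)) ⊆
        (Finset.univ.filter (fun _ : Fin k => 0 = i)).disjSum
          (Finset.univ ×ˢ (Finset.univ.filter (fun e => lev e = i))) := by
      intro e he
      rw [Finset.mem_filter] at he
      rcases e with a | ⟨a, e⟩
      · rw [Finset.inl_mem_disjSum, Finset.mem_filter]
        exact ⟨Finset.mem_univ _, he.2⟩
      · rw [Finset.inr_mem_disjSum, Finset.mem_product, Finset.mem_filter]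
        exact ⟨Finset.mem_univ _, Finset.mem_univ _, he.2⟩
    refine (Finset.card_le_card hfin).trans ?_
    rw [Finset.card_disjSum, Finset.card_product, Finset.card_univ, Fintype.card_fin]
    by_cases hij : 0 = i
    · subst hij
      have h0 : (Finset.univ.filter (fun e => lev e = 0)) = ∅ := by
        rw [Finset.filter_eq_empty_iff]
        intro e _
        have := (hlev e).1
        omega
      rw [h0]
      have h1 : (Finset.univ.filter (fun _ : Fin k => 0 = 0)).card ≤ k := by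
        refine (Finset.card_filter_le _ _).trans ?_
        simp
      rw [Finset.card_empty, mul_zero, add_zero, zero_add, pow_one]
      exact h1.trans hk4
    · have h0 : (Finset.univ.filter (fun _ : Fin k => 0 = i)) = ∅ := by
        rw [Finset.filter_eq_empty_iff]
        intro a _
        exact hij
      rw [h0, Finset.card_empty, zero_add]
      have h1 := hcnt i (by omega)
      rw [Nat.add_sub_cancel] at h1
      rw [pow_succ, mul_comm (4 ^ _) 4]
      exact Nat.mul_le_mul hk4 h1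
  · rintro (a | ⟨a, e⟩)
    · simp only [Sum.elim_inl, nodeG]
      exact hK.cjn (hE a) _
    · simp only [Sum.elim_inr, nodeG]
      exact hK.cjn (hg e) _
  · intro n
    exact skel_root (hrep n) flag E

end Crest.Agent.R300U
end

-- ▼ part R300/U/Access
section
/-!
Row 300: AccessStatement (owner helper862).
-/
set_option autoImplicit false

namespace Crest.Agent.R300U

open scoped BigOperators
open MeasureTheory

theorem Bd_Pure {n l D : ℕ} (hl : l ≤ D) (ζ : Fin l → ℂ) : ∃ c, Bd D c (Pure ζ : R n) := by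
  have key : ∀ u : Fin l → ℕ, Bd D (‖∏ j : Fin l,
      ζ j ^ (if h : (j : ℕ) = 0 then u j else u j - u ⟨j - 1, by omega⟩ - 1)‖ * ∏ _j : Fin l, (1 : ℝ))
      ((∏ j : Fin l, ζ j ^ (if h : (j : ℕ) = 0 then u j else u j - u ⟨j - 1, by omega⟩ - 1)) •
        ∏ j : Fin l, (xv (u j) : R n)) := by
    intro u
    have h := Bd.prod (Finset.univ : Finset (Fin l)) (fun _ => 1) (fun _ => 1)
      (fun j => (xv (u j) : R n)) (fun j _ => Bd.xv _ le_rfl)
    exact (h.mono_deg (by simpa using hl)).smul _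
  exact ⟨_, Bd.sum _ _ _ (fun u _ => key u)⟩

/-- exponential skeletons are known -/
theorem skel_exp_pure_known {n D : ℕ} (E : PE n D) (x : Fin n → Bool) {q b : ℝ} {K : ℕ}
    (hKD : K ≤ D) (hPK : PureKnown E x (1 - q) K (Real.exp (-b)))
    {ι κ : Type} [Fintype ι] [DecidableEq ι] [Fintype κ]
    (A B : κ → Finset ι) (hAB : ∀ e, B e ⊆ A e) (bb : κ → ℂ) (hb : ∀ e, 0 ≤ (bb e).re)
    (hZ : ∀ T : Finset κ, ‖Complex.exp (-∑ e ∈ T, bb e) - q‖ ≤ 1 - q)
    (hι : Fintype.card ι ≤ K) :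
    (∃ c, Bd D c (skel A B (fun e d => Complex.exp (-(bb e * d))) : R n)) ∧
    E.N (dev x (skel A B (fun e d => Complex.exp (-(bb e * d))))) ≤
      (K : ℝ) ^ K * Real.exp (-b) := by
  obtain ⟨J, _, l, c, ζ, hJ, hl, hc, hζ, hskel⟩ := skel_exp (n := n) A B hAB bb hb
    {z : ℂ | ‖z - q‖ ≤ 1 - q} hZ
  have hlD : ∀ s, l s ≤ D := fun s => ((hl s).trans hι).trans hKD
  choose cc hcc using fun s => Bd_Pure (n := n) (hlD s) (ζ s)
  rw [hskel]
  refine ⟨⟨_, Bd.sum _ _ _ (fun s _ => (hcc s).smul (c s))⟩, ?_⟩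
  rw [dev_sum]
  refine (E.N_sum_le _ _ _ (fun s _ => ((hcc s).smul (c s)).dev x)).trans ?_
  have h1 : ∀ s ∈ Finset.univ, E.N (dev x (c s • (Pure (ζ s) : R n))) ≤ Real.exp (-b) := by
    intro s _
    rw [dev_smul, E.N_smul]
    have h2 : E.N (dev x (Pure (ζ s))) ≤ Real.exp (-b) := by
      apply hPK (l s) ((hl s).trans hι) (ζ s)
      intro j
      have h3 : ‖ζ s j - q‖ ≤ 1 - q := hζ s j
      have h4 : ((1 - (1 - q) : ℝ) : ℂ) = (q : ℂ) := by push_cast; ring
      rw [h4]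
      exact h3
    calc ‖c s‖ * E.N (dev x (Pure (ζ s))) ≤ 1 * Real.exp (-b) :=
          mul_le_mul (hc s) h2 (E.N_nonneg _) zero_le_one
      _ = _ := one_mul _
  refine (Finset.sum_le_card_nsmul _ _ _ h1).trans ?_
  rw [nsmul_eq_mul]
  apply mul_le_mul_of_nonneg_right _ (Real.exp_pos _).le
  have h2 : Fintype.card ι ^ Fintype.card ι ≤ K ^ K := by
    rcases Nat.eq_zero_or_pos (Fintype.card ι) with h0 | h0
    · rw [h0, pow_zero]
      rcases Nat.eq_zero_or_pos K with h1 | h1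
      · rw [h1, pow_zero]
      · exact Nat.one_le_pow _ _ h1
    · calc Fintype.card ι ^ Fintype.card ι ≤ K ^ Fintype.card ι := Nat.pow_le_pow_left hι _
        _ ≤ K ^ K := Nat.pow_le_pow_right (h0.trans_le hι) hι
  have h3 : (Finset.univ : Finset J).card ≤ K ^ K := by
    rw [Finset.card_univ]
    exact hJ.trans h2
  exact_mod_cast h3

/-- superposition: skeletons whose kernels are superpositions of exponentials -/
theorem skel_superpose {n D : ℕ} (E : PE n D) (x : Fin n → Bool) {ι κ : Type} [Fintype ι]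
    [DecidableEq ι] [Fintype κ] (A B : κ → Finset ι) (g : κ → ℕ → ℂ) (β φ mass : κ → ℝ)
    (hg : ∀ e, KerRep (g e) (β e) (φ e) (mass e)) (hβ : ∀ e, 0 ≤ β e) {G : ℝ}
    (hexp : ∀ bb : κ → ℂ, (∀ e, ∃ y : ℝ, β e + |y| / 4 ≤ (bb e).re ∧ (bb e).im = y + φ e) →
      (∃ c, Bd D c (skel A B (fun e d => Complex.exp (-(bb e * d))) : R n)) ∧
      E.N (dev x (skel A B (fun e d => Complex.exp (-(bb e * d))))) ≤ G) :
    E.N (dev x (skel A B g)) ≤ (∏ e, mass e) * G := by
  classical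
  choose w hw hm a ha hab hrep using hg
  -- the family of exponents
  set bb : (κ → ℝ) → κ → ℂ := fun y e => ((a e (y e) : ℝ) : ℂ) + Complex.I * ((y e + φ e : ℝ) : ℂ)
    with hbb
  have hbre : ∀ y e, (bb y e).re = a e (y e) := by
    intro y e
    simp [hbb]
  have hbim : ∀ y e, (bb y e).im = y e + φ e := by
    intro y e
    simp [hbb]
  have hknown := fun y => hexp (bb y) (fun e => ⟨y e, by rw [hbre]; exact hab e (y e), hbim y e⟩)
  have hG0 : 0 ≤ G := (E.N_nonneg _).trans (hknown 0).2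
  -- the integrand
  set F : (κ → ℝ) → R n := fun y => (∏ e, w e (y e)) •
    skel A B (fun e d => Complex.exp (-(bb y e * d))) with hF
  -- expansion of the integrand
  have hF2 : ∀ y, F y = ∑ p : ι → Fin n, (∏ e, (w e (y e) *
      Complex.exp (-(((a e (y e) : ℝ) : ℂ) + Complex.I * ((y e + φ e : ℝ) : ℂ)) *
        ((loc (A e) p - loc (B e) p : ℕ) : ℂ)))) • ∏ i, (xv (p i : ℕ) : R n) := by
    intro y
    rw [hF]
    simp only [skel]
    rw [Finset.smul_sum]
    refine Finset.sum_congr rfl (fun p _ => ?_)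
    rw [smul_smul, ← Finset.prod_mul_distrib]
    congr 1
    refine Finset.prod_congr rfl (fun e _ => ?_)
    rw [hbb, neg_mul]
  -- integrability of the one-dimensional factors
  have hint1 : ∀ e (d : ℕ), Integrable (fun y : ℝ => w e y *
      Complex.exp (-(((a e y : ℝ) : ℂ) + Complex.I * ((y + φ e : ℝ) : ℂ)) * (d : ℂ))) := by
    intro e d
    refine Integrable.mul_bdd (c := 1) (hw e) ?_ ?_
    · have h1 : Measurable (fun y : ℝ => ((a e y : ℝ) : ℂ)) :=
        Complex.measurable_ofReal.comp (ha e)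
      have h2 : Measurable (fun y : ℝ => ((y + φ e : ℝ) : ℂ)) :=
        Complex.measurable_ofReal.comp (measurable_id.add_const _)
      have h3 : Measurable (fun y : ℝ => Complex.exp (-(((a e y : ℝ) : ℂ) +
          Complex.I * ((y + φ e : ℝ) : ℂ)) * (d : ℂ))) :=
        Complex.measurable_exp.comp (((h1.add (h2.const_mul _)).neg).mul_const _)
      exact h3.aestronglyMeasurable
    · refine Filter.Eventually.of_forall (fun y => ?_)
      rw [Complex.norm_exp]
      apply Real.exp_le_one_iff.mpr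
      have e1 : (-(((a e y : ℝ) : ℂ) + Complex.I * ((y + φ e : ℝ) : ℂ)) * (d : ℂ)).re =
          -(a e y) * d := by
        have : (-(((a e y : ℝ) : ℂ) + Complex.I * ((y + φ e : ℝ) : ℂ)) * (d : ℂ)) =
          ((-(a e y) * d : ℝ) : ℂ) + ((-(y + φ e) * d : ℝ) : ℂ) * Complex.I := by
          push_cast; ring
        rw [this, Complex.add_re, Complex.ofReal_re, Complex.re_ofReal_mul]
        simp
      rw [e1]
      have h2 : 0 ≤ a e y := le_trans (add_nonneg (hβ e) (by positivity)) (hab e y)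
      have h3 : (0 : ℝ) ≤ d := Nat.cast_nonneg d
      nlinarith
  have hint2 : ∀ p : ι → Fin n, Integrable (fun y : κ → ℝ => (∏ e, (w e (y e) *
      Complex.exp (-(((a e (y e) : ℝ) : ℂ) + Complex.I * ((y e + φ e : ℝ) : ℂ)) *
        ((loc (A e) p - loc (B e) p : ℕ) : ℂ)))) • ∏ i, (xv (p i : ℕ) : R n)) := by
    intro p
    have h := Integrable.fintype_prod (𝕜 := ℂ) (μ := fun _ : κ => (volume : Measure ℝ))
      (f := fun e (y : ℝ) => w e y * Complex.exp (-(((a e y : ℝ) : ℂ) +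
        Complex.I * ((y + φ e : ℝ) : ℂ)) * ((loc (A e) p - loc (B e) p : ℕ) : ℂ)))
      (fun e => hint1 e _)
    exact h.smul_const _
  have hFint : Integrable F := by
    have : F = fun y => ∑ p : ι → Fin n, (∏ e, (w e (y e) *
      Complex.exp (-(((a e (y e) : ℝ) : ℂ) + Complex.I * ((y e + φ e : ℝ) : ℂ)) *
        ((loc (A e) p - loc (B e) p : ℕ) : ℂ)))) • ∏ i, (xv (p i : ℕ) : R n) := by
      funext y; exact hF2 y
    rw [this]
    exact integrable_finsetSum _ (fun p _ => hint2 p)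
  have hFval : ∫ y, F y = (skel A B g : R n) := by
    have e1 : ∫ y, F y = ∫ y : κ → ℝ, ∑ p : ι → Fin n, (∏ e, (w e (y e) *
      Complex.exp (-(((a e (y e) : ℝ) : ℂ) + Complex.I * ((y e + φ e : ℝ) : ℂ)) *
        ((loc (A e) p - loc (B e) p : ℕ) : ℂ)))) • ∏ i, (xv (p i : ℕ) : R n) := by
      congr 1; funext y; exact hF2 y
    rw [e1, integral_finsetSum _ (fun p _ => hint2 p)]
    unfold skel
    refine Finset.sum_congr rfl (fun p _ => ?_)
    rw [integral_smul_const]
    congr 1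
    rw [integral_fintype_prod_volume_eq_prod (fun e (y : ℝ) => w e y *
      Complex.exp (-(((a e y : ℝ) : ℂ) +
        Complex.I * ((y + φ e : ℝ) : ℂ)) * ((loc (A e) p - loc (B e) p : ℕ) : ℂ)))]
    refine Finset.prod_congr rfl (fun e _ => ?_)
    rw [hrep e]
  rw [← hFval, dev_integral x hFint]
  have hdevint : Integrable (fun y => dev x (F y)) := by
    have h1 : ∀ P : R n, dev x P = P - cst (P x) := fun P => rfl
    simp only [h1]
    refine hFint.sub ?_
    have h2 : ∀ z : ℂ, (cst z : R n) = z • 1 := fun z => cst_eq_smul z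
    simp only [h2]
    refine Integrable.smul_const ?_ _
    exact (ContinuousLinearMap.proj (R := ℂ) x : (R n) →L[ℂ] ℂ).integrable_comp hFint
  have hgint : Integrable (fun y : κ → ℝ => (∏ e, ‖w e (y e)‖) * G) := by
    have h := Integrable.fintype_prod (𝕜 := ℝ) (μ := fun _ : κ => (volume : Measure ℝ))
      (f := fun e (y : ℝ) => ‖w e y‖) (fun e => (hw e).norm)
    exact h.mul_const G
  refine (E.N_integral_le hdevint ?_ hgint (Filter.Eventually.of_forall ?_)).trans ?_
  · intro y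
    obtain ⟨⟨c, hc⟩, _⟩ := hknown y
    exact ⟨_, (hc.smul (∏ e, w e (y e))).dev x⟩
  · intro y
    show E.N (dev x (F y)) ≤ _
    rw [hF, dev_smul, E.N_smul, norm_prod]
    exact mul_le_mul_of_nonneg_left (hknown y).2 (Finset.prod_nonneg fun _ _ => norm_nonneg _)
  · rw [integral_mul_const]
    apply mul_le_mul_of_nonneg_right _ hG0
    rw [integral_fintype_prod_volume_eq_prod (fun e (y : ℝ) => ‖w e y‖)]
    exact Finset.prod_le_prod (fun e _ => integral_nonneg fun _ => norm_nonneg _)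
      (fun e _ => hm e)

/-- log-mass per edge -/
noncomputable def lmass (s : Sched) (n : ℕ) (j : ℕ) : ℝ :=
  1 + 2 * s.β j ^ 2 / s.τ j + 600 * s.A j + if j = 0 then s.β 0 * n + n ^ 2 * s.τ 0 else 0

/-- the kernel class used in the access theorem -/
def AKer (s : Sched) (n : ℕ) (j : ℕ) (g : ℕ → ℂ) : Prop :=
  ∃ φ : ℝ, |φ| ≤ 2 * s.r j ∧ KerRep g (s.β j) φ (Real.exp (lmass s n j))

theorem KerRep.mono {g : ℕ → ℂ} {β φ m m' : ℝ} (h : KerRep g β φ m) (hm : m ≤ m') :
    KerRep g β φ m' := by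
  obtain ⟨w, h1, h2, h3⟩ := h
  exact ⟨w, h1, h2.trans hm, h3⟩

theorem two_le_exp_one : (2 : ℝ) ≤ Real.exp 1 := by
  have := Real.add_one_le_exp (1 : ℝ)
  linarith

theorem aker_class (s : Sched) (n : ℕ)
    (hs : ∀ j ≤ s.h, 0 < s.τ j ∧ 1 ≤ s.A j ∧ 0 ≤ s.β j ∧ 0 ≤ s.r j) : KerClass s (AKer s n) := by
  constructor
  · rintro j g ⟨φ, h1, h2⟩
    exact ⟨-φ, by rwa [abs_neg], h2.conj⟩
  · intro j hj1 hjh ρ f hρ hf
    obtain ⟨hτ, hA, hβ, hr⟩ := hs j hjh
    refine ⟨-f, by rwa [abs_neg], (kerRep_child hτ ρ f).mono ?_⟩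
    have h1 : (s.β j + max ρ 0) ^ 2 / s.τ j ≤ 2 * s.β j ^ 2 / s.τ j + 600 * s.A j := by
      have h2 : max ρ 0 ≤ 12 * Real.sqrt (2 * s.A j * s.τ j) :=
        max_le hρ (by positivity)
      have h3 : (max ρ 0) ^ 2 ≤ 144 * (2 * s.A j * s.τ j) := by
        have h4 : (max ρ 0) ^ 2 ≤ (12 * Real.sqrt (2 * s.A j * s.τ j)) ^ 2 :=
          pow_le_pow_left₀ (le_max_right _ _) h2 2
        rw [mul_pow, Real.sq_sqrt (by positivity)] at h4
        linarith
      rw [div_add' _ _ _ hτ.ne', div_le_div_iff_of_pos_right hτ]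
      have h5 : 0 ≤ s.A j * s.τ j := by positivity
      nlinarith [sq_nonneg (s.β j - max ρ 0)]
    have h6 : lmass s n j = 1 + (2 * s.β j ^ 2 / s.τ j + 600 * s.A j) := by
      unfold lmass
      rw [if_neg (by omega)]
      ring
    rw [h6, Real.exp_add 1]
    exact mul_le_mul two_le_exp_one (Real.exp_le_exp.mpr h1) (Real.exp_pos _).le
      (Real.exp_pos _).le

theorem aker_root (s : Sched) {n t : ℕ} (ht : t ≤ n)
    (hs : 0 < s.τ 0 ∧ 1 ≤ s.A 0 ∧ 0 ≤ s.β 0 ∧ 0 ≤ s.r 0) {ν : ℝ} (hν : |ν| ≤ s.r 0) :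
    AKer s n 0 (fun u : ℕ => Complex.exp (-(s.τ 0 * ((u : ℝ) - t) ^ 2 / 2 : ℝ) +
      Complex.I * ν * ((u : ℂ) - t))) := by
  obtain ⟨hτ, hA, hβ, hr⟩ := hs
  refine ⟨-ν, by rw [abs_neg]; linarith, (kerRep_root hτ hβ ν ht).mono ?_⟩
  have h6 : lmass s n 0 = 1 + (2 * s.β 0 ^ 2 / s.τ 0 + s.β 0 * n + n ^ 2 * s.τ 0 + 600 * s.A 0) := by
    unfold lmass
    rw [if_pos rfl]
    ring
  rw [h6, Real.exp_add 1]
  refine mul_le_mul two_le_exp_one (Real.exp_le_exp.mpr ?_) (Real.exp_pos _).le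
      (Real.exp_pos _).le
  linarith

/-- level counting of sums over edges -/
theorem sum_lev_le {κ : Type} [Fintype κ] (h : ℕ) (lev : κ → ℕ) (hlev : ∀ e, lev e ≤ h)
    (hcnt : ∀ i, (Finset.univ.filter (fun e => lev e = i)).card ≤ 4 ^ (i + 1)) (M : ℕ → ℝ)
    (hM : ∀ i ≤ h, 0 ≤ M i) :
    ∑ e, M (lev e) ≤ ∑ i ∈ Finset.range (h + 1), (4 : ℝ) ^ (i + 1) * M i := by
  classical
  rw [← Finset.sum_fiberwise_of_maps_to (s := Finset.univ) (t := Finset.range (h + 1)) (g := lev)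
    (fun e _ => Finset.mem_range.mpr (Nat.lt_succ_of_le (hlev e)))]
  refine Finset.sum_le_sum (fun i hi => ?_)
  have h1 : ∑ e ∈ Finset.univ.filter (fun e => lev e = i), M (lev e) =
      ∑ e ∈ Finset.univ.filter (fun e => lev e = i), M i := by
    refine Finset.sum_congr rfl (fun e he => ?_)
    rw [(Finset.mem_filter.mp he).2]
  rw [h1, Finset.sum_const, nsmul_eq_mul]
  apply mul_le_mul_of_nonneg_right _ (hM i (by rw [Finset.mem_range] at hi; omega))
  exact_mod_cast hcnt i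

theorem access : AccessStatement := by
  intro n D E x t q s c b hq0 hq ht hD hs hadm hPK hcost k hk2 hk4 flag ν hν _
  have hs' : ∀ j ≤ s.h, 0 < s.τ j ∧ 1 ≤ s.A j ∧ 0 ≤ s.β j ∧ 0 ≤ s.r j := fun j hj =>
    ⟨(hs j hj).1, (hs j hj).2.1, (hs j hj).2.2.1, (hs j hj).2.2.2.1⟩
  obtain ⟨ι, κ, _, _, _, _, A, B, g, lev, hcard, hBA, hlev, hcnt, hg, hrep⟩ :=
    top_rep (aker_class s n hs') hadm (by omega) hk4 flag
      (fun a u => Complex.exp (-(s.τ 0 * ((u : ℝ) - t) ^ 2 / 2 : ℝ) +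
        Complex.I * (ν a) * ((u : ℂ) - t)))
      (fun a => aker_root s ht (hs' 0 (Nat.zero_le _)) (hν a))
  have hPr : (Pr c t (s.τ 0) flag ν : R n) = skel A B g := hrep n
  rw [hPr]
  choose φ hφ hker using hg
  have hnn : ∀ i ≤ s.h, 0 ≤ lmass s n i := by
    intro i hi
    obtain ⟨h1, h2, h3, h4⟩ := hs' i hi
    have h5 : 0 ≤ (if i = 0 then s.β 0 * n + n ^ 2 * s.τ 0 else 0 : ℝ) := by
      split_ifs with h0
      · subst h0; positivity
      · exact le_rfl
    unfold lmass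
    have : 0 ≤ 2 * s.β i ^ 2 / s.τ i := by positivity
    linarith
  have hKD : 4 ^ (s.h + 1) ≤ D := by omega
  have hexp : ∀ bb : κ → ℂ, (∀ e, ∃ y : ℝ, s.β (lev e) + |y| / 4 ≤ (bb e).re ∧
      (bb e).im = y + φ e) →
      (∃ c, Bd D c (skel A B (fun e d => Complex.exp (-(bb e * d))) : R n)) ∧
      E.N (dev x (skel A B (fun e d => Complex.exp (-(bb e * d))))) ≤
        ((4 ^ (s.h + 1) : ℕ) : ℝ) ^ (4 ^ (s.h + 1)) * Real.exp (-b) := by
    intro bb hbb
    apply skel_exp_pure_known E x hKD hPK A B hBA bb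
    · intro e
      obtain ⟨y, h1, h2⟩ := hbb e
      have := (hs' (lev e) (hlev e)).2.2.1
      have h3 := abs_nonneg y
      linarith
    · intro T
      have h1 := prod_exp_mem_disc T hq0.le (by linarith : q ≤ 1 / 8)
        (fun e => ((s.h : ℝ) + 1) * 4 ^ (lev e + 1)) bb (fun e _ => by positivity) ?_ ?_
      · rw [← Complex.exp_sum, Finset.sum_neg_distrib] at h1
        exact h1
      · calc ∑ e ∈ T, 1 / (((s.h : ℝ) + 1) * 4 ^ (lev e + 1))
            ≤ ∑ e, 1 / (((s.h : ℝ) + 1) * 4 ^ (lev e + 1)) :=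
              Finset.sum_le_sum_of_subset_of_nonneg (Finset.subset_univ _)
                (fun e _ _ => by positivity)
          _ ≤ ∑ i ∈ Finset.range (s.h + 1), (4 : ℝ) ^ (i + 1) *
                (1 / (((s.h : ℝ) + 1) * 4 ^ (i + 1))) :=
              sum_lev_le s.h lev hlev hcnt (fun i => 1 / (((s.h : ℝ) + 1) * 4 ^ (i + 1)))
                (fun i _ => by positivity)
          _ = ∑ i ∈ Finset.range (s.h + 1), 1 / ((s.h : ℝ) + 1) := by
              refine Finset.sum_congr rfl (fun i _ => ?_)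
              field_simp
          _ = 1 := by
              rw [Finset.sum_const, Finset.card_range, nsmul_eq_mul]
              push_cast
              field_simp
          _ ≤ 1 := le_rfl
      · intro e _
        obtain ⟨y, h1, h2⟩ := hbb e
        obtain ⟨U, V, h3, h4⟩ := edge_rule (y := y) (f := -φ e) hq0.le hq
          (lam := ((s.h : ℝ) + 1) * 4 ^ (lev e + 1)) (by positivity)
          (by rw [abs_neg]; exact hφ e) (hs (lev e) (hlev e)).2.2.2.2
        exact ⟨U, V, by rw [h3, h2]; ring, h4.trans h1⟩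
    · exact hcard
  have h1 := skel_superpose E x A B g (fun e => s.β (lev e)) φ
    (fun e => Real.exp (lmass s n (lev e))) hker
    (fun e => (hs' (lev e) (hlev e)).2.2.1) hexp
  refine h1.trans ?_
  -- the masses
  rw [← Real.exp_sum]
  have h2 := sum_lev_le s.h lev hlev hcnt (lmass s n) hnn
  have h3 : ∑ i ∈ Finset.range (s.h + 1), (4 : ℝ) ^ (i + 1) * lmass s n i ≤
      4 * (s.β 0 * n + n ^ 2 * s.τ 0) + ∑ j ∈ Finset.range (s.h + 1), (4 : ℝ) ^ (j + 1) *
      (2 + 2 * s.β j ^ 2 / s.τ j + 600 * s.A j) := by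
    have h4 : ∀ i, (4 : ℝ) ^ (i + 1) * lmass s n i =
        (4 : ℝ) ^ (i + 1) * (if i = 0 then s.β 0 * n + n ^ 2 * s.τ 0 else 0) +
        (4 : ℝ) ^ (i + 1) * (1 + 2 * s.β i ^ 2 / s.τ i + 600 * s.A i) := by
      intro i; unfold lmass; ring
    simp only [h4]
    rw [Finset.sum_add_distrib]
    apply add_le_add
    · rw [Finset.sum_eq_single 0]
      · simp
      · intro i _ hi
        rw [if_neg hi, mul_zero]
      · intro h
        exact absurd (Finset.mem_range.mpr (by omega)) h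
    · refine Finset.sum_le_sum (fun i _ => ?_)
      apply mul_le_mul_of_nonneg_left _ (by positivity)
      linarith
  have hcodes : ∀ (c : Code) (j : ℕ), Adm s j c → 1 ≤ j → ∀ nd ∈ c, 0 < nd.τ ∧ 1 ≤ nd.k := by
    intro c
    induction c with
    | nil => intro j _ _ nd hnd; cases hnd
    | cons nd' c ih =>
      intro j hj hj1 nd hnd
      obtain ⟨a1, a2, a3, a4, a5, a6⟩ := hj
      have hle := Adm.le a6
      rcases List.mem_cons.mp hnd with h | h
      · subst h
        refine ⟨?_, by omega⟩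
        rw [a3]
        exact (hs' j (by omega)).1
      · exact ih (j + 1) a6 (by omega) nd h
  have h5 : 1 ≤ nrm c := one_le_nrm (hcodes c 1 hadm le_rfl)
  have h6 : 1 ≤ (nrm c * Wt (s.τ 0)) ^ k := by
    apply one_le_pow₀
    calc (1 : ℝ) = 1 * 1 := (one_mul 1).symm
      _ ≤ nrm c * Wt (s.τ 0) := mul_le_mul h5 one_le_Wt zero_le_one (by linarith)
  have h7 : ((4 ^ (s.h + 1) : ℕ) : ℝ) ^ (4 ^ (s.h + 1)) =
      Real.exp ((4 : ℝ) ^ (s.h + 1) * Real.log ((4 : ℝ) ^ (s.h + 1))) := by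
    rw [mul_comm, Real.exp_mul, Real.exp_log (by positivity)]
    push_cast
    rw [← Real.rpow_natCast]
    push_cast
    rfl
  have h8 : ∑ j ∈ Finset.range (s.h + 1), (4 : ℝ) ^ (j + 1) *
      (2 + 2 * s.β j ^ 2 / s.τ j + 600 * s.A j) ≤ ∑ j ∈ Finset.range (s.h + 1), (4 : ℝ) ^ (j + 1) *
      (10 + 2 * s.β j ^ 2 / s.τ j + 600 * s.A j + 10 * |Real.log (s.τ j)|) := by
    refine Finset.sum_le_sum (fun i _ => ?_)
    apply mul_le_mul_of_nonneg_left _ (by positivity)
    have := abs_nonneg (Real.log (s.τ i))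
    linarith
  have h9 : (4 : ℝ) ^ (s.h + 1) * Real.log ((4 : ℝ) ^ (s.h + 1)) ≤
      100 * ((s.h : ℝ) + 1) * (4 : ℝ) ^ (s.h + 1) := by
    rw [Real.log_pow, mul_comm]
    apply mul_le_mul_of_nonneg_right _ (by positivity)
    have h10 : Real.log 4 ≤ 4 - 1 := Real.log_le_sub_one_of_pos (by norm_num)
    push_cast
    have h11 : (0 : ℝ) ≤ (s.h : ℝ) + 1 := by positivity
    nlinarith
  rw [h7, ← Real.exp_add, ← Real.exp_add]
  calc Real.exp _ ≤ Real.exp (-s.A 0) * 1 := by
        rw [mul_one]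
        apply Real.exp_le_exp.mpr
        unfold Sched.cost at hcost
        linarith
    _ ≤ _ := mul_le_mul_of_nonneg_left h6 (Real.exp_pos _).le

end Crest.Agent.R300U
end

-- ▼ part R300/U/PodB
section

/-!
Row 300, upper bound: disc geometry and three lines for `PureOfDataStatement` (owner helper899).
-/
set_option autoImplicit false

namespace Crest.Agent.R300U

open Complex Set

theorem pod_disc {p : ℝ} (hp : 0 < p) {v : ℂ} (hv : v ≠ 0) :
    ‖(1 - v⁻¹) - ((1 - p : ℝ) : ℂ)‖ ≤ p ↔ 1 / (2 * p) ≤ v.re := by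
  have hv2 : 0 < normSq v := normSq_pos.2 hv
  have e1 : (1 - v⁻¹) - ((1 - p : ℝ) : ℂ) = (p * v - 1) / v := by
    push_cast
    field_simp
    ring
  rw [e1, norm_div, div_le_iff₀ (norm_pos_iff.2 hv)]
  have h1 : ‖(p : ℂ) * v - 1‖ ^ 2 = p ^ 2 * normSq v - 2 * p * v.re + 1 := by
    rw [← normSq_eq_norm_sq, normSq_apply, normSq_apply]
    simp only [sub_re, mul_re, ofReal_re, ofReal_im, one_re, sub_im, mul_im, one_im]
    ring
  have h2 : (p * ‖v‖) ^ 2 = p ^ 2 * normSq v := by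
    rw [mul_pow, normSq_eq_norm_sq]
  rw [← sq_le_sq₀ (norm_nonneg _) (by positivity), h1, h2, div_le_iff₀ (by positivity)]
  constructor <;> intro h <;> nlinarith

/-- the deformation of the disc parameters. -/
noncomputable def podZ {l : ℕ} (ζ : Fin l → ℂ) (w : ℂ) (j : Fin l) : ℂ :=
  open Classical in if ζ j = 1 then 1 else 1 - ((1 - ζ j)⁻¹ + w)⁻¹

theorem podZ_zero {l : ℕ} (ζ : Fin l → ℂ) : podZ ζ 0 = ζ := by
  funext j
  unfold podZ
  by_cases h : ζ j = 1
  · rw [if_pos h, h]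
  · rw [if_neg h, add_zero, inv_inv]
    ring

section

variable {l : ℕ} {ζ : Fin l → ℂ} {p p' : ℝ}

theorem pod_W_re (hp' : 0 < p') (hζ : ∀ j, ‖ζ j - ((1 - p' : ℝ) : ℂ)‖ ≤ p') {j : Fin l}
    (hj : ζ j ≠ 1) : 1 / (2 * p') ≤ ((1 - ζ j)⁻¹).re := by
  have h1 : (1 - ζ j)⁻¹ ≠ 0 := inv_ne_zero (sub_ne_zero.2 (Ne.symm hj))
  rw [← pod_disc hp' h1, inv_inv]
  have e : 1 - (1 - ζ j) = ζ j := by ring
  rw [e]
  exact hζ j

theorem pod_Ww_re (hp' : 0 < p') (hζ : ∀ j, ‖ζ j - ((1 - p' : ℝ) : ℂ)‖ ≤ p') {j : Fin l}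
    (hj : ζ j ≠ 1) {w : ℂ} (hw : -(1 / (2 * p') - 1 / 2) ≤ w.re) :
    1 / 2 ≤ ((1 - ζ j)⁻¹ + w).re := by
  have := pod_W_re hp' hζ hj
  rw [add_re]
  linarith

theorem pod_ne (hp' : 0 < p') (hζ : ∀ j, ‖ζ j - ((1 - p' : ℝ) : ℂ)‖ ≤ p') {j : Fin l}
    (hj : ζ j ≠ 1) {w : ℂ} (hw : -(1 / (2 * p') - 1 / 2) ≤ w.re) :
    (1 - ζ j)⁻¹ + w ≠ 0 := by
  intro h
  have h1 := pod_Ww_re hp' hζ hj hw
  rw [h] at h1
  norm_num at h1

theorem podZ_norm_le (hp' : 0 < p') (hζ : ∀ j, ‖ζ j - ((1 - p' : ℝ) : ℂ)‖ ≤ p') {w : ℂ}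
    (hw : -(1 / (2 * p') - 1 / 2) ≤ w.re) (j : Fin l) : ‖podZ ζ w j‖ ≤ 1 := by
  unfold podZ
  by_cases hj : ζ j = 1
  · rw [if_pos hj]; simp
  · rw [if_neg hj]
    have h1 := (pod_disc one_pos (pod_ne hp' hζ hj hw)).2 (by
      have := pod_Ww_re hp' hζ hj hw
      simpa using this)
    simpa using h1

theorem podZ_disc (hp : 0 < p) (hp' : 0 < p')
    (hζ : ∀ j, ‖ζ j - ((1 - p' : ℝ) : ℂ)‖ ≤ p') {w : ℂ}
    (hw : 1 / (2 * p) - 1 / (2 * p') ≤ w.re) (hw' : -(1 / (2 * p') - 1 / 2) ≤ w.re) (j : Fin l) :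
    ‖podZ ζ w j - ((1 - p : ℝ) : ℂ)‖ ≤ p := by
  unfold podZ
  by_cases hj : ζ j = 1
  · rw [if_pos hj]
    have e : (1 : ℂ) - ((1 - p : ℝ) : ℂ) = p := by push_cast; ring
    rw [e, Complex.norm_real, Real.norm_eq_abs, abs_of_pos hp]
  · rw [if_neg hj]
    refine (pod_disc hp (pod_ne hp' hζ hj hw')).2 ?_
    have := pod_W_re hp' hζ hj
    rw [add_re]
    linarith

theorem podZ_diff (hp' : 0 < p') (hζ : ∀ j, ‖ζ j - ((1 - p' : ℝ) : ℂ)‖ ≤ p') {w : ℂ}
    (hw : -(1 / (2 * p') - 1 / 2) ≤ w.re) (j : Fin l) :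
    DifferentiableAt ℂ (fun w => podZ ζ w j) w := by
  unfold podZ
  by_cases hj : ζ j = 1
  · simp only [if_pos hj]; exact differentiableAt_const _
  · simp only [if_neg hj]
    exact (differentiableAt_const _).sub
      (((differentiableAt_const _).add differentiableAt_id).inv (pod_ne hp' hζ hj hw))

end

/-- three lines at the point `0`. -/
theorem pod_three {F : ℂ → ℂ} {t1 t2 M M0 M1 : ℝ} (ht1 : 0 < t1) (ht2 : 0 < t2)
    (hd : ∀ w : ℂ, -t1 ≤ w.re → DifferentiableAt ℂ F w)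
    (hM : ∀ w : ℂ, -t1 ≤ w.re → ‖F w‖ ≤ M)
    (hM0 : ∀ w : ℂ, w.re = -t1 → ‖F w‖ ≤ M0) (hM1 : ∀ w : ℂ, w.re = t2 → ‖F w‖ ≤ M1) :
    ‖F 0‖ ≤ M0 ^ (1 - t1 / (t1 + t2)) * M1 ^ (t1 / (t1 + t2)) := by
  have hul : -t1 < t2 := by linarith
  have hcl : closure (HadamardThreeLines.verticalStrip (-t1) t2) ⊆ {w : ℂ | -t1 ≤ w.re} := by
    refine closure_minimal ?_ (isClosed_le continuous_const continuous_re)
    intro w hw
    exact hw.1.le
  have h1 := HadamardThreeLines.norm_le_interp_of_mem_verticalClosedStrip' (f := F) (z := 0)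
    (a := M0) (b := M1) hul
    (by simp only [HadamardThreeLines.verticalClosedStrip, mem_preimage, zero_re, mem_Icc]
        constructor <;> linarith)
    (DifferentiableOn.diffContOnCl fun w hw => (hd w (hcl hw)).differentiableWithinAt)
    ⟨M, by
      rintro _ ⟨w, hw, rfl⟩
      exact hM w hw.1⟩
    (fun w hw => hM0 w hw) (fun w hw => hM1 w hw)
  have e : ((0 : ℂ).re - -t1) / (t2 - -t1) = t1 / (t1 + t2) := by
    rw [zero_re]; congr 1 <;> ring
  rw [e] at h1
  exact h1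

/-- the exponent: `t1 / (t1 + t2) ≥ (1 - p') p`. -/
theorem pod_exponent {p p' : ℝ} (hp : 0 < p) (hpp : p < p') (hp1 : p' < 1) :
    0 < 1 / (2 * p') - 1 / 2 ∧ 0 < 1 / (2 * p) - 1 / (2 * p') ∧
    (1 - p') * p ≤ (1 / (2 * p') - 1 / 2) /
      ((1 / (2 * p') - 1 / 2) + (1 / (2 * p) - 1 / (2 * p'))) ∧
    (1 / (2 * p') - 1 / 2) /
      ((1 / (2 * p') - 1 / 2) + (1 / (2 * p) - 1 / (2 * p'))) ≤ 1 := by
  have hp' : 0 < p' := hp.trans hpp
  have h1 : 0 < 1 / (2 * p') - 1 / 2 := by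
    rw [sub_pos]
    exact one_div_lt_one_div_of_lt (by positivity) (by linarith)
  have h2 : 0 < 1 / (2 * p) - 1 / (2 * p') := by
    rw [sub_pos]
    exact one_div_lt_one_div_of_lt (by positivity) (by linarith)
  refine ⟨h1, h2, ?_, ?_⟩
  · have e : (1 / (2 * p') - 1 / 2) / ((1 / (2 * p') - 1 / 2) + (1 / (2 * p) - 1 / (2 * p'))) =
        (1 - p') * p / (p' * (1 - p)) := by
      have h3 : 1 - p ≠ 0 := by linarith
      have h4 : (1 / (2 * p') - 1 / 2) + (1 / (2 * p) - 1 / (2 * p')) = (1 - p) / (2 * p) := by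
        field_simp; ring
      rw [h4]
      field_simp
    rw [e, le_div_iff₀ (mul_pos hp' (by linarith))]
    have h5 : p' * (1 - p) ≤ 1 := by nlinarith
    have h6 : 0 ≤ (1 - p') * p := mul_nonneg (by linarith) hp.le
    nlinarith
  · rw [div_le_one (by linarith)]
    linarith

end Crest.Agent.R300U
end

-- ▼ part R300/U/PodA
section

/-!
Row 300, upper bound: binomial identity `Pure ζ = p^{-l} ∑_a (∏ z_j^{gap_j a}) Tmom a` for
`ζ_j = (1-p) + p z_j` (owner helper899).
-/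
set_option autoImplicit false

namespace Crest.Agent.R300U

open scoped BigOperators

/-- gaps of a tuple -/
def podGap {l : ℕ} (u : Fin l → ℕ) (j : Fin l) : ℕ :=
  if h : (j : ℕ) = 0 then u j else u j - u ⟨j - 1, by omega⟩ - 1

/-- the tuple with given gaps -/
def podSum {l : ℕ} (g : Fin l → ℕ) (j : Fin l) : ℕ :=
  (∑ i ∈ Finset.Iic j, g i) + j

theorem podSum_zero {l : ℕ} (g : Fin l → ℕ) (j : Fin l) (h : (j : ℕ) = 0) :
    podSum g j = g j := by
  have e : Finset.Iic j = {j} := by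
    ext i
    simp only [Finset.mem_Iic, Finset.mem_singleton]
    constructor
    · intro hi
      have : (i : ℕ) ≤ j := hi
      exact Fin.ext (by omega)
    · rintro rfl; exact le_rfl
  simp [podSum, e, h]

theorem podSum_succ {l : ℕ} (g : Fin l → ℕ) (j : Fin l) (h : (j : ℕ) ≠ 0) :
    podSum g j = podSum g ⟨j - 1, by omega⟩ + g j + 1 := by
  have e : Finset.Iic j = insert j (Finset.Iic (⟨j - 1, by omega⟩ : Fin l)) := by
    ext i
    simp only [Finset.mem_Iic, Finset.mem_insert, Fin.le_def, Fin.ext_iff]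
    omega
  have hn : j ∉ Finset.Iic (⟨j - 1, by omega⟩ : Fin l) := by
    simp only [Finset.mem_Iic, Fin.le_def]
    omega
  unfold podSum
  rw [e, Finset.sum_insert hn]
  simp only
  omega

theorem podGap_podSum {l : ℕ} (g : Fin l → ℕ) : podGap (podSum g) = g := by
  funext j
  unfold podGap
  by_cases h : (j : ℕ) = 0
  · rw [dif_pos h, podSum_zero g j h]
  · rw [dif_neg h, podSum_succ g j h]
    omega

theorem podSum_strictMono {l : ℕ} (g : Fin l → ℕ) : StrictMono (podSum g) := by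
  intro i j hij
  unfold podSum
  have h1 : ∑ a ∈ Finset.Iic i, g a ≤ ∑ a ∈ Finset.Iic j, g a :=
    Finset.sum_le_sum_of_subset (Finset.Iic_subset_Iic.2 hij.le)
  have h2 : (i : ℕ) < j := hij
  omega

theorem podSum_podGap {l : ℕ} {u : Fin l → ℕ} (hu : StrictMono u) : podSum (podGap u) = u := by
  have key : ∀ (k : ℕ) (j : Fin l), (j : ℕ) = k → podSum (podGap u) j = u j := by
    intro k
    induction k with
    | zero =>
      intro j hj
      rw [podSum_zero _ _ hj]
      unfold podGap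
      rw [dif_pos hj]
    | succ k ih =>
      intro j hj
      have h0 : (j : ℕ) ≠ 0 := by omega
      rw [podSum_succ _ _ h0, ih ⟨j - 1, by omega⟩ (by simp only; omega)]
      unfold podGap
      rw [dif_neg h0]
      have h1 : u ⟨j - 1, by omega⟩ < u j := hu (by
        rw [Fin.lt_def]; simp only; omega)
      omega
  funext j
  exact key j j rfl

theorem podSum_mono {l : ℕ} {g g' : Fin l → ℕ} (h : ∀ i, g i ≤ g' i) (j : Fin l) :
    podSum g j ≤ podSum g' j := by
  unfold podSum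
  have := Finset.sum_le_sum (s := Finset.Iic j) fun i _ => h i
  omega

/-- strictly increasing tuples below `n` -/
def podT (n l : ℕ) : Finset (Fin l → ℕ) :=
  (Fintype.piFinset (fun _ : Fin l => Finset.range n)).filter (fun u => StrictMono u)

theorem mem_podT {n l : ℕ} {u : Fin l → ℕ} : u ∈ podT n l ↔ (∀ j, u j < n) ∧ StrictMono u := by
  simp [podT, Fintype.mem_piFinset]

theorem card_podT_le (n l : ℕ) : (podT n l).card ≤ n ^ l := by
  refine (Finset.card_filter_le _ _).trans ?_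
  simp [Fintype.card_piFinset]

/-- binomial expansion over tuples -/
theorem pod_binom {n l : ℕ} (p : ℝ) (z : Fin l → ℂ) {u : Fin l → ℕ} (hu : u ∈ podT n l) :
    ∏ j, ((((1 - p : ℝ) : ℂ) + p * z j) ^ podGap u j) =
      ∑ a ∈ podT n l, ∏ j, ((((podGap u j).choose (podGap a j) : ℕ) : ℂ) * (p : ℂ) ^ podGap a j *
        ((1 - p : ℝ) : ℂ) ^ (podGap u j - podGap a j) * z j ^ podGap a j) := by
  obtain ⟨hun, hum⟩ := mem_podT.1 hu
  have h1 : ∀ j, ((((1 - p : ℝ) : ℂ) + p * z j) ^ podGap u j) =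
      ∑ h ∈ Finset.range (podGap u j + 1), ((((podGap u j).choose h : ℕ) : ℂ) * (p : ℂ) ^ h *
        ((1 - p : ℝ) : ℂ) ^ (podGap u j - h) * z j ^ h) := fun j => by
    rw [add_comm, add_pow]
    refine Finset.sum_congr rfl fun h _ => ?_
    rw [mul_pow]; ring
  simp only [h1]
  rw [Finset.prod_univ_sum]
  -- sum over gap vectors below `podGap u`
  symm
  have hsub : (Finset.image podSum (Fintype.piFinset fun j => Finset.range (podGap u j + 1))) ⊆
      podT n l := by
    intro a ha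
    obtain ⟨g, hg, rfl⟩ := Finset.mem_image.1 ha
    rw [Fintype.mem_piFinset] at hg
    refine mem_podT.2 ⟨fun j => ?_, podSum_strictMono g⟩
    have h2 : podSum g j ≤ podSum (podGap u) j := podSum_mono (fun i => by
      have := Finset.mem_range.1 (hg i)
      omega) j
    rw [podSum_podGap hum] at h2
    exact h2.trans_lt (hun j)
  rw [← Finset.sum_subset hsub]
  · rw [Finset.sum_image]
    · refine Finset.sum_congr rfl fun g _ => ?_
      rw [podGap_podSum]
    · intro g _ g' _ h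
      rw [← podGap_podSum g, ← podGap_podSum g', h]
  · intro a ha hna
    obtain ⟨-, ham⟩ := mem_podT.1 ha
    have h3 : ∃ j, podGap u j < podGap a j := by
      by_contra hcon
      push Not at hcon
      apply hna
      refine Finset.mem_image.2 ⟨podGap a, ?_, podSum_podGap ham⟩
      rw [Fintype.mem_piFinset]
      intro j
      rw [Finset.mem_range]
      have := hcon j
      omega
    obtain ⟨j, hj⟩ := h3
    refine Finset.prod_eq_zero (Finset.mem_univ j) ?_
    rw [Nat.choose_eq_zero_of_lt hj]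
    simp

theorem Pure_eq {n l : ℕ} (ζ : Fin l → ℂ) :
    (Pure ζ : R n) = ∑ u ∈ podT n l, (∏ j, ζ j ^ podGap u j) • ∏ j, (xv (u j) : R n) := rfl

theorem Tmom_eq {n l : ℕ} (p : ℝ) (a : Fin l → ℕ) :
    (Tmom p a : R n) = ∑ u ∈ podT n l, ((p : ℂ) ^ l * ∏ j : Fin l,
      ((((podGap u j).choose (podGap a j) : ℕ) : ℂ) * (p : ℂ) ^ podGap a j *
        ((1 - p : ℝ) : ℂ) ^ (podGap u j - podGap a j))) • ∏ j, (xv (u j) : R n) := rfl

/-- the binomial identity. -/
theorem Pure_eq_sum_Tmom {n l : ℕ} {p : ℝ} (hp : p ≠ 0) (z : Fin l → ℂ) :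
    (Pure (fun j => ((1 - p : ℝ) : ℂ) + p * z j) : R n) =
      ∑ a ∈ podT n l, (((p : ℂ) ^ l)⁻¹ * ∏ j, z j ^ podGap a j) • Tmom p a := by
  have hp' : (p : ℂ) ≠ 0 := by exact_mod_cast hp
  rw [Pure_eq]
  simp only [Tmom_eq, Finset.smul_sum, smul_smul]
  rw [Finset.sum_comm]
  refine Finset.sum_congr rfl fun u hu => ?_
  rw [pod_binom p z hu, Finset.sum_smul]
  refine Finset.sum_congr rfl fun a _ => ?_
  congr 1
  rw [Finset.prod_mul_distrib]
  field_simp

end Crest.Agent.R300U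
end

-- ▼ part R300/U/PodC
section

/-!
Row 300, upper bound: the little pseudo-expectation calculus used for `PureOfDataStatement`
(owner helper899).
-/
set_option autoImplicit false

namespace Crest.Agent.R300U

open scoped BigOperators

variable {n : ℕ}

/-- polynomial of degree at most `d` -/
def Pd (d : ℕ) (P : R n) : Prop := ∃ c : ℝ, Bd d c P

theorem pd_mono {d : ℕ} (S : Finset (Fin n)) (h : S.card ≤ d) : Pd d (mono S : R n) := by
  classical
  refine ⟨1, fun T => if T = S then 1 else 0, fun T hT => ?_, ?_, ?_⟩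
  · have hne : T ≠ S := by
      rintro rfl
      omega
    simp [hne]
  · rw [Finset.sum_eq_single S]
    · simp
    · intro T _ hT; simp [hT]
    · simp
  · rw [Finset.sum_eq_single S]
    · simp
    · intro T _ hT; simp [hT]
    · simp

theorem Pd.smul {d : ℕ} {P : R n} (z : ℂ) (h : Pd d P) : Pd d (z • P) := by
  obtain ⟨c, a, h1, h2, h3⟩ := h
  refine ⟨‖z‖ * c, fun S => z * a S, fun S hS => by simp [h1 S hS], ?_, ?_⟩
  · simp only [norm_mul]
    rw [← Finset.mul_sum]
    exact mul_le_mul_of_nonneg_left h2 (norm_nonneg _)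
  · rw [h3, Finset.smul_sum]
    simp only [smul_smul]

theorem Pd.add {d : ℕ} {P Q : R n} (hP : Pd d P) (hQ : Pd d Q) : Pd d (P + Q) := by
  obtain ⟨c, a, h1, h2, h3⟩ := hP
  obtain ⟨c', a', h1', h2', h3'⟩ := hQ
  refine ⟨c + c', fun S => a S + a' S, fun S hS => by simp [h1 S hS, h1' S hS], ?_, ?_⟩
  · calc (∑ S, ‖a S + a' S‖) ≤ ∑ S, (‖a S‖ + ‖a' S‖) :=
          Finset.sum_le_sum fun S _ => norm_add_le _ _
      _ ≤ c + c' := by rw [Finset.sum_add_distrib]; exact add_le_add h2 h2'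
  · rw [h3, h3', ← Finset.sum_add_distrib]
    simp only [add_smul]

theorem pd_zero {d : ℕ} : Pd d (0 : R n) :=
  ⟨0, fun _ => 0, fun _ _ => rfl, by simp, by simp⟩

theorem pd_sum {d : ℕ} {ι : Type*} (s : Finset ι) (P : ι → R n) (h : ∀ i ∈ s, Pd d (P i)) :
    Pd d (∑ i ∈ s, P i) := by
  classical
  induction s using Finset.induction_on with
  | empty => simpa using pd_zero
  | insert i s hi ih =>
    rw [Finset.sum_insert hi]
    exact (h i (Finset.mem_insert_self i s)).add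
      (ih fun j hj => h j (Finset.mem_insert_of_mem hj))

theorem pod_mono_empty : (mono ∅ : R n) = 1 := by
  funext x; simp [mono]

theorem cst_eq (z : ℂ) : (cst z : R n) = z • mono ∅ := by
  rw [pod_mono_empty]; funext x; simp [cst]

theorem pd_cst {d : ℕ} (z : ℂ) : Pd d (cst z : R n) := by
  rw [cst_eq]; exact (pd_mono ∅ (by simp)).smul z

theorem Pd.dev {d : ℕ} {P : R n} (x : Fin n → Bool) (h : Pd d P) : Pd d (dev x P) := by
  have e : Crest.Agent.R300U.dev x P = P + (-1 : ℂ) • cst (P x) := by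
    unfold Crest.Agent.R300U.dev
    rw [neg_one_smul, sub_eq_add_neg]
  rw [e]
  exact h.add ((pd_cst _).smul _)

theorem pod_dev_smul (x : Fin n → Bool) (z : ℂ) (P : R n) : dev x (z • P) = z • dev x P := by
  funext y
  simp [dev, cst, mul_sub]

theorem pod_dev_sum (x : Fin n → Bool) {ι : Type*} (s : Finset ι) (P : ι → R n) :
    dev x (∑ i ∈ s, P i) = ∑ i ∈ s, dev x (P i) := by
  funext y
  simp [dev, cst, Finset.sum_apply, Finset.sum_sub_distrib]

/-- the product of the letters of a strictly increasing tuple is a monomial -/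
theorem prod_xv_eq {l : ℕ} {u : Fin l → ℕ} (hu : u ∈ podT n l) :
    ∃ S : Finset (Fin n), S.card ≤ l ∧ (∏ j, (xv (u j) : R n)) = mono S := by
  classical
  obtain ⟨h1, -⟩ := mem_podT.1 hu
  refine ⟨Finset.univ.image fun j : Fin l => (⟨u j, h1 j⟩ : Fin n), ?_, ?_⟩
  · exact Finset.card_image_le.trans (by simp)
  · funext x
    rw [Finset.prod_apply]
    have e : ∀ j, (xv (u j) : R n) x = if x ⟨u j, h1 j⟩ = true then 1 else 0 := fun j => by
      simp [xv, h1 j]
    simp only [e]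
    unfold mono
    rw [Finset.prod_ite_zero]
    simp

theorem pd_prod_xv {l d : ℕ} (hl : l ≤ d) {u : Fin l → ℕ} (hu : u ∈ podT n l) :
    Pd d (∏ j, (xv (u j) : R n)) := by
  obtain ⟨S, hS, e⟩ := prod_xv_eq hu
  rw [e]
  exact pd_mono S (hS.trans hl)

theorem pd_Pure {l d : ℕ} (hl : l ≤ d) (ζ : Fin l → ℂ) : Pd d (Pure ζ : R n) := by
  rw [Pure_eq]
  exact pd_sum _ _ fun u hu => (pd_prod_xv hl hu).smul _

theorem pd_Tmom {l d : ℕ} (hl : l ≤ d) (p : ℝ) (a : Fin l → ℕ) : Pd d (Tmom p a : R n) := by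
  rw [Tmom_eq]
  exact pd_sum _ _ fun u hu => (pd_prod_xv hl hu).smul _

namespace PE

variable {D : ℕ} (E : PE n D)

theorem pod_nonneg {P : R n} (h : Pd D P) : 0 ≤ (E.L (star P * P)).re := by
  obtain ⟨c, hc⟩ := h
  exact E.pos P c hc

theorem pod_N_nonneg (P : R n) : 0 ≤ E.N P := Real.sqrt_nonneg _

theorem pod_N_sq {P : R n} (h : Pd D P) : E.N P ^ 2 = (E.L (star P * P)).re :=
  Real.sq_sqrt (E.pod_nonneg h)

theorem pod_real (P : R n) : (E.L (star P * P)).im = 0 := by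
  have h1 := E.herm (star P * P)
  have e : star (star P * P) = star P * P := by
    rw [star_mul', star_star, mul_comm]
  rw [e] at h1
  have h2 := congrArg Complex.im h1
  simp only [Complex.star_def, Complex.conj_im] at h2
  linarith

theorem pod_normL {P : R n} (h : Pd D P) : ‖E.L (star P * P)‖ = E.N P ^ 2 := by
  rw [E.pod_N_sq h]
  have h1 : E.L (star P * P) = ((E.L (star P * P)).re : ℂ) :=
    Complex.ext (by simp) (by simp [E.pod_real P])
  rw [h1, Complex.norm_real, Real.norm_eq_abs, Complex.ofReal_re, abs_of_nonneg (E.pod_nonneg h)]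

/-- Cauchy-Schwarz -/
theorem pod_cs {P Q : R n} (hP : Pd D P) (hQ : Pd D Q) :
    ‖E.L (star P * Q)‖ ≤ E.N P * E.N Q := by
  set A := (E.L (star P * P)).re with hA
  set B := (E.L (star Q * Q)).re with hB
  set c := E.L (star P * Q) with hc
  have hA0 : 0 ≤ A := E.pod_nonneg hP
  have hB0 : 0 ≤ B := E.pod_nonneg hQ
  have hcc : E.L (star Q * P) = star c := by
    have h1 := E.herm (star P * Q)
    have e : star (star P * Q) = star Q * P := by
      rw [star_mul', star_star, mul_comm]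
    rw [e] at h1
    exact h1
  -- the quadratic inequality
  have key : ∀ t : ℝ, 0 ≤ A - 2 * t * ‖c‖ ^ 2 + t ^ 2 * ‖c‖ ^ 2 * B := by
    intro t
    set z : ℂ := -(t : ℂ) * star c with hz
    have h1 := E.pod_nonneg (hP.add (hQ.smul z))
    have e : star (P + z • Q) * (P + z • Q) =
        star P * P + z • (star P * Q) + (star z) • (star Q * P) + (star z * z) • (star Q * Q) := by
      funext x
      simp only [Pi.mul_apply, Pi.add_apply, Pi.smul_apply, Pi.star_apply, smul_eq_mul, star_add,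
        star_mul', Complex.star_def]
      ring
    rw [e, map_add, map_add, map_add, map_smul, map_smul, map_smul, hcc, ← hc] at h1
    have hn : (star c * c : ℂ) = ((‖c‖ ^ 2 : ℝ) : ℂ) := by
      rw [Complex.star_def, ← Complex.normSq_eq_conj_mul_self, Complex.normSq_eq_norm_sq]
    have h2 : z • c = ((-t * ‖c‖ ^ 2 : ℝ) : ℂ) := by
      rw [smul_eq_mul, hz, mul_assoc, hn]; push_cast; ring
    have h3 : star z • star c = ((-t * ‖c‖ ^ 2 : ℝ) : ℂ) := by
      have : star z * star c = star (z * c) := (star_mul' z c).symm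
      rw [smul_eq_mul, this, ← smul_eq_mul, h2, Complex.star_def, Complex.conj_ofReal]
    have h4 : star z * z = ((t ^ 2 * ‖c‖ ^ 2 : ℝ) : ℂ) := by
      have e5 : star z = -(t : ℂ) * c := by
        rw [hz, star_mul', star_star, star_neg, Complex.star_def, Complex.conj_ofReal]
      rw [e5, hz]
      have : (-(t : ℂ) * c) * (-(t : ℂ) * star c) = (t : ℂ) ^ 2 * (star c * c) := by ring
      rw [this, hn]; push_cast; ring
    rw [h2, h3, h4] at h1
    simp only [Complex.add_re, smul_eq_mul, Complex.re_ofReal_mul, Complex.ofReal_re] at h1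
    rw [← hA, ← hB] at h1
    linarith
  have h5 : ‖c‖ ^ 2 ≤ A * B := by
    by_cases hc0 : ‖c‖ ^ 2 = 0
    · rw [hc0]; positivity
    have hcp : 0 < ‖c‖ ^ 2 := lt_of_le_of_ne (sq_nonneg _) (Ne.symm hc0)
    rcases hB0.eq_or_lt with hB1 | hB1
    · exfalso
      have h6 := key ((A + 1) / ‖c‖ ^ 2)
      rw [← hB1, mul_zero, add_zero] at h6
      have e : 2 * ((A + 1) / ‖c‖ ^ 2) * ‖c‖ ^ 2 = 2 * (A + 1) := by
        rw [mul_assoc, div_mul_cancel₀ _ hc0]
      rw [e] at h6
      linarith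
    · have h6 := key (1 / B)
      have e : A - 2 * (1 / B) * ‖c‖ ^ 2 + (1 / B) ^ 2 * ‖c‖ ^ 2 * B = A - ‖c‖ ^ 2 / B := by
        field_simp; ring
      rw [e, sub_nonneg, div_le_iff₀ hB1] at h6
      exact h6
  have h6 : ‖c‖ ≤ Real.sqrt (A * B) := Real.le_sqrt_of_sq_le h5
  rw [Real.sqrt_mul hA0] at h6
  exact h6

/-- testing -/
theorem pod_N_le {Q : R n} (hQ : Pd D Q) {M : ℝ} (h : ‖E.L (star Q * Q)‖ ≤ E.N Q * M) (hM : 0 ≤ M) :
    E.N Q ≤ M := by
  rw [E.pod_normL hQ] at h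
  rcases (E.pod_N_nonneg Q).eq_or_lt with h0 | h0
  · rw [← h0]; exact hM
  · rw [sq] at h
    exact le_of_mul_le_mul_left h h0

theorem pod_mono_le {S : Finset (Fin n)} (hS : S.card ≤ D) (x : Fin n → Bool) :
    E.N (dev x (mono S)) ≤ 1 := by
  have hm : (star (mono S) * mono S : R n) = mono S := by
    funext y
    by_cases h : ∀ i ∈ S, y i = true
    · simp [mono, h]
    · simp [mono, h]
  have hP := pd_mono (n := n) (d := D) S hS
  have h0 : 0 ≤ (E.L (mono S)).re := by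
    have := E.pod_nonneg hP
    rwa [hm] at this
  have hm1 : (star (1 - mono S) * (1 - mono S) : R n) = 1 - mono S := by
    have hst : (star (mono S) : R n) = mono S := by
      funext y
      simp [mono]
    have hmm : (mono S * mono S : R n) = mono S := by
      rw [hst] at hm; exact hm
    rw [star_sub, star_one, hst, mul_sub, mul_one, sub_mul, one_mul, hmm]
    ring
  have hP1 : Pd D (1 - mono S : R n) := by
    have := (pd_cst (n := n) (d := D) 1).add (hP.smul (-1))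
    have e : (cst 1 + (-1 : ℂ) • mono S : R n) = 1 - mono S := by
      rw [neg_one_smul, ← sub_eq_add_neg]; rfl
    rwa [e] at this
  have h1 : 0 ≤ 1 - (E.L (mono S)).re := by
    have := E.pod_nonneg hP1
    rw [hm1, map_sub, E.one] at this
    simpa using this
  unfold PE.N
  rw [Real.sqrt_le_one]
  by_cases hx : ∀ i ∈ S, x i = true
  · have hmx : (mono S : R n) x = 1 := by
      unfold mono
      rw [if_pos hx]
    have e : (dev x (mono S) : R n) = (-1 : ℂ) • (1 - mono S) := by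
      funext y
      simp [dev, cst, hmx]
    have e2 : star ((-1 : ℂ) • (1 - mono S) : R n) * ((-1 : ℂ) • (1 - mono S)) =
        star (1 - mono S) * (1 - mono S) := by
      funext y
      simp only [Pi.mul_apply, Pi.star_apply, Pi.smul_apply, smul_eq_mul, star_mul', star_neg,
        star_one]
      ring
    rw [e, e2, hm1, map_sub, E.one, Complex.sub_re, Complex.one_re]
    linarith
  · have hmx : (mono S : R n) x = 0 := by
      unfold mono
      rw [if_neg hx]
    have e : (dev x (mono S) : R n) = mono S := by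
      funext y
      simp [dev, cst, hmx]
    rw [e, hm]
    linarith

end PE

end Crest.Agent.R300U
end

-- ▼ part R300/U/PureOfData
section

/-!
Row 300, upper bound: `PureOfDataStatement` (owner helper899), from `TFormStatement`.
-/
set_option autoImplicit false

namespace Crest.Agent.R300U

open scoped BigOperators

variable {n D : ℕ} {E : PE n D} {x : Fin n → Bool} {p p' : ℝ} {K l : ℕ} {β b : ℝ}

theorem pod_data_Tmom (hT : TFormStatement) (hd : Data E x p K β) (hl : l ≤ K) {a : Fin l → ℕ}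
    (ha : a ∈ podT n l) : E.N (dev x (Tmom p a)) ≤ β := by
  obtain ⟨h1, h2⟩ := mem_podT.1 ha
  rw [← hT n l p a h2]
  refine hd _ ?_ ?_
  · exact Finset.card_image_le.trans (by simpa using hl)
  · intro j hj
    obtain ⟨i, _, rfl⟩ := Finset.mem_image.1 hj
    exact h1 i

theorem pod_pair_le (hT : TFormStatement) (hp : 0 < p) (hβ : 0 ≤ β) (hl : l ≤ K) (hK : K ≤ D)
    (hd : Data E x p K β) {Q : R n} (hQ : Pd D Q) {ζ : Fin l → ℂ}
    (hζ : ∀ j, ‖ζ j - ((1 - p : ℝ) : ℂ)‖ ≤ p) :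
    ‖E.L (star Q * dev x (Pure ζ))‖ ≤ E.N Q * ((p ^ l)⁻¹ * (n : ℝ) ^ l * β) := by
  have hpc : (p : ℂ) ≠ 0 := by exact_mod_cast hp.ne'
  set z : Fin l → ℂ := fun j => (ζ j - ((1 - p : ℝ) : ℂ)) / p with hz
  have hz1 : ∀ j, ‖z j‖ ≤ 1 := fun j => by
    rw [hz]
    simp only
    rw [norm_div, Complex.norm_real, Real.norm_eq_abs, abs_of_pos hp, div_le_one hp]
    exact hζ j
  have e : ζ = fun j => ((1 - p : ℝ) : ℂ) + p * z j := by
    funext j
    rw [hz]
    simp only
    field_simp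
    ring
  rw [e, Pure_eq_sum_Tmom hp.ne', pod_dev_sum, Finset.mul_sum, map_sum]
  refine (norm_sum_le _ _).trans ?_
  have hN := E.pod_N_nonneg Q
  have hterm : ∀ a ∈ podT n l,
      ‖E.L (star Q * dev x ((((p : ℂ) ^ l)⁻¹ * ∏ j, z j ^ podGap a j) • Tmom p a))‖ ≤
        E.N Q * ((p ^ l)⁻¹ * β) := by
    intro a ha
    rw [pod_dev_smul, mul_smul_comm, map_smul, smul_eq_mul, norm_mul]
    have h1 : ‖((p : ℂ) ^ l)⁻¹ * ∏ j, z j ^ podGap a j‖ ≤ (p ^ l)⁻¹ := by
      rw [norm_mul, norm_inv, norm_pow, Complex.norm_real, Real.norm_eq_abs, abs_of_pos hp,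
        norm_prod]
      refine mul_le_of_le_one_right (by positivity) ?_
      refine Finset.prod_le_one (fun j _ => norm_nonneg _) fun j _ => ?_
      rw [norm_pow]
      exact pow_le_one₀ (norm_nonneg _) (hz1 j)
    have h2 : ‖E.L (star Q * dev x (Tmom p a))‖ ≤ E.N Q * β :=
      (E.pod_cs hQ ((pd_Tmom (hl.trans hK) p a).dev x)).trans
        (mul_le_mul_of_nonneg_left (pod_data_Tmom hT hd hl ha) hN)
    calc _ ≤ (p ^ l)⁻¹ * (E.N Q * β) := mul_le_mul h1 h2 (norm_nonneg _) (by positivity)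
      _ = E.N Q * ((p ^ l)⁻¹ * β) := by ring
  refine (Finset.sum_le_card_nsmul _ _ _ hterm).trans ?_
  rw [nsmul_eq_mul]
  have h3 : ((podT n l).card : ℝ) ≤ (n : ℝ) ^ l := by exact_mod_cast card_podT_le n l
  calc ((podT n l).card : ℝ) * (E.N Q * ((p ^ l)⁻¹ * β))
      ≤ (n : ℝ) ^ l * (E.N Q * ((p ^ l)⁻¹ * β)) :=
        mul_le_mul_of_nonneg_right h3 (by positivity)
    _ = E.N Q * ((p ^ l)⁻¹ * (n : ℝ) ^ l * β) := by ring

theorem pod_pair_triv (hl : l ≤ D) {Q : R n} (hQ : Pd D Q) {ζ : Fin l → ℂ}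
    (hζ : ∀ j, ‖ζ j‖ ≤ 1) :
    ‖E.L (star Q * dev x (Pure ζ))‖ ≤ E.N Q * (n : ℝ) ^ l := by
  rw [Pure_eq, pod_dev_sum, Finset.mul_sum, map_sum]
  refine (norm_sum_le _ _).trans ?_
  have hN := E.pod_N_nonneg Q
  have hterm : ∀ u ∈ podT n l,
      ‖E.L (star Q * dev x ((∏ j, ζ j ^ podGap u j) • ∏ j, (xv (u j) : R n)))‖ ≤ E.N Q * 1 := by
    intro u hu
    rw [pod_dev_smul, mul_smul_comm, map_smul, smul_eq_mul, norm_mul]
    have h1 : ‖∏ j, ζ j ^ podGap u j‖ ≤ 1 := by
      rw [norm_prod]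
      refine Finset.prod_le_one (fun j _ => norm_nonneg _) fun j _ => ?_
      rw [norm_pow]
      exact pow_le_one₀ (norm_nonneg _) (hζ j)
    obtain ⟨S, hS, eS⟩ := prod_xv_eq hu
    have h2 : ‖E.L (star Q * dev x (∏ j, (xv (u j) : R n)))‖ ≤ E.N Q * 1 :=
      (E.pod_cs hQ ((pd_prod_xv hl hu).dev x)).trans
        (mul_le_mul_of_nonneg_left (by rw [eS]; exact E.pod_mono_le (hS.trans hl) x) hN)
    calc _ ≤ 1 * (E.N Q * 1) := mul_le_mul h1 h2 (norm_nonneg _) zero_le_one
      _ = E.N Q * 1 := one_mul _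
  refine (Finset.sum_le_card_nsmul _ _ _ hterm).trans ?_
  rw [nsmul_eq_mul]
  have h3 : ((podT n l).card : ℝ) ≤ (n : ℝ) ^ l := by exact_mod_cast card_podT_le n l
  calc ((podT n l).card : ℝ) * (E.N Q * 1) ≤ (n : ℝ) ^ l * (E.N Q * 1) :=
        mul_le_mul_of_nonneg_right h3 (by positivity)
    _ = E.N Q * (n : ℝ) ^ l := by ring

/-- the real inequality behind the first half. -/
theorem pod_real1 (hn : 1 ≤ n) (hp : 0 < p) (hp1 : p < 1) (hβ : 0 ≤ β) (hl : l ≤ K)
    (h : (K : ℝ) * Real.log (1 / p) + K * Real.log (n + 1) + b ≤ -Real.log β ∨ β = 0) :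
    (p ^ l)⁻¹ * (n : ℝ) ^ l * β ≤ Real.exp (-b) := by
  rcases hβ.eq_or_lt with h0 | hβp
  · rw [← h0, mul_zero]; exact (Real.exp_pos _).le
  rcases h with h | h
  swap
  · exact absurd h hβp.ne'
  have hn' : (1 : ℝ) ≤ n := by exact_mod_cast hn
  have hlK : (l : ℝ) ≤ K := by exact_mod_cast hl
  have hlp : 0 ≤ Real.log (1 / p) := Real.log_nonneg (by
    rw [le_div_iff₀ hp]; linarith)
  have hln : 0 ≤ Real.log n := Real.log_nonneg hn'
  have hlnn : Real.log n ≤ Real.log (n + 1) := Real.log_le_log (by linarith) (by linarith)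
  have e : (p ^ l)⁻¹ * (n : ℝ) ^ l * β =
      Real.exp (l * Real.log (1 / p) + l * Real.log n + Real.log β) := by
    rw [Real.exp_add, Real.exp_add, Real.exp_log hβp, Real.exp_nat_mul, Real.exp_nat_mul,
      Real.exp_log (by positivity), Real.exp_log (by linarith)]
    congr 2
    rw [one_div, inv_pow]
  rw [e, Real.exp_le_exp]
  have h1 : (l : ℝ) * Real.log (1 / p) ≤ K * Real.log (1 / p) :=
    mul_le_mul_of_nonneg_right hlK hlp
  have h2 : (l : ℝ) * Real.log n ≤ K * Real.log (n + 1) :=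
    mul_le_mul hlK hlnn hln (by positivity)
  linarith

/-- disc inclusion -/
theorem pod_disc_mono (hpp : p' ≤ p) {z : ℂ} (hz : ‖z - ((1 - p' : ℝ) : ℂ)‖ ≤ p') :
    ‖z - ((1 - p : ℝ) : ℂ)‖ ≤ p := by
  have e : z - ((1 - p : ℝ) : ℂ) = (z - ((1 - p' : ℝ) : ℂ)) + ((p - p' : ℝ) : ℂ) := by
    push_cast; ring
  rw [e]
  refine (norm_add_le _ _).trans ?_
  rw [Complex.norm_real, Real.norm_eq_abs, abs_of_nonneg (by linarith)]
  linarith

/-- the interpolation inequality. -/
theorem pod_interp (hT : TFormStatement) (hn : 1 ≤ n) (hp : 0 < p) (hpp : p < p') (hp1 : p' < 1)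
    (hβ : 0 ≤ β) (hl : l ≤ K) (hK : K ≤ D) (hd : Data E x p K β) {ζ : Fin l → ℂ}
    (hζ : ∀ j, ‖ζ j - ((1 - p' : ℝ) : ℂ)‖ ≤ p') :
    ∃ s : ℝ, 0 < s ∧ (1 - p') * p ≤ s ∧ s ≤ 1 ∧
      (E.N (dev x (Pure ζ)) = 0 ∨
        E.N (dev x (Pure ζ)) ≤ (n : ℝ) ^ l * ((p ^ l)⁻¹ * β) ^ s) := by
  have hp' : 0 < p' := hp.trans hpp
  obtain ⟨ht1, ht2, hs1, hs2⟩ := pod_exponent hp hpp hp1
  set t1 : ℝ := 1 / (2 * p') - 1 / 2 with ht1d
  set t2 : ℝ := 1 / (2 * p) - 1 / (2 * p') with ht2d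
  set s : ℝ := t1 / (t1 + t2) with hs
  have hs0 : 0 < s := div_pos ht1 (by linarith)
  refine ⟨s, hs0, hs1, hs2, ?_⟩
  set Q : R n := dev x (Pure ζ) with hQd
  have hQ : Pd D Q := (pd_Pure (hl.trans hK) ζ).dev x
  rcases (E.pod_N_nonneg Q).eq_or_lt with h0 | h0
  · exact Or.inl h0.symm
  right
  have hn' : (1 : ℝ) ≤ n := by exact_mod_cast hn
  -- the interpolating function
  set F : ℂ → ℂ := fun w => E.L (star Q * dev x (Pure (podZ ζ w))) with hF
  have hFe : F = fun w => ∑ u ∈ podT n l, (∏ j, podZ ζ w j ^ podGap u j) *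
      E.L (star Q * dev x (∏ j, (xv (u j) : R n))) := by
    funext w
    rw [hF]
    simp only
    rw [Pure_eq, pod_dev_sum, Finset.mul_sum, map_sum]
    refine Finset.sum_congr rfl fun u _ => ?_
    rw [pod_dev_smul, mul_smul_comm, map_smul, smul_eq_mul]
  have hdiff : ∀ w : ℂ, -t1 ≤ w.re → DifferentiableAt ℂ F w := by
    intro w hw
    rw [hFe]
    refine DifferentiableAt.fun_sum fun u _ => ?_
    refine DifferentiableAt.mul_const ?_ _
    refine DifferentiableAt.fun_finsetProd fun j _ => ?_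
    exact (podZ_diff hp' hζ hw j).pow _
  have hM : ∀ w : ℂ, -t1 ≤ w.re → ‖F w‖ ≤ E.N Q * (n : ℝ) ^ l := fun w hw =>
    pod_pair_triv (hl.trans hK) hQ fun j => podZ_norm_le hp' hζ hw j
  have hM1 : ∀ w : ℂ, w.re = t2 → ‖F w‖ ≤ E.N Q * ((p ^ l)⁻¹ * (n : ℝ) ^ l * β) := fun w hw =>
    pod_pair_le hT hp hβ hl hK hd hQ fun j =>
      podZ_disc hp hp' hζ hw.ge (by rw [hw]; linarith) j
  have h3 := pod_three ht1 ht2 hdiff hM (fun w hw => hM w hw.ge) hM1
  rw [← hs] at h3
  have hF0 : ‖F 0‖ = E.N Q ^ 2 := by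
    rw [hF]
    simp only
    rw [podZ_zero, ← hQd]
    exact E.pod_normL hQ
  rw [hF0] at h3
  have hnl : 0 < (n : ℝ) ^ l := by positivity
  have hpb : 0 ≤ (p ^ l)⁻¹ * β := by positivity
  have e : (E.N Q * (n : ℝ) ^ l) ^ (1 - s) * (E.N Q * ((p ^ l)⁻¹ * (n : ℝ) ^ l * β)) ^ s =
      E.N Q * ((n : ℝ) ^ l * ((p ^ l)⁻¹ * β) ^ s) := by
    have e1 : E.N Q * ((p ^ l)⁻¹ * (n : ℝ) ^ l * β) = (E.N Q * (n : ℝ) ^ l) * ((p ^ l)⁻¹ * β) := by
      ring
    rw [e1, Real.mul_rpow (by positivity) hpb, ← mul_assoc, ← Real.rpow_add (by positivity)]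
    have e2 : 1 - s + s = 1 := by ring
    rw [e2, Real.rpow_one]
    ring
  rw [e, sq] at h3
  exact le_of_mul_le_mul_left h3 h0

theorem pureOfData (hT : TFormStatement) : PureOfDataStatement := by
  intro n D E x p p' K β b hn hKD hp hp1 hp' hp1' hβ hd
  refine ⟨fun hpp h => ?_, fun hpp h => ?_⟩
  · intro l hl ζ hζ
    refine le_trans ?_ (pod_real1 hn hp hp1 hβ hl h)
    have hQ : Pd D (dev x (Pure ζ)) := (pd_Pure (hl.trans hKD) ζ).dev x
    refine E.pod_N_le hQ (pod_pair_le hT hp hβ hl hKD hd hQ fun j => pod_disc_mono hpp (hζ j)) ?_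
    positivity
  · intro l hl ζ hζ
    have hn' : (1 : ℝ) ≤ n := by exact_mod_cast hn
    have hlK : (l : ℝ) ≤ K := by exact_mod_cast hl
    have hQ : Pd D (dev x (Pure ζ)) := (pd_Pure (hl.trans hKD) ζ).dev x
    obtain ⟨s, hs0, hs1, hs2, h0 | h1⟩ := pod_interp hT hn hp hpp hp1' hβ hl hKD hd hζ
    · rw [h0]; exact (Real.exp_pos _).le
    set κ : ℝ := (1 - p') * p with hκ
    have hκ0 : 0 < κ := mul_pos (by linarith) hp
    set c : ℝ := b + K * Real.log (2 * n + 2) with hc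
    have hln : 0 ≤ Real.log n := Real.log_nonneg hn'
    have hln2 : Real.log n ≤ Real.log (2 * n + 2) :=
      Real.log_le_log (by linarith) (by linarith)
    have hlln : (l : ℝ) * Real.log n ≤ K * Real.log (2 * n + 2) :=
      mul_le_mul hlK hln2 hln (by positivity)
    -- trivial bound
    have htriv : E.N (dev x (Pure ζ)) ≤ (n : ℝ) ^ l := by
      refine E.pod_N_le hQ (pod_pair_triv (hl.trans hKD) hQ fun j => ?_) (by positivity)
      have := pod_disc_mono (p := 1) hp1'.le (hζ j)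
      simpa using this
    rcases le_or_gt c 0 with hc0 | hc0
    · refine htriv.trans ?_
      rw [← Real.exp_log (show (0 : ℝ) < (n : ℝ) ^ l by positivity), Real.exp_le_exp,
        Real.log_pow]
      linarith
    rcases hβ.eq_or_lt with hb0 | hβp
    · rw [← hb0, mul_zero, Real.zero_rpow hs0.ne', mul_zero] at h1
      exact h1.trans (Real.exp_pos _).le
    rcases h with h | h
    swap
    · exact absurd h hβp.ne'
    refine h1.trans ?_
    have hpl : 0 < (p ^ l)⁻¹ * β := by positivity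
    have hlp : 0 ≤ Real.log (1 / p) := Real.log_nonneg (by
      rw [le_div_iff₀ hp]; linarith)
    have e : (n : ℝ) ^ l * ((p ^ l)⁻¹ * β) ^ s =
        Real.exp (l * Real.log n + s * (l * Real.log (1 / p) + Real.log β)) := by
      rw [Real.exp_add, Real.exp_nat_mul, Real.exp_log (by linarith : (0 : ℝ) < n)]
      congr 1
      rw [Real.rpow_def_of_pos hpl, mul_comm s, Real.log_mul (by positivity) hβp.ne', Real.log_inv,
        Real.log_pow, one_div, Real.log_inv]
      congr 2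
      ring
    rw [e, Real.exp_le_exp]
    have h4 : (l : ℝ) * Real.log (1 / p) + Real.log β ≤ -(c / κ) := by
      have h5 : (l : ℝ) * Real.log (1 / p) ≤ K * Real.log (1 / p) :=
        mul_le_mul_of_nonneg_right hlK hlp
      have h6 : 0 ≤ (K : ℝ) * Real.log (n + 1) :=
        mul_nonneg (by positivity) (Real.log_nonneg (by linarith))
      linarith
    have h7 : s * (l * Real.log (1 / p) + Real.log β) ≤ -c := by
      have h8 : 0 ≤ c / κ := by positivity
      calc s * (l * Real.log (1 / p) + Real.log β) ≤ s * -(c / κ) :=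
            mul_le_mul_of_nonneg_left h4 hs0.le
        _ ≤ κ * -(c / κ) := by
            have := mul_le_mul_of_nonneg_right hs1 h8
            linarith
        _ = -c := by field_simp
    linarith

end Crest.Agent.R300U
end

-- ▼ part R300/U/TForm
section
/-!
Row 300, upper bound: closed form of the trace moments (`TFormStatement`).

* `tr q p w f`: expectation of `f` of a trace of the list `w`, by recursion on `w`;
* `st gs`: the statistic with gap list `gs`;
* `Cl`: the nested closed sum; `tr_st_eq_Cl` (Pascal's rule);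
* `sum_strictMono_succ`: first-letter decomposition of sums over strictly increasing tuples.
-/
set_option autoImplicit false

namespace Crest.Agent.R300U

open scoped BigOperators
open Crest.FinProb Crest.TraceRecon Finset

namespace TForm

/-! ### expectation over traces by recursion on the word -/

theorem bernoulliWeight_cons {n : ℕ} (p : ℝ) (b : Bool) (k : Fin n → Bool) :
    bernoulliWeight p (Fin.cons b k : Fin (n + 1) → Bool)
      = (if b then p else 1 - p) * bernoulliWeight p k := by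
  unfold bernoulliWeight
  rw [Fin.prod_univ_succ]
  simp

theorem traceOf_cons {n : ℕ} (x : Fin (n + 1) → Bool) (b : Bool) (k : Fin n → Bool) :
    traceOf x (Fin.cons b k : Fin (n + 1) → Bool)
      = if b then x 0 :: traceOf (fun i => x i.succ) k else traceOf (fun i => x i.succ) k := by
  unfold traceOf
  rw [List.finRange_succ]
  have h : List.map x (List.filter (fun i => (Fin.cons b k : Fin (n + 1) → Bool) i)
        (List.map Fin.succ (List.finRange n)))
      = List.map (fun i => x i.succ) (List.filter (fun i => k i) (List.finRange n)) := by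
    rw [List.filter_map, List.map_map]
    rfl
  cases b
  · simp only [Fin.cons_zero, List.filter_cons, Bool.false_eq_true, if_false]
    exact h
  · simp only [Fin.cons_zero, List.filter_cons, if_true, List.map_cons]
    rw [h]

/-- expectation of `f` of a trace of `w` at retention `p` -/
def tr (p : ℝ) : List Bool → (List Bool → ℝ) → ℝ
  | [], f => f []
  | c :: w, f => (1 - p) * tr p w f + p * tr p w (fun y => f (c :: y))

theorem sum_keep_eq_tr (p : ℝ) : ∀ {n : ℕ} (x : Fin n → Bool) (f : List Bool → ℝ),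
    ∑ keep : Fin n → Bool, bernoulliWeight p keep * f (traceOf x keep)
      = tr p (List.ofFn x) f := by
  intro n
  induction n with
  | zero =>
    intro x f
    rw [List.ofFn_zero, Fintype.sum_unique]
    simp [bernoulliWeight, traceOf, tr]
  | succ n ih =>
    intro x f
    rw [List.ofFn_succ, tr, ← ih (fun i => x i.succ) f,
      ← ih (fun i => x i.succ) (fun y => f (x 0 :: y)),
      ← (Fin.consEquiv (fun _ => Bool)).sum_comp, Fintype.sum_prod_type]
    simp only [Fintype.sum_bool]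
    rw [Finset.mul_sum, Finset.mul_sum, add_comm]
    congr 1
    · refine Finset.sum_congr rfl fun k _ => ?_
      have : (Fin.consEquiv (fun _ : Fin (n + 1) => Bool)) (false, k)
          = (Fin.cons false k : Fin (n + 1) → Bool) := rfl
      rw [this, bernoulliWeight_cons, traceOf_cons]
      simp only [Bool.false_eq_true, if_false]
      rw [mul_assoc]
    · refine Finset.sum_congr rfl fun k _ => ?_
      have : (Fin.consEquiv (fun _ : Fin (n + 1) => Bool)) (true, k)
          = (Fin.cons true k : Fin (n + 1) → Bool) := rfl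
      rw [this, bernoulliWeight_cons, traceOf_cons]
      simp only [if_true]
      rw [mul_assoc]

theorem tr_const (p : ℝ) (w : List Bool) (z : ℝ) : tr p w (fun _ => z) = z := by
  induction w with
  | nil => rfl
  | cons c w ih => rw [tr, ih]; ring

/-! ### the statistic with a list of gaps -/

/-- `st gs y`: with gap list `gs = [g_0, g_1, …]`, the letters of `y` at the positions
`g_0, g_0+1+g_1, …` are all `1`. -/
def st : List ℕ → List Bool → ℝ
  | [], _ => 1
  | _ :: _, [] => 0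
  | 0 :: gs, c :: y => if c then st gs y else 0
  | (g + 1) :: gs, _ :: y => st (g :: gs) y

theorem st_nil (y : List Bool) : st [] y = 1 := by
  cases y <;> simp [st]

theorem st_cons (gs : List ℕ) : ∀ (g : ℕ) (y : List Bool),
    st (g :: gs) y = if y.getD g false = true then st gs (y.drop (g + 1)) else 0 := by
  intro g
  induction g with
  | zero =>
    intro y
    cases y with
    | nil => simp [st]
    | cons c y => simp [st]
  | succ g ih =>
    intro y
    cases y with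
    | nil => simp [st]
    | cons c y =>
      rw [st, ih y]
      simp

/-- gap list of a tuple of positions with offset `c` -/
def gl : (c : ℕ) → {l : ℕ} → (Fin l → ℕ) → List ℕ
  | _, 0, _ => []
  | c, _ + 1, a => (a 0 - c) :: gl (a 0 + 1) (fun i => a i.succ)

theorem st_gl : ∀ {l : ℕ} (c : ℕ) (a : Fin l → ℕ), StrictMono a → (∀ i, c ≤ a i) →
    ∀ y : List Bool,
    st (gl c a) y = if ∀ i, y.getD (a i - c) false = true then 1 else 0 := by
  intro l
  induction l with
  | zero => intro c a _ _ y; simp [gl, st_nil]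
  | succ l ih =>
    intro c a ha hc y
    rw [gl, st_cons]
    have h1 : StrictMono (fun i : Fin l => a i.succ) := fun i j hij =>
      ha (Fin.succ_lt_succ_iff.mpr hij)
    have h2 : ∀ i : Fin l, a 0 + 1 ≤ a i.succ := fun i => ha (Fin.succ_pos i)
    rw [ih (a 0 + 1) _ h1 h2]
    have h0 := hc 0
    have key : ∀ i : Fin l, (y.drop (a 0 - c + 1)).getD (a i.succ - (a 0 + 1)) false
        = y.getD (a i.succ - c) false := by
      intro i
      have h3 := h2 i
      have h4 : a 0 - c + 1 + (a i.succ - (a 0 + 1)) = a i.succ - c := by omega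
      rw [List.getD_eq_getElem?_getD, List.getElem?_drop, h4, ← List.getD_eq_getElem?_getD]
    simp only [key]
    by_cases hh : y.getD (a 0 - c) false = true
    · rw [if_pos hh]
      by_cases hA : ∀ i : Fin l, y.getD (a i.succ - c) false = true
      · rw [if_pos hA, if_pos]
        intro i
        refine Fin.cases hh (fun j => hA j) i
      · rw [if_neg hA, if_neg]
        intro h; exact hA fun i => h i.succ
    · rw [if_neg hh, if_neg]
      intro h; exact hh (h 0)

theorem stat_image {l : ℕ} (a : Fin l → ℕ) (ha : StrictMono a) (y : List Bool) :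
    R300U.stat (Finset.univ.image a) y = st (gl 0 a) y := by
  rw [st_gl 0 a ha (fun i => Nat.zero_le _)]
  unfold R300U.stat
  simp

/-! ### the nested closed sum -/

/-- weight of a gap: from the gap `d` in the word to the gap `g` in the trace -/
noncomputable def W (p : ℝ) (g d : ℕ) : ℝ := p * ((d.choose g : ℕ) * p ^ g * (1 - p) ^ (d - g))

theorem W_zero_zero (p : ℝ) : W p 0 0 = p := by simp [W]

theorem W_succ_zero (p : ℝ) (g : ℕ) : W p (g + 1) 0 = 0 := by simp [W]

theorem W_zero_succ (p : ℝ) (d : ℕ) : W p 0 (d + 1) = (1 - p) * W p 0 d := by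
  simp [W, pow_succ]; ring

theorem W_succ_succ (p : ℝ) (g d : ℕ) :
    W p (g + 1) (d + 1) = (1 - p) * W p (g + 1) d + p * W p g d := by
  unfold W
  rw [Nat.choose_succ_succ, Nat.add_sub_add_right]
  rcases Nat.lt_or_ge d (g + 1) with h | h
  · rw [Nat.choose_eq_zero_of_lt h]; push_cast; ring
  · obtain ⟨k, rfl⟩ := Nat.exists_eq_add_of_le h
    have e1 : g + 1 + k - g = k + 1 := by omega
    have e2 : g + 1 + k - (g + 1) = k := by omega
    rw [e1, e2]; push_cast; ring

/-- the nested closed sum, letters `X`, word length `n`, gap list, start `b` -/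
noncomputable def Cl (p : ℝ) (X : ℕ → ℝ) (n : ℕ) : List ℕ → ℕ → ℝ
  | [], _ => 1
  | g :: gs, b => ∑ v ∈ Finset.Ico b n, W p g (v - b) * X v * Cl p X n gs (v + 1)

theorem Cl_ge (p : ℝ) (X : ℕ → ℝ) {n b : ℕ} (g : ℕ) (gs : List ℕ) (h : n ≤ b) :
    Cl p X n (g :: gs) b = 0 := by
  rw [Cl, Finset.Ico_eq_empty_of_le h, Finset.sum_empty]

theorem Cl_zero_step (p : ℝ) (X : ℕ → ℝ) {n b : ℕ} (gs : List ℕ) (h : b < n) :
    Cl p X n (0 :: gs) b
      = (1 - p) * Cl p X n (0 :: gs) (b + 1) + p * (X b * Cl p X n gs (b + 1)) := by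
  rw [Cl, Finset.sum_eq_sum_Ico_succ_bot h, Nat.sub_self, W_zero_zero, Cl, Finset.mul_sum]
  rw [add_comm]
  congr 1
  · refine Finset.sum_congr rfl fun v hv => ?_
    have hv' := (Finset.mem_Ico.mp hv).1
    have e : v - b = (v - (b + 1)) + 1 := by omega
    rw [e, W_zero_succ]; ring
  · ring

theorem Cl_succ_step (p : ℝ) (X : ℕ → ℝ) {n b : ℕ} (g : ℕ) (gs : List ℕ) (h : b < n) :
    Cl p X n ((g + 1) :: gs) b
      = (1 - p) * Cl p X n ((g + 1) :: gs) (b + 1) + p * Cl p X n (g :: gs) (b + 1) := by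
  rw [Cl, Finset.sum_eq_sum_Ico_succ_bot h, Nat.sub_self, W_succ_zero, Cl, Cl, Finset.mul_sum,
    Finset.mul_sum, ← Finset.sum_add_distrib]
  rw [zero_mul, zero_mul, zero_add]
  refine Finset.sum_congr rfl fun v hv => ?_
  have hv' := (Finset.mem_Ico.mp hv).1
  have e : v - b = (v - (b + 1)) + 1 := by omega
  rw [e, W_succ_succ]; ring

/-- indicator of the letter at position `i` -/
def X (w : List Bool) (i : ℕ) : ℝ := if w.getD i false = true then 1 else 0

theorem tr_st_eq_Cl (p : ℝ) (w : List Bool) : ∀ (k b : ℕ), b + k = w.length → ∀ gs : List ℕ,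
    tr p (w.drop b) (st gs) = Cl p (X w) w.length gs b := by
  intro k
  induction k with
  | zero =>
    intro b hb gs
    have hd : w.drop b = [] := List.drop_eq_nil_of_le (by omega)
    rw [hd, tr]
    cases gs with
    | nil => simp [st_nil, Cl]
    | cons g gs => rw [Cl_ge _ _ _ _ (by omega)]; simp [st]
  | succ k ih =>
    intro b hb gs
    have hb' : b < w.length := by omega
    have ihb := ih (b + 1) (by omega)
    cases gs with
    | nil =>
      have : st [] = fun _ => (1 : ℝ) := funext st_nil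
      rw [this, tr_const]
      rfl
    | cons g gs =>
      rw [List.drop_eq_getElem_cons hb', tr, ihb]
      cases g with
      | zero =>
        rw [Cl_zero_step _ _ _ hb']
        congr 2
        have hX : X w b = if w[b] = true then 1 else 0 := by
          unfold X; rw [List.getD_eq_getElem _ _ hb']
        rw [hX]
        by_cases hc : w[b] = true
        · simp only [st, hc, if_true, one_mul]
          exact ihb gs
        · have hc' : w[b] = false := by simpa using hc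
          simp only [st, hc', Bool.false_eq_true, if_false, zero_mul]
          exact tr_const p _ 0
      | succ g =>
        rw [Cl_succ_step _ _ _ _ hb', ← ihb (g :: gs)]
        congr 2

theorem TT_image {n l : ℕ} (p : ℝ) (a : Fin l → ℕ) (ha : StrictMono a) (x : Fin n → Bool) :
    R300U.TT p (Finset.univ.image a) x = Cl p (X (List.ofFn x)) n (gl 0 a) 0 := by
  unfold R300U.TT
  rw [sum_keep_eq_tr]
  have : R300U.stat (Finset.univ.image a) = st (gl 0 a) := funext (stat_image a ha)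
  rw [this]
  have h := tr_st_eq_Cl p (List.ofFn x) n 0 (by simp) (gl 0 a)
  rw [List.drop_zero] at h
  rw [h, List.length_ofFn]

/-! ### sums over strictly increasing tuples -/

/-- gaps of a tuple with offset `b` -/
def gap (b : ℕ) {l : ℕ} (u : Fin l → ℕ) (j : Fin l) : ℕ :=
  if h : (j : ℕ) = 0 then u j - b else u j - u ⟨j - 1, by omega⟩ - 1

theorem gap_cons_zero (b v : ℕ) {l : ℕ} (u : Fin l → ℕ) :
    gap b (Fin.cons v u : Fin (l + 1) → ℕ) 0 = v - b := by
  simp [gap]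

theorem gap_cons_succ (b v : ℕ) {l : ℕ} (u : Fin l → ℕ) (j : Fin l) :
    gap b (Fin.cons v u : Fin (l + 1) → ℕ) j.succ = gap (v + 1) u j := by
  unfold gap
  have h : ¬ ((j.succ : Fin (l + 1)) : ℕ) = 0 := by simp
  rw [dif_neg h, Fin.cons_succ]
  obtain ⟨j, hj⟩ := j
  cases j with
  | zero =>
    rw [dif_pos rfl]
    have : (⟨(Fin.succ ⟨0, hj⟩ : Fin (l + 1)).val - 1, by omega⟩ : Fin (l + 1)) = 0 := by
      ext; simp
    rw [this, Fin.cons_zero]
    omega
  | succ k =>
    have h2 : ¬ ((⟨k + 1, hj⟩ : Fin l) : ℕ) = 0 := by simp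
    rw [dif_neg h2]
    have : (⟨(Fin.succ ⟨k + 1, hj⟩ : Fin (l + 1)).val - 1, by simp; omega⟩ : Fin (l + 1))
        = Fin.succ ⟨k, by omega⟩ := by
      ext; simp
    rw [this, Fin.cons_succ]
    rfl

theorem strictMono_cons_iff {l : ℕ} (v : ℕ) (u : Fin l → ℕ) :
    StrictMono (Fin.cons v u : Fin (l + 1) → ℕ) ↔ (∀ i, v < u i) ∧ StrictMono u := by
  constructor
  · intro h
    refine ⟨fun i => ?_, fun i j hij => ?_⟩
    · have := h (Fin.succ_pos i)
      simpa using this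
    · have := h (Fin.succ_lt_succ_iff.mpr hij)
      simpa using this
  · rintro ⟨h1, h2⟩ i j
    refine Fin.cases ?_ (fun i => ?_) i <;> refine Fin.cases ?_ (fun j => ?_) j
    · intro h; exact absurd h (lt_irrefl _)
    · intro _; simpa using h1 j
    · intro h; exact absurd h (Fin.not_lt_zero _)
    · intro h; simpa using h2 (Fin.succ_lt_succ_iff.mp h)

/-- strictly increasing tuples with entries in `[b, n)` -/
noncomputable def SM (b n l : ℕ) : Finset (Fin l → ℕ) :=
  (Fintype.piFinset (fun _ : Fin l => Finset.Ico b n)).filter (fun u => StrictMono u)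

theorem mem_SM {b n l : ℕ} (u : Fin l → ℕ) :
    u ∈ SM b n l ↔ (∀ i, b ≤ u i ∧ u i < n) ∧ StrictMono u := by
  unfold SM
  simp [Fintype.mem_piFinset, Finset.mem_Ico]

theorem SM_zero (b n : ℕ) : SM b n 0 = {Fin.elim0} := by
  ext u
  rw [mem_SM, Finset.mem_singleton]
  constructor
  · intro _; exact Subsingleton.elim _ _
  · intro _; exact ⟨fun i => i.elim0, fun i => i.elim0⟩

/-- first-letter decomposition of a sum over strictly increasing tuples -/
theorem sum_SM_succ {M : Type*} [AddCommMonoid M] (b n l : ℕ) (f : (Fin (l + 1) → ℕ) → M) :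
    ∑ u ∈ SM b n (l + 1), f u
      = ∑ v ∈ Finset.Ico b n, ∑ u ∈ SM (v + 1) n l, f (Fin.cons v u) := by
  rw [Finset.sum_sigma']
  refine Finset.sum_bij' (fun u _ => ⟨u 0, Fin.tail u⟩) (fun z _ => Fin.cons z.1 z.2)
    ?_ ?_ ?_ ?_ ?_
  · intro u hu
    rw [mem_SM] at hu
    obtain ⟨h1, h2⟩ := hu
    rw [Finset.mem_sigma]
    refine ⟨Finset.mem_Ico.mpr (h1 0), ?_⟩
    show Fin.tail u ∈ SM (u 0 + 1) n l
    rw [mem_SM]
    refine ⟨fun i => ⟨h2 (Fin.succ_pos i), (h1 i.succ).2⟩, fun i j hij => ?_⟩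
    exact h2 (Fin.succ_lt_succ_iff.mpr hij)
  · rintro ⟨v, u⟩ hz
    rw [Finset.mem_sigma] at hz
    obtain ⟨h1, h2⟩ := hz
    have h1' : b ≤ v ∧ v < n := Finset.mem_Ico.mp h1
    have h2' : u ∈ SM (v + 1) n l := h2
    rw [mem_SM] at h2'
    show Fin.cons v u ∈ SM b n (l + 1)
    rw [mem_SM, strictMono_cons_iff]
    refine ⟨fun i => ?_, fun i => (h2'.1 i).1, h2'.2⟩
    refine Fin.cases ?_ (fun i => ?_) i
    · simpa using h1'
    · have := h2'.1 i
      simp only [Fin.cons_succ]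
      omega
  · intro u _; exact Fin.cons_self_tail u
  · rintro ⟨v, u⟩ _; rfl
  · intro u _
    show f u = f (Fin.cons (u 0) (Fin.tail u))
    rw [Fin.cons_self_tail]

/-- product form of the decomposition -/
theorem sum_SM_prod_succ {A : Type*} [CommSemiring A] (b n l : ℕ) (φ : Fin (l + 1) → ℕ → A)
    (X : ℕ → A) :
    ∑ u ∈ SM b n (l + 1), ∏ j, (φ j (gap b u j) * X (u j))
      = ∑ v ∈ Finset.Ico b n, φ 0 (v - b) * X v *
          ∑ u ∈ SM (v + 1) n l, ∏ j, (φ j.succ (gap (v + 1) u j) * X (u j)) := by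
  rw [sum_SM_succ]
  refine Finset.sum_congr rfl fun v _ => ?_
  rw [Finset.mul_sum]
  refine Finset.sum_congr rfl fun u _ => ?_
  rw [Fin.prod_univ_succ, gap_cons_zero, Fin.cons_zero]
  congr 1
  refine Finset.prod_congr rfl fun j _ => ?_
  rw [gap_cons_succ, Fin.cons_succ]

theorem sum_SM_eq_Cl (p : ℝ) (X : ℕ → ℝ) (n : ℕ) : ∀ (l b c : ℕ) (a : Fin l → ℕ),
    ∑ u ∈ SM b n l, ∏ j, (W p (gap c a j) (gap b u j) * X (u j)) = Cl p X n (gl c a) b := by
  intro l
  induction l with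
  | zero =>
    intro b c a
    rw [SM_zero, Finset.sum_singleton]
    simp [gl, Cl]
  | succ l ih =>
    intro b c a
    rw [sum_SM_prod_succ b n l (fun j d => W p (gap c a j) d) X, gl, Cl]
    refine Finset.sum_congr rfl fun v _ => ?_
    have ha : a = Fin.cons (a 0) (fun i => a i.succ) := (Fin.cons_self_tail a).symm
    have h0 : gap c a 0 = a 0 - c := by simp [gap]
    rw [h0, ← ih (v + 1) (a 0 + 1) (fun i => a i.succ)]
    congr 1
    refine Finset.sum_congr rfl fun u _ => ?_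
    refine Finset.prod_congr rfl fun j _ => ?_
    have h1 : gap c a j.succ = gap (a 0 + 1) (fun i => a i.succ) j := by
      conv_lhs => rw [ha]
      exact gap_cons_succ c (a 0) (fun i => a i.succ) j
    rw [h1]

theorem TT_eq_sum {n l : ℕ} (p : ℝ) (a : Fin l → ℕ) (ha : StrictMono a) (x : Fin n → Bool) :
    R300U.TT p (Finset.univ.image a) x
      = ∑ u ∈ SM 0 n l, ∏ j, (W p (gap 0 a j) (gap 0 u j) * X (List.ofFn x) (u j)) := by
  rw [TT_image p a ha x, sum_SM_eq_Cl]

theorem xv_eq {n : ℕ} (u : ℕ) (x : Fin n → Bool) :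
    (xv u : R n) x = ((X (List.ofFn x) u : ℝ) : ℂ) := by
  unfold xv X
  by_cases h : u < n
  · rw [dif_pos h, List.getD_eq_getElem _ _ (by simpa using h)]
    by_cases hx : x ⟨u, h⟩ = true <;> simp [hx]
  · rw [dif_neg h, List.getD_eq_default _ _ (by simpa using h)]
    simp

end TForm

open TForm in
/-- closed form of the trace moments -/
theorem tForm : TFormStatement := by
  intro n l p a ha
  funext x
  unfold Tc
  rw [TT_eq_sum p a ha x]
  unfold Tmom
  rw [Finset.sum_apply]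
  have hS : (Fintype.piFinset (fun _ : Fin l => Finset.range n)).filter (fun u => StrictMono u)
      = SM 0 n l := by
    unfold SM; rw [Finset.range_eq_Ico]
  rw [hS]
  push_cast
  refine Finset.sum_congr rfl fun u _ => ?_
  rw [Pi.smul_apply, Finset.prod_apply, smul_eq_mul]
  rw [Finset.prod_mul_distrib]
  congr 1
  · have e : ((p : ℂ) ^ l) = ∏ _j : Fin l, (p : ℂ) := by simp
    rw [e, ← Finset.prod_mul_distrib]
    refine Finset.prod_congr rfl fun j _ => ?_
    unfold W gap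
    simp only [Nat.sub_zero]
    push_cast
    rfl
  · refine Finset.prod_congr rfl fun j _ => ?_
    rw [xv_eq]

end Crest.Agent.R300U
private theorem rz_db20ab7d8f : type_of% @_root_.Crest.Agent.R300U.TForm.Cl.eq_def := @_root_.Crest.Agent.R300U.TForm.Cl.eq_def -- L182
private theorem rz_aa7ff3dd5e : type_of% @_root_.Crest.Agent.R300U.TForm.Cl.eq_1 := @_root_.Crest.Agent.R300U.TForm.Cl.eq_1 -- L182
private theorem rz_e7ca49a446 : type_of% @_root_.Crest.Agent.R300U.TForm.gl.eq_def := @_root_.Crest.Agent.R300U.TForm.gl.eq_def -- L116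
private theorem rz_4423e8adab : type_of% @_root_.Crest.Agent.R300U.TForm.gl.eq_1 := @_root_.Crest.Agent.R300U.TForm.gl.eq_1 -- L116
private theorem rz_46a03b4151 : type_of% @_root_.Crest.Agent.R300U.TForm.st.eq_def := @_root_.Crest.Agent.R300U.TForm.st.eq_def -- L89
private theorem rz_ed6dc88030 : type_of% @_root_.Crest.Agent.R300U.TForm.st.eq_1 := @_root_.Crest.Agent.R300U.TForm.st.eq_1 -- L89
private theorem rz_411332fb85 : type_of% @_root_.Crest.Agent.R300U.TForm.tr.eq_def := @_root_.Crest.Agent.R300U.TForm.tr.eq_def -- L46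
private theorem rz_e7c55417e5 : type_of% @_root_.Crest.Agent.R300U.TForm.tr.eq_1 := @_root_.Crest.Agent.R300U.TForm.tr.eq_1 -- L46
end

-- ▼ part R300/U/Sched
section
/-!
Row 300, upper bound: proof of `SchedStatement` (the parameter schedule), following part 3 of the
blueprint of helper300 (with `κ = 6/5`, `H = I + 8`).
-/
set_option autoImplicit false

namespace Crest.Agent.R300U.SchedP

noncomputable section

open Real

/-- The frequency range as a function of the damping. -/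
def Rf (q L : ℝ) (j : ℕ) (θ : ℝ) : ℝ :=
  max (θ * (6 / 5) ^ j / (12 * q)) (√(θ * (6 / 5) ^ j / (16 * q * (L * 4 ^ (j + 1)))))

/-- The sequence `θ_j = sqrt (2 A_j τ_j)`. -/
def th (C0 q L θ0 : ℝ) : ℕ → ℝ
  | 0 => θ0
  | j + 1 => Rf q L j (th C0 q L θ0 j) / (32 * C0)

section
variable {C0 q L θ0 : ℝ} (hC0 : 1 ≤ C0) (hq : 0 < q) (hL : 0 < L) (hθ0 : 0 < θ0)
include hC0 hq hL hθ0

omit hC0 hL hθ0 in
lemma Rf_pos {j : ℕ} {θ : ℝ} (hθ : 0 < θ) : 0 < Rf q L j θ := by
  unfold Rf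
  have : 0 < θ * (6 / 5) ^ j / (12 * q) := by positivity
  exact lt_max_of_lt_left this

set_option linter.unusedSectionVars false in
lemma th_pos : ∀ j, 0 < th C0 q L θ0 j
  | 0 => hθ0
  | j + 1 => by
    have := Rf_pos (L := L) (j := j) hq (th_pos j)
    have h2 : 0 < C0 := by linarith
    simp only [th]
    positivity

lemma th_lin (hq1 : q * (6144 * C0 ^ 2) ≤ 1) (j : ℕ) :
    th C0 q L θ0 j * (6 / 5) ^ j * (16 * C0) ≤ th C0 q L θ0 (j + 1) := by
  have hp := th_pos hC0 hq hL hθ0 j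
  have h2 : 0 < C0 := by linarith
  have h3 : th C0 q L θ0 j * (6 / 5) ^ j / (12 * q) ≤ Rf q L j (th C0 q L θ0 j) := le_max_left _ _
  have h4 : th C0 q L θ0 j * (6 / 5) ^ j * (16 * C0) ≤
      th C0 q L θ0 j * (6 / 5) ^ j / (12 * q) / (32 * C0) := by
    rw [div_div, le_div_iff₀ (by positivity)]
    have h5 : 0 < th C0 q L θ0 j * (6 / 5) ^ j := by positivity
    nlinarith
  refine h4.trans ?_
  simp only [th]
  gcongr

lemma th_quad (j : ℕ) :
    th C0 q L θ0 j * (3 / 10) ^ j / (65536 * C0 ^ 2 * L * q) ≤ th C0 q L θ0 (j + 1) ^ 2 := by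
  have hp := th_pos hC0 hq hL hθ0 j
  have h2 : 0 < C0 := by linarith
  have h3 : √(th C0 q L θ0 j * (6 / 5) ^ j / (16 * q * (L * 4 ^ (j + 1)))) ≤
    Rf q L j (th C0 q L θ0 j) := le_max_right _ _
  have h4 : th C0 q L θ0 j * (6 / 5) ^ j / (16 * q * (L * 4 ^ (j + 1))) ≤
    Rf q L j (th C0 q L θ0 j) ^ 2 := by
    have h5 := pow_le_pow_left₀ (Real.sqrt_nonneg _) h3 2
    rwa [Real.sq_sqrt (by positivity)] at h5
  have h6 : th C0 q L θ0 (j + 1) ^ 2 = Rf q L j (th C0 q L θ0 j) ^ 2 / (32 * C0) ^ 2 := by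
    simp only [th]; rw [div_pow]
  rw [h6]
  have h7 : th C0 q L θ0 j * (3 / 10) ^ j / (65536 * C0 ^ 2 * L * q) =
     th C0 q L θ0 j * (6 / 5) ^ j / (16 * q * (L * 4 ^ (j + 1))) / (32 * C0) ^ 2 := by
    have h8 : ((3 : ℝ) / 10) ^ j = (6 / 5) ^ j / 4 ^ j := by
      rw [← div_pow]; norm_num
    rw [h8, pow_succ]
    field_simp
    ring
  rw [h7]
  gcongr

lemma log_lin (hq1 : q * (6144 * C0 ^ 2) ≤ 1) (j : ℕ) :
    log (th C0 q L θ0 j) + j * log (6 / 5) + log (16 * C0) ≤ log (th C0 q L θ0 (j + 1)) := by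
  have hp := th_pos hC0 hq hL hθ0 j
  have h2 : 0 < C0 := by linarith
  have h := Real.log_le_log (by positivity) (th_lin hC0 hq hL hθ0 hq1 j)
  rw [Real.log_mul (by positivity) (by positivity), Real.log_mul (by positivity) (by positivity),
    Real.log_pow] at h
  exact h

lemma log_quad (j : ℕ) :
    log (th C0 q L θ0 j) - j * log (10 / 3) - log (65536 * C0 ^ 2 * L) + log (1 / q) ≤
      2 * log (th C0 q L θ0 (j + 1)) := by
  have hp := th_pos hC0 hq hL hθ0 j
  have h2 : 0 < C0 := by linarith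
  have h := Real.log_le_log (by positivity) (th_quad hC0 hq hL hθ0 j)
  rw [Real.log_div (by positivity) (by positivity), Real.log_mul (by positivity) (by positivity),
    Real.log_mul (by positivity) (by positivity), Real.log_pow, Real.log_pow] at h
  have h3 : log (10 / 3) = - log (3 / 10) := by
    rw [← Real.log_inv]; norm_num
  have h4 : log (1 / q) = - log q := by rw [one_div, Real.log_inv]
  rw [h3, h4]
  push_cast at h
  linarith

/-- bound for `log (1/θ_j)`. -/
lemma log_bound (hc : 1 ≤ 65536 * C0 ^ 2 * L) (j : ℕ) :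
    - log (th C0 q L θ0 j) + log (1 / q) ≤
      (- log θ0 + log (1 / q)) / 2 ^ j + j * log (10 / 3) + log (65536 * C0 ^ 2 * L) := by
  have hc' : 0 ≤ log (65536 * C0 ^ 2 * L) := Real.log_nonneg hc
  have ha : 0 ≤ log (10 / 3 : ℝ) := Real.log_nonneg (by norm_num)
  induction j with
  | zero => simp [th]; linarith
  | succ j ih =>
    have h := log_quad hC0 hq hL hθ0 j
    have e : (- log θ0 + log (1 / q)) / 2 ^ (j + 1) = ((- log θ0 + log (1 / q)) / 2 ^ j) / 2 := by
      rw [pow_succ, div_div]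
    rw [e]
    push_cast
    nlinarith

/-- after `I + 8` levels the range is full. -/
lemma th_ge_one (hq1 : q * (6144 * C0 ^ 2) ≤ 1) (I : ℕ) (hLI : L = I + 9)
    (hW : (- log θ0 + log (1 / q)) / 2 ^ I ≤ 1 + log (1 / q)) :
    1 ≤ th C0 q L θ0 (I + 8) := by
  have h2 : 0 < C0 := by linarith
  have hI : (0 : ℝ) ≤ I := Nat.cast_nonneg I
  have hc : 1 ≤ 65536 * C0 ^ 2 * L := by
    have : (1 : ℝ) ≤ C0 ^ 2 := one_le_pow₀ hC0
    rw [hLI]; nlinarith
  have h := log_bound hC0 hq hL hθ0 hc I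
  have h1 : - log (th C0 q L θ0 I) ≤ 1 + I * log (10 / 3) + log (65536 * C0 ^ 2 * L) := by linarith
  have hk : ∀ k : ℕ, log (th C0 q L θ0 I) + k * (I * log (6 / 5) + log (16 * C0)) ≤
      log (th C0 q L θ0 (I + k)) := by
    intro k
    induction k with
    | zero => simp
    | succ k ih =>
      have h3 := log_lin hC0 hq hL hθ0 hq1 (I + k)
      have h4 : 0 ≤ log (6 / 5 : ℝ) := Real.log_nonneg (by norm_num)
      have h5 : (0 : ℝ) ≤ k := Nat.cast_nonneg k
      have h6 : 0 ≤ (k : ℝ) * log (6 / 5 : ℝ) := by positivity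
      rw [← add_assoc]
      push_cast at h3 ⊢
      nlinarith
  have h8 := hk 8
  -- numerics
  have n1 : (1 : ℝ) / 9 ≤ 8 * log (6 / 5) - log (10 / 3) := by
    have e : 8 * log (6 / 5 : ℝ) - log (10 / 3) = log ((6 / 5) ^ 8 * (3 / 10)) := by
      rw [Real.log_mul (by norm_num) (by norm_num), Real.log_pow]
      have : log (10 / 3 : ℝ) = - log (3 / 10) := by rw [← Real.log_inv]; norm_num
      rw [this]; push_cast; ring
    rw [e]
    have := Real.one_sub_inv_le_log_of_pos (x := (6 / 5 : ℝ) ^ 8 * (3 / 10)) (by norm_num)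
    refine le_trans ?_ this
    norm_num
  have n2 : log (65536 * C0 ^ 2 * L) ≤ log (65536 * C0 ^ 2) + log 9 + I / 9 := by
    have e : 65536 * C0 ^ 2 * L = (65536 * C0 ^ 2) * 9 * (1 + I / 9) := by rw [hLI]; ring
    rw [e, Real.log_mul (by positivity) (by positivity), Real.log_mul (by positivity) (by norm_num)]
    have := Real.log_le_sub_one_of_pos (x := 1 + (I : ℝ) / 9) (by positivity)
    linarith
  have n3 : 1 + log (65536 * C0 ^ 2) + log 9 ≤ 8 * log (16 * C0) := by
    have e : 8 * log (16 * C0) = log ((16 * C0) ^ 8) := by rw [Real.log_pow]; push_cast; ring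
    have e2 : 1 + log (65536 * C0 ^ 2) + log 9 = log (Real.exp 1 * (65536 * C0 ^ 2) * 9) := by
      rw [Real.log_mul (x := Real.exp 1 * (65536 * C0 ^ 2)) (by positivity) (by norm_num),
        Real.log_mul (x := Real.exp 1) (by positivity) (by positivity), Real.log_exp]
    rw [e, e2]
    apply Real.log_le_log (by positivity)
    have h9 : Real.exp 1 ≤ 3 := by linarith [Real.exp_one_lt_d9]
    have h10 : (1 : ℝ) ≤ C0 ^ 6 := one_le_pow₀ hC0
    have h11 : 0 < C0 ^ 2 := by positivity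
    calc Real.exp 1 * (65536 * C0 ^ 2) * 9 ≤ 3 * (65536 * C0 ^ 2) * 9 := by gcongr
      _ ≤ 16 ^ 8 * C0 ^ 2 * C0 ^ 6 := by nlinarith
      _ = (16 * C0) ^ 8 := by ring
  have h9 : 0 ≤ log (th C0 q L θ0 (I + 8)) := by
    push_cast at h8
    nlinarith
  have hp := th_pos hC0 hq hL hθ0 (I + 8)
  by_contra hcon
  push Not at hcon
  exact absurd (Real.log_neg hp hcon) (by linarith)

end

/-- Losses: with `1/θ ≤ exp B`, `τ = θ²/(2A)`. -/
lemma loss1 {θ A B x : ℝ} (hθ : 0 < θ) (hA : 1 ≤ A) (hB : 0 ≤ B) (hθB : 1 / θ ≤ Real.exp B)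
    (hx0 : 0 ≤ x) (hx : x ≤ 4) :
    log (1 + x / √(θ ^ 2 / (2 * A))) ≤ 2 + (1 / 2) * log (2 * A) + B := by
  have h1 : √(θ ^ 2 / (2 * A)) = θ / √(2 * A) := by
    rw [Real.sqrt_div (by positivity), Real.sqrt_sq hθ.le]
  have h2 : 1 ≤ √(2 * A) := by
    rw [Real.one_le_sqrt]; linarith
  have h3 : 1 ≤ Real.exp B := Real.one_le_exp hB
  have h4 : 1 + x / √(θ ^ 2 / (2 * A)) ≤ 5 * (√(2 * A) * Real.exp B) := by
    rw [h1, div_div_eq_mul_div]
    have e : x * √(2 * A) / θ = x * (√(2 * A) * (1 / θ)) := by ring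
    rw [e]
    have h5 : √(2 * A) * (1 / θ) ≤ √(2 * A) * Real.exp B := by gcongr
    have h6 : 1 ≤ √(2 * A) * Real.exp B := by nlinarith
    have h7 : x * (√(2 * A) * (1 / θ)) ≤ 4 * (√(2 * A) * Real.exp B) := by
      apply mul_le_mul hx h5 (by positivity) (by norm_num)
    linarith
  have h5 : 0 < 1 + x / √(θ ^ 2 / (2 * A)) := by positivity
  refine (Real.log_le_log h5 h4).trans ?_
  rw [Real.log_mul (by norm_num) (by positivity), Real.log_mul (by positivity) (by positivity),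
    Real.log_exp, Real.log_sqrt (by positivity)]
  have h8 : log 5 ≤ 2 := by
    have e : (2 : ℝ) = log (Real.exp 2) := by rw [Real.log_exp]
    rw [e]
    apply Real.log_le_log (by norm_num)
    have := Real.exp_one_gt_d9
    have e2 : Real.exp 2 = Real.exp 1 * Real.exp 1 := by rw [← Real.exp_add]; norm_num
    rw [e2]; nlinarith
  linarith

lemma log_2A {A : ℝ} (hA : 1 ≤ A) : log (2 * A) ≤ A / 600 + 7 := by
  have h1 := Real.log_le_sub_one_of_pos (x := A / 600) (by positivity)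
  have e : log (2 * A) = log 1200 + log (A / 600) := by
    rw [← Real.log_mul (by norm_num) (by positivity)]; congr 1; ring
  have h2 : log 1200 ≤ 8 := by
    have h3 : log (1200 : ℝ) ≤ log (2 ^ 11) := Real.log_le_log (by norm_num) (by norm_num)
    rw [Real.log_pow] at h3
    have := Real.log_two_lt_d9
    push_cast at h3
    linarith
  rw [e]; linarith

/-- lower bounds for `A_j = (15/2)^(I+8) * Ast * (2/15)^j`, `j ≤ I + 8`. -/
lemma A_lower {Ast v : ℝ} (hA : 0 ≤ Ast) (hv : 0 ≤ v) (hvA : v ≤ Ast) {I j : ℕ} (hj : j ≤ I + 8) :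
    Ast ≤ (15 / 2) ^ (I + 8) * Ast * (2 / 15) ^ j ∧
    256 * (2 ^ I / 2 ^ j * v) ≤ (15 / 2) ^ (I + 8) * Ast * (2 / 15) ^ j := by
  obtain ⟨d, hd⟩ := Nat.exists_eq_add_of_le hj
  have e1 : (15 / 2 : ℝ) ^ (I + 8) * Ast * (2 / 15) ^ j = (15 / 2) ^ d * Ast := by
    rw [hd, pow_add]
    have : (15 / 2 : ℝ) ^ j * (2 / 15) ^ j = 1 := by rw [← mul_pow]; norm_num
    calc (15 / 2 : ℝ) ^ j * (15 / 2) ^ d * Ast * (2 / 15) ^ j
        = ((15 / 2 : ℝ) ^ j * (2 / 15) ^ j) * ((15 / 2) ^ d * Ast) := by ring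
      _ = _ := by rw [this, one_mul]
  have e2 : 256 * ((2 : ℝ) ^ I / 2 ^ j * v) = 2 ^ d * v := by
    have e3 : (2 : ℝ) ^ I * 256 = 2 ^ j * 2 ^ d := by
      rw [← pow_add, ← hd, pow_add]; norm_num
    field_simp
    linear_combination v * e3
  rw [e1, e2]
  have h1 : (1 : ℝ) ≤ (15 / 2) ^ d := one_le_pow₀ (by norm_num)
  have h2 : (2 : ℝ) ^ d ≤ (15 / 2) ^ d := pow_le_pow_left₀ (by norm_num) (by norm_num) d
  constructor
  · nlinarith
  · calc (2 : ℝ) ^ d * v ≤ (15 / 2) ^ d * Ast := by gcongr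

/-- the bound `B_j` for `log (1/θ_j)` is small compared to `A_j` -/
lemma key {C0 C1 C2 u : ℝ} (hC0 : 1 ≤ C0) (hC1 : 0 ≤ C1) (hC2 : 0 ≤ C2) (hu : 0 ≤ u)
    {I j : ℕ} (hj : j ≤ I + 8) :
    5 * (2 ^ I / 2 ^ j * (1 + u) + j * log (10 / 3) + log (65536 * C0 ^ 2 * (I + 9))) +
      (C1 + C2 + 40) ≤
    ((15 / 2) ^ (I + 8) * (160 * (220 + 5 * log (65536 * C0 ^ 2) + C1 + C2) * (1 + u + I)) *
      (2 / 15) ^ j) / 80 := by
  have hI : (0 : ℝ) ≤ I := Nat.cast_nonneg I
  have hlc : 0 ≤ log (65536 * C0 ^ 2) := by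
    apply Real.log_nonneg
    have : (1 : ℝ) ≤ C0 ^ 2 := one_le_pow₀ hC0
    linarith
  have hjr : (j : ℝ) ≤ I + 8 := by exact_mod_cast hj
  have hj0 : (0 : ℝ) ≤ j := Nat.cast_nonneg j
  set K2 : ℝ := 220 + 5 * log (65536 * C0 ^ 2) + C1 + C2 with hK2
  have hK2' : 220 ≤ K2 := by rw [hK2]; linarith
  have hAst : (1 + u) ≤ 160 * K2 * (1 + u + I) := by
    have : (1 : ℝ) ≤ 160 * K2 := by linarith
    nlinarith
  obtain ⟨h1, h2⟩ := A_lower (Ast := 160 * K2 * (1 + u + I)) (v := 160 * K2 * (1 + u)) (by positivity)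
    (by positivity) (by nlinarith) hj
  have ha : log (10 / 3 : ℝ) ≤ 7 / 3 := by
    have := Real.log_le_sub_one_of_pos (x := (10 / 3 : ℝ)) (by norm_num)
    linarith
  have ha0 : 0 ≤ log (10 / 3 : ℝ) := Real.log_nonneg (by norm_num)
  have hc : log (65536 * C0 ^ 2 * (I + 9)) ≤ log (65536 * C0 ^ 2) + (I + 8) := by
    rw [Real.log_mul (by positivity) (by positivity)]
    have := Real.log_le_sub_one_of_pos (x := (I : ℝ) + 9) (by positivity)
    linarith
  have h3 : (j : ℝ) * log (10 / 3) ≤ (I + 8) * (7 / 3) := by gcongr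
  set T := (15 / 2 : ℝ) ^ (I + 8) * (160 * K2 * (1 + u + I)) * (2 / 15) ^ j with hT
  set Z := (2 : ℝ) ^ I / 2 ^ j with hZ
  have hZ0 : 0 ≤ Z := by positivity
  -- first part: 5 Z (1+u) ≤ T / 160
  have h4 : 5 * (Z * (1 + u)) ≤ T / 160 := by
    have h5 : 0 ≤ Z * (1 + u) := by positivity
    have h6 : 256 * (Z * (160 * K2 * (1 + u))) = 256 * 160 * K2 * (Z * (1 + u)) := by ring
    rw [h6] at h2
    have h7 : 256 * 160 * 220 * (Z * (1 + u)) ≤ 256 * 160 * K2 * (Z * (1 + u)) := by gcongr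
    linarith
  -- second part
  have h5 : K2 * (1 + I) ≤ T / 160 := by
    have : K2 * (1 + I) ≤ K2 * (1 + u + I) := by
      apply mul_le_mul_of_nonneg_left (by linarith) (by linarith)
    linarith
  have h6 : 5 * ((I + 8) * (7 / 3)) + 5 * (log (65536 * C0 ^ 2) + (I + 8)) + (C1 + C2 + 40) ≤
      K2 * (1 + I) := by
    have h7 : 220 * (I : ℝ) ≤ K2 * I := by gcongr
    nlinarith
  linarith

lemma geom_le (N : ℕ) : ∑ j ∈ Finset.range N, (96 / 125 : ℝ) ^ j ≤ 5 := by
  rw [geom_sum_eq (by norm_num)]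
  have : (0 : ℝ) ≤ (96 / 125) ^ N := by positivity
  rw [div_le_iff_of_neg (by norm_num)]
  linarith


lemma T0_le {u X K : ℝ} {I : ℕ} (hu : 0 ≤ u) (hK : 0 ≤ K) (h2I : (2 : ℝ) ^ I ≤ 2 * X) :
    (15 / 2) ^ (I + 8) * (K * (1 + u + I)) ≤ (15 / 2) ^ 8 * K * 128 * (X ^ 2 * (X * (1 + u))) := by
  have hI : (0 : ℝ) ≤ I := Nat.cast_nonneg I
  have h1 : (15 / 2 : ℝ) ^ I * I ≤ 15 * 8 ^ I := by
    have := one_add_mul_le_pow (a := (1 / 15 : ℝ)) (by norm_num) I
    have e : (1 + 1 / 15 : ℝ) = 16 / 15 := by norm_num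
    rw [e] at this
    have h3 : (I : ℝ) ≤ 15 * (16 / 15) ^ I := by nlinarith
    have h4 : (8 : ℝ) ^ I = (15 / 2) ^ I * (16 / 15) ^ I := by rw [← mul_pow]; norm_num
    rw [h4]
    calc (15 / 2 : ℝ) ^ I * I ≤ (15 / 2 : ℝ) ^ I * (15 * (16 / 15) ^ I) := by gcongr
      _ = _ := by ring
  have h2 : (15 / 2 : ℝ) ^ I ≤ 8 ^ I := pow_le_pow_left₀ (by norm_num) (by norm_num) I
  have h3 : (15 / 2 : ℝ) ^ I * (1 + u + I) ≤ 16 * 8 ^ I * (1 + u) := by
    have h8 : (0 : ℝ) < 8 ^ I := by positivity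
    have h4 : (15 / 2 : ℝ) ^ I * (1 + u) ≤ 8 ^ I * (1 + u) := by gcongr
    nlinarith [mul_nonneg h8.le hu]
  have h4 : (8 : ℝ) ^ I ≤ 8 * X ^ 3 := by
    have e : (8 : ℝ) ^ I = (2 ^ I) ^ 3 := by rw [← pow_mul, mul_comm, pow_mul]; norm_num
    rw [e]
    calc ((2 : ℝ) ^ I) ^ 3 ≤ (2 * X) ^ 3 := by gcongr
      _ = _ := by ring
  calc (15 / 2 : ℝ) ^ (I + 8) * (K * (1 + u + I)) = (15 / 2) ^ 8 * K * ((15 / 2) ^ I * (1 + u + I)) := by
        rw [pow_add]; ring
    _ ≤ (15 / 2) ^ 8 * K * (16 * 8 ^ I * (1 + u)) := by gcongr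
    _ ≤ (15 / 2) ^ 8 * K * (16 * (8 * X ^ 3) * (1 + u)) := by gcongr
    _ = _ := by ring

/-- the schedule -/
def sch (C0 q : ℝ) (n I h : ℕ) (Ast : ℝ) : Sched where
  h := h
  τ := fun j => th C0 q (I + 9) ((15 / 2) ^ (I + 8) * Ast / n) j ^ 2 /
    (2 * ((15 / 2) ^ (I + 8) * Ast * (2 / 15) ^ j))
  A := fun j => (15 / 2) ^ (I + 8) * Ast * (2 / 15) ^ j
  r := fun j => min (Rf q (I + 9) j (th C0 q (I + 9) ((15 / 2) ^ (I + 8) * Ast / n) j)) π
  β := fun j => th C0 q (I + 9) ((15 / 2) ^ (I + 8) * Ast / n) j * (6 / 5) ^ j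

lemma four_le {T0 : ℝ} {I h : ℕ} (hh : h ≤ I + 8) (hT : (15 / 2 : ℝ) ^ (I + 8) ≤ T0) :
    100 * ((h : ℝ) + 1) * (4 : ℝ) ^ (h + 1) ≤ 460 * T0 := by
  have hI : (0 : ℝ) ≤ I := Nat.cast_nonneg I
  have hhr : (h : ℝ) ≤ I + 8 := by exact_mod_cast hh
  have h1 : (4 : ℝ) ^ (h + 1) ≤ 4 ^ (I + 9) := pow_le_pow_right₀ (by norm_num) (by omega)
  have h3 : (15 / 8 : ℝ) ^ (I + 8) ≥ 7 / 8 * (I + 9) := by
    have := one_add_mul_le_pow (a := (7 / 8 : ℝ)) (by norm_num) (I + 8)
    push_cast at this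
    have e : (1 + 7 / 8 : ℝ) = 15 / 8 := by norm_num
    rw [e] at this
    nlinarith
  have h4 : (15 / 2 : ℝ) ^ (I + 8) = 4 ^ (I + 8) * (15 / 8) ^ (I + 8) := by
    rw [← mul_pow]; norm_num
  have h5 : (0 : ℝ) < 4 ^ (I + 8) := by positivity
  calc 100 * ((h : ℝ) + 1) * (4 : ℝ) ^ (h + 1) ≤ 100 * ((I : ℝ) + 9) * 4 ^ (I + 9) := by
        apply mul_le_mul (by linarith) h1 (by positivity) (by positivity)
    _ = 4 ^ (I + 8) * (7 / 8 * (I + 9)) * (3200 / 7) := by ring
    _ ≤ 4 ^ (I + 8) * (15 / 8) ^ (I + 8) * (3200 / 7) := by gcongr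
    _ ≤ 460 * T0 := by rw [← h4]; nlinarith [pow_pos (show (0 : ℝ) < 15 / 2 by norm_num) (I + 8)]

/-- the logarithm of the window parameter -/
lemma abs_log_tau_le {θ a : ℝ} (hθ : 0 < θ) (ha : 1 ≤ a) (h : |log θ| ≤ a) :
    |log (θ ^ 2 / (2 * a))| ≤ 4 * a := by
  have ha0 : 0 < a := by linarith
  have e : log (θ ^ 2 / (2 * a)) = 2 * log θ - (log 2 + log a) := by
    rw [Real.log_div (by positivity) (by positivity), Real.log_pow,
      Real.log_mul (by norm_num) (by positivity)]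
    push_cast; ring
  have h1 : log a ≤ a - 1 := Real.log_le_sub_one_of_pos ha0
  have h2 : 0 ≤ log a := Real.log_nonneg ha
  have h3 := Real.log_two_lt_d9
  have h4 := Real.log_two_gt_d9
  obtain ⟨h5, h6⟩ := abs_le.1 h
  rw [e, abs_le]
  constructor <;> linarith

lemma cost_le {C0 q Ast : ℝ} {n I h : ℕ} (hC0 : 1 ≤ C0) (hq : 0 < q) (hn : 1 ≤ n) (hA : 1 ≤ Ast)
    (hh : h ≤ I + 8)
    (hlog : ∀ j ≤ h, |log (th C0 q (I + 9) ((15 / 2) ^ (I + 8) * Ast / n) j)| ≤
      (15 / 2) ^ (I + 8) * Ast * (2 / 15) ^ j) :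
    (sch C0 q n I h Ast).cost n ≤ 14000 * ((15 / 2) ^ (I + 8) * Ast) := by
  set T0 : ℝ := (15 / 2) ^ (I + 8) * Ast with hT0
  have hn' : (0 : ℝ) < n := by exact_mod_cast hn
  have hT0p : 0 < T0 := by positivity
  have hL : (0 : ℝ) < (I : ℝ) + 9 := by positivity
  have hθ0 : 0 < T0 / n := by positivity
  have hT1 : (15 / 2 : ℝ) ^ (I + 8) ≤ T0 := by
    rw [hT0]; exact le_mul_of_one_le_right (by positivity) hA
  have h1 := four_le hh hT1
  unfold Sched.cost
  have e0 : (sch C0 q n I h Ast).A 0 = T0 := by simp [sch, hT0]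
  have e1 : (sch C0 q n I h Ast).β 0 * n = T0 := by
    simp only [sch, th, pow_zero, mul_one]
    rw [← hT0]; field_simp
  have e2 : (n : ℝ) ^ 2 * (sch C0 q n I h Ast).τ 0 = T0 / 2 := by
    simp only [sch, th, pow_zero, mul_one]
    rw [← hT0]; field_simp
  rw [e0, e1, e2]
  have h2 : ∑ j ∈ Finset.range ((sch C0 q n I h Ast).h + 1), (4 : ℝ) ^ (j + 1) *
      (10 + 2 * (sch C0 q n I h Ast).β j ^ 2 / (sch C0 q n I h Ast).τ j +
        600 * (sch C0 q n I h Ast).A j + 10 * |log ((sch C0 q n I h Ast).τ j)|) ≤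
      ∑ j ∈ Finset.range (h + 1), 2616 * T0 * (96 / 125 : ℝ) ^ j := by
    apply Finset.sum_le_sum
    intro j hj
    have hjh : j ≤ h := by
      have : j < h + 1 := Finset.mem_range.1 hj
      omega
    have hj' : j ≤ I + 8 := by omega
    have hp := th_pos hC0 hq hL hθ0 j
    have hAj : 1 ≤ T0 * (2 / 15 : ℝ) ^ j := by
      have := (A_lower (Ast := Ast) (v := 0) (by linarith) le_rfl (by linarith) hj').1
      rw [← hT0] at this
      linarith
    have hlj := hlog j hjh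
    simp only [sch]
    rw [← hT0]
    set θ := th C0 q (I + 9) (T0 / n) j
    set a := T0 * (2 / 15 : ℝ) ^ j with ha
    have hlt := abs_log_tau_le hp hAj hlj
    have e3 : 2 * (θ * (6 / 5) ^ j) ^ 2 / (θ ^ 2 / (2 * a)) = 4 * (36 / 25) ^ j * a := by
      have e4 : ((36 : ℝ) / 25) ^ j = ((6 / 5) ^ j) ^ 2 := by
        rw [← pow_mul, mul_comm, pow_mul]; norm_num
      rw [e4]
      field_simp
      ring
    rw [e3]
    have h36 : (1 : ℝ) ≤ (36 / 25) ^ j := one_le_pow₀ (by norm_num)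
    have h5 : 10 + 4 * (36 / 25 : ℝ) ^ j * a + 600 * a + 10 * |log (θ ^ 2 / (2 * a))| ≤
        654 * ((36 / 25) ^ j * a) := by
      nlinarith
    calc (4 : ℝ) ^ (j + 1) * (10 + 4 * (36 / 25 : ℝ) ^ j * a + 600 * a +
          10 * |log (θ ^ 2 / (2 * a))|)
        ≤ 4 ^ (j + 1) * (654 * ((36 / 25) ^ j * a)) := by gcongr
      _ = 2616 * T0 * ((4 : ℝ) ^ j * (36 / 25) ^ j * (2 / 15) ^ j) := by rw [ha]; ring
      _ = 2616 * T0 * (96 / 125 : ℝ) ^ j := by
        rw [← mul_pow, ← mul_pow]; norm_num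
  have h3 : ∑ j ∈ Finset.range (h + 1), 2616 * T0 * (96 / 125 : ℝ) ^ j ≤ 2616 * T0 * 5 := by
    rw [← Finset.mul_sum]
    exact mul_le_mul_of_nonneg_left (geom_le _) (by positivity)
  have e5 : (sch C0 q n I h Ast).h = h := rfl
  rw [e5] at h2 ⊢
  linarith

/-- loss from the change of the window -/
lemma loss2 {θ θ' A A' B : ℝ} (hθ : 0 < θ) (hθ' : 0 < θ') (hθ'1 : θ' ≤ 1) (hA' : 0 < A')
    (hAA : A = 15 / 2 * A') (hθB : 1 / θ ≤ Real.exp B) :
    (1 / 2) * log (θ' ^ 2 / (2 * A') / (θ ^ 2 / (2 * A))) ≤ 2 + B := by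
  have hA : 0 < A := by rw [hAA]; positivity
  have e : θ' ^ 2 / (2 * A') / (θ ^ 2 / (2 * A)) = 15 / 2 * (θ' * (1 / θ)) ^ 2 := by
    rw [hAA]; field_simp
  have h1 : θ' * (1 / θ) ≤ Real.exp B := by
    calc θ' * (1 / θ) ≤ 1 * Real.exp B := by gcongr
      _ = _ := one_mul _
  have h2 : 15 / 2 * (θ' * (1 / θ)) ^ 2 ≤ 15 / 2 * (Real.exp B) ^ 2 := by gcongr
  rw [e]
  have h3 := Real.log_le_log (by positivity) h2
  have h4 : log (15 / 2 * (Real.exp B) ^ 2) = log (15 / 2) + 2 * B := by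
    rw [Real.log_mul (by norm_num) (by positivity), Real.log_pow, Real.log_exp]; push_cast; ring
  have h5 : log (15 / 2 : ℝ) ≤ 4 := by
    have h6 : log (15 / 2 : ℝ) ≤ log (2 ^ 3) := Real.log_le_log (by norm_num) (by norm_num)
    rw [Real.log_pow] at h6
    have := Real.log_two_lt_d9
    push_cast at h6
    linarith
  linarith

/-- the level inequality -/
lemma level_ineq {θ θ' A A' B C1 C2 x : ℝ} (hC1 : 0 ≤ C1) (hC2 : 0 ≤ C2) (hθ : 0 < θ)
    (hθ' : 0 < θ') (hθ'1 : θ' ≤ 1) (hA' : 0 < A')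
    (hAA : A = 15 / 2 * A') (hA1 : 1 ≤ A) (hB : 0 ≤ B) (hθB : 1 / θ ≤ Real.exp B)
    (hx0 : 0 ≤ x) (hx : x ≤ 4) (hkey : 5 * B + (C1 + C2 + 40) ≤ A / 80) :
    C2 + (1 / 2) * log (θ' ^ 2 / (2 * A') / (θ ^ 2 / (2 * A))) ≤ A' ∧
    A' + C2 + (1 / 2) * log (θ' ^ 2 / (2 * A') / (θ ^ 2 / (2 * A))) ≤
      (3 / 20) * A - C1 - 4 * log (1 + x / √(θ ^ 2 / (2 * A))) := by
  have h1 := loss1 hθ hA1 hB hθB hx0 hx
  have h2 := loss2 hθ hθ' hθ'1 hA' hAA hθB
  have h3 := log_2A hA1
  constructor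
  · linarith
  · linarith

/-- the last inequality -/
lemma last_ineq {θ A B C1 C2 : ℝ} (hC1 : 0 ≤ C1) (hC2 : 0 ≤ C2) (hθ : 0 < θ)
    (hA1 : 1 ≤ A) (hB : 0 ≤ B) (hθB : 1 / θ ≤ Real.exp B)
    (hkey : 5 * B + (C1 + C2 + 40) ≤ A / 80) :
    Wt (θ ^ 2 / (2 * A)) *
      Real.exp (-((3 / 20) * A - C1 - 4 * log (1 + π / √(θ ^ 2 / (2 * A))))) < 1 / 2 := by
  have h1 := loss1 hθ hA1 hB hθB Real.pi_pos.le Real.pi_le_four
  have h1' := loss1 (x := √(2 * π)) hθ hA1 hB hθB (Real.sqrt_nonneg _) (by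
    rw [Real.sqrt_le_left (by norm_num)]
    have := Real.pi_le_four
    linarith)
  have h3 := log_2A hA1
  have hW : 0 < Wt (θ ^ 2 / (2 * A)) := by unfold Wt; positivity
  have e1 : Wt (θ ^ 2 / (2 * A)) = 1 + √(2 * π) / √(θ ^ 2 / (2 * A)) := by
    unfold Wt
    rw [Real.sqrt_div (by positivity)]
  rw [← e1] at h1'
  have h4 : Wt (θ ^ 2 / (2 * A)) = Real.exp (log (Wt (θ ^ 2 / (2 * A)))) := (Real.exp_log hW).symm
  have h5 : (1 : ℝ) / 2 = Real.exp (- log 2) := by
    rw [Real.exp_neg, Real.exp_log (by norm_num)]; norm_num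
  rw [h4, ← Real.exp_add, h5, Real.exp_lt_exp]
  have := Real.log_two_lt_d9
  linarith

lemma range_full {C0 q θ0 : ℝ} (hC0 : 1 ≤ C0) (hq : 0 < q) (hθ0 : 0 < θ0)
    (hq1 : q * (6144 * C0 ^ 2) ≤ 1) (I : ℕ)
    (hW : (- log θ0 + log (1 / q)) / 2 ^ I ≤ 1 + log (1 / q)) :
    π ≤ Rf q (I + 9) (I + 8) (th C0 q (I + 9) θ0 (I + 8)) := by
  have hC0s : (1 : ℝ) ≤ C0 ^ 2 := one_le_pow₀ hC0
  have hL : (0 : ℝ) < (I : ℝ) + 9 := by positivity
  have h1 : 1 ≤ th C0 q (I + 9) θ0 (I + 8) := th_ge_one hC0 hq hL hθ0 hq1 I rfl hW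
  have h2 : th C0 q (I + 9) θ0 (I + 8) * (6 / 5) ^ (I + 8) / (12 * q) ≤
    Rf q (I + 9) (I + 8) (th C0 q (I + 9) θ0 (I + 8)) := le_max_left _ _
  refine le_trans ?_ h2
  rw [le_div_iff₀ (by positivity)]
  have h3 : (1 : ℝ) ≤ (6 / 5) ^ (I + 8) := one_le_pow₀ (by norm_num)
  have h4 : q ≤ 1 / 6144 := by
    rw [le_div_iff₀ (by norm_num)]; nlinarith
  have h5 := Real.pi_le_four
  have h6 : π * (12 * q) ≤ 1 := by nlinarith
  nlinarith

/-- the `min` condition -/
lemma min_cond {q θ rr : ℝ} {I j h : ℕ} (hq : 0 < q) (hθ : 0 < θ) (hrj : 0 < rr)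
    (hrle : rr ≤ Rf q (I + 9) j θ) (hhI : h ≤ I + 8) :
    min (12 * q * rr) (16 * q * (((h : ℝ) + 1) * 4 ^ (j + 1)) * rr ^ 2) ≤ θ * (6 / 5) ^ j := by
  rcases le_total (√(θ * (6 / 5) ^ j / (16 * q * (((I : ℝ) + 9) * 4 ^ (j + 1)))))
    (θ * (6 / 5) ^ j / (12 * q)) with h1 | h1
  · apply le_trans (min_le_left _ _)
    unfold Rf at hrle
    rw [max_eq_left h1, le_div_iff₀ (by positivity)] at hrle
    linarith
  · apply le_trans (min_le_right _ _)
    unfold Rf at hrle
    rw [max_eq_right h1] at hrle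
    have h2 : rr ^ 2 ≤ θ * (6 / 5) ^ j / (16 * q * (((I : ℝ) + 9) * 4 ^ (j + 1))) := by
      have := pow_le_pow_left₀ hrj.le hrle 2
      rwa [Real.sq_sqrt (by positivity)] at this
    rw [le_div_iff₀ (by positivity)] at h2
    have h3 : ((h : ℝ) + 1) ≤ (I : ℝ) + 9 := by
      have : (h : ℝ) ≤ (I : ℝ) + 8 := by exact_mod_cast hhI
      linarith
    calc 16 * q * (((h : ℝ) + 1) * 4 ^ (j + 1)) * rr ^ 2
        ≤ 16 * q * (((I : ℝ) + 9) * 4 ^ (j + 1)) * rr ^ 2 := by gcongr
      _ = rr ^ 2 * (16 * q * (((I : ℝ) + 9) * 4 ^ (j + 1))) := by ring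
      _ ≤ _ := h2

/-- the growth conditions at a level `j < h`. -/
lemma growth {C0 q L θ0 : ℝ} (hC0 : 1 ≤ C0) (hq : 0 < q) (hL : 0 < L) (hθ0 : 0 < θ0)
    (hq1 : q * (6144 * C0 ^ 2) ≤ 1) (j : ℕ) (a a' : ℝ) (ha' : 0 < a') (haa : a = 15 / 2 * a')
    (hR : Rf q L j (th C0 q L θ0 j) < π) :
    th C0 q L θ0 (j + 1) ≤ 1 ∧
    1000 * (th C0 q L θ0 j ^ 2 / (2 * a)) ≤ th C0 q L θ0 (j + 1) ^ 2 / (2 * a') ∧
    C0 * √(th C0 q L θ0 j ^ 2 / (2 * a)) ≤ √(th C0 q L θ0 (j + 1) ^ 2 / (2 * a')) ∧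
    32 * √(2 * a' * (th C0 q L θ0 (j + 1) ^ 2 / (2 * a'))) ≤
      min (Rf q L j (th C0 q L θ0 j)) π / C0 ∧
    32 * √(2 * a' * (th C0 q L θ0 (j + 1) ^ 2 / (2 * a'))) ≤
      min (Rf q L (j + 1) (th C0 q L θ0 (j + 1))) π := by
  have hC0p : 0 < C0 := by linarith
  have hC0s : (1 : ℝ) ≤ C0 ^ 2 := one_le_pow₀ hC0
  have hp := th_pos hC0 hq hL hθ0 j
  have hp' := th_pos hC0 hq hL hθ0 (j + 1)
  have hlin := th_lin hC0 hq hL hθ0 hq1 j
  have e : th C0 q L θ0 (j + 1) = Rf q L j (th C0 q L θ0 j) / (32 * C0) := rfl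
  have hRp := Rf_pos (L := L) (j := j) hq hp
  have hRp' := Rf_pos (L := L) (j := j + 1) hq hp'
  set R := Rf q L j (th C0 q L θ0 j) with hRdef
  set θ := th C0 q L θ0 j with hθ
  set θ' := th C0 q L θ0 (j + 1) with hθ'
  have h65 : (1 : ℝ) ≤ (6 / 5) ^ j := one_le_pow₀ (by norm_num)
  have hg : 16 * C0 * θ ≤ θ' := by
    refine le_trans ?_ hlin
    have : θ * 1 * (16 * C0) ≤ θ * (6 / 5) ^ j * (16 * C0) := by gcongr
    linarith
  have hpi := Real.pi_le_four
  have e32 : 32 * θ' = R / C0 := by rw [e]; field_simp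
  have hRC : R / C0 ≤ π := by
    rw [div_le_iff₀ hC0p]; nlinarith
  have hθ'1 : θ' ≤ 1 := by linarith
  have ha : 0 < a := by rw [haa]; positivity
  have hsq : √(2 * a' * (θ' ^ 2 / (2 * a'))) = θ' := by
    rw [mul_div_cancel₀ _ (by positivity), Real.sqrt_sq hp'.le]
  have hgg : 256 * C0 ^ 2 * θ ^ 2 ≤ θ' ^ 2 := by
    have := pow_le_pow_left₀ (by positivity) hg 2
    nlinarith
  refine ⟨hθ'1, ?_, ?_, ?_, ?_⟩
  · rw [haa]
    rw [le_div_iff₀ (by positivity)]
    have e3 : 1000 * (θ ^ 2 / (2 * (15 / 2 * a'))) * (2 * a') = (2000 / 15) * θ ^ 2 := by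
      field_simp; norm_num
    rw [e3]
    have : θ ^ 2 ≤ C0 ^ 2 * θ ^ 2 := by
      have := sq_nonneg θ
      nlinarith
    nlinarith [sq_nonneg θ]
  · apply Real.le_sqrt_of_sq_le
    rw [mul_pow, Real.sq_sqrt (by positivity), haa, le_div_iff₀ (by positivity)]
    have e3 : C0 ^ 2 * (θ ^ 2 / (2 * (15 / 2 * a'))) * (2 * a') = (2 / 15) * (C0 ^ 2 * θ ^ 2) := by
      field_simp
    rw [e3]
    have : 0 ≤ C0 ^ 2 * θ ^ 2 := by positivity
    nlinarith
  · rw [hsq, e32, min_eq_left hR.le]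
  · rw [hsq]
    apply le_min
    · have h1 : θ' * (6 / 5) ^ (j + 1) / (12 * q) ≤ Rf q L (j + 1) θ' := le_max_left _ _
      refine le_trans ?_ h1
      rw [le_div_iff₀ (by positivity)]
      have h3 : (1 : ℝ) ≤ (6 / 5) ^ (j + 1) := one_le_pow₀ (by norm_num)
      have h4 : q ≤ 1 / 6144 := by
        rw [le_div_iff₀ (by norm_num)]; nlinarith
      have h5 : 32 * θ' * (12 * q) ≤ θ' * 1 := by nlinarith
      have h6 : θ' * 1 ≤ θ' * (6 / 5) ^ (j + 1) := by gcongr
      linarith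
    · rw [e32]; exact hRC

lemma aux1 {C0 I : ℝ} (hC0 : 1 ≤ C0 ^ 2) (hI : 0 ≤ I) : 1 ≤ 65536 * C0 ^ 2 * (I + 9) := by
  nlinarith

lemma aux2 {K u I : ℝ} (hK : 220 ≤ K) (hu : 0 ≤ u) (hI : 0 ≤ I) : 1 ≤ 160 * K * (1 + u + I) := by
  nlinarith

lemma aux3 {q C : ℝ} (hC : 1 ≤ C ^ 2) (_hq : 0 < q) (h : q * (6144 * C ^ 2) ≤ 1) : 1 * q ≤ 1 := by
  nlinarith

lemma aux4 {n C : ℝ} (hC : 1 ≤ C) (hn : 2 ≤ n) : n ≤ n * C ∧ C ≤ n * C := by
  constructor <;> nlinarith

lemma aux5 {u l U0 : ℝ} (hl : 1 / 2 ≤ l) (hU : 0 ≤ U0) (hul : u ≤ l + U0) :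
    1 + u + l ≤ (4 + 2 * U0) * l := by
  nlinarith

set_option maxHeartbeats 1000000 in
theorem sched : SchedStatement := by
  intro C0 C1 C2 hC0 hC1 hC2
  have hC0p : 0 < C0 := by linarith
  have hC0s : (1 : ℝ) ≤ C0 ^ 2 := one_le_pow₀ hC0
  have hlc : 0 ≤ log (65536 * C0 ^ 2) := Real.log_nonneg (by linarith)
  set K2 : ℝ := 220 + 5 * log (65536 * C0 ^ 2) + C1 + C2 with hK2
  have hK2' : 220 ≤ K2 := by rw [hK2]; linarith
  set U0 : ℝ := log (6144 * C0 ^ 2) with hU0
  have hU0' : 0 ≤ U0 := Real.log_nonneg (by linarith)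
  set CC : ℝ := 14000 * ((15 / 2) ^ 8 * (160 * K2) * 128 * (4 + 2 * U0)) + 4 ^ 10 with hCC
  refine ⟨1 / (6144 * C0 ^ 2), CC, by positivity, ?_, ?_, ?_⟩
  · rw [div_le_div_iff₀ (by positivity) (by norm_num)]; linarith
  · rw [hCC]
    have : 0 ≤ 14000 * ((15 / 2) ^ 8 * (160 * K2) * 128 * (4 + 2 * U0)) := by positivity
    linarith
  intro n q hn hq hqq hnq
  have hq1 : q * (6144 * C0 ^ 2) ≤ 1 := by
    rwa [le_div_iff₀ (by positivity)] at hqq
  have hn2 : (2 : ℝ) ≤ n := by exact_mod_cast hn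
  have hnp : (0 : ℝ) < n := by linarith
  set l := log (n : ℝ) with hl
  set u := log (1 / q) with hu
  have hl2 : 1 / 2 ≤ l := by
    have h1 : log (2 : ℝ) ≤ l := Real.log_le_log (by norm_num) hn2
    have := Real.log_two_gt_d9
    linarith
  have hu0 : 0 ≤ u := by
    apply Real.log_nonneg
    rw [le_div_iff₀ hq]
    exact aux3 hC0s hq hq1
  have hul : u ≤ l + U0 := by
    have h1 : 1 / q ≤ n * (6144 * C0 ^ 2) := by
      rcases le_total (1 / (n : ℝ)) (1 / (6144 * C0 ^ 2)) with h | h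
      · rw [min_eq_left h] at hnq
        have h2 : 1 / q ≤ n := by
          rw [div_le_iff₀ hq]
          rw [div_le_iff₀ hnp] at hnq
          linarith
        have h3 : (1 : ℝ) ≤ 6144 * C0 ^ 2 := by linarith
        exact h2.trans (aux4 h3 hn2).1
      · rw [min_eq_right h] at hnq
        have h2 : 1 / q ≤ 6144 * C0 ^ 2 := by
          rw [div_le_iff₀ hq]
          rw [div_le_iff₀ (by positivity)] at hnq
          linarith
        have h3 : (1 : ℝ) ≤ 6144 * C0 ^ 2 := by linarith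
        exact h2.trans (aux4 h3 hn2).2
    have h2 := Real.log_le_log (by positivity) h1
    rwa [Real.log_mul (by positivity) (by positivity)] at h2
  set X := 1 + l / (1 + u) with hX
  have hXu : X * (1 + u) = 1 + u + l := by rw [hX]; field_simp
  have hX1 : 1 ≤ X := by rw [hX]; have : 0 ≤ l / (1 + u) := by positivity
                         linarith
  obtain ⟨I0, hI1, hI2⟩ := exists_nat_pow_near hX1 (one_lt_two)
  set I := I0 + 1 with hI
  have hXI : X ≤ 2 ^ I := hI2.le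
  have h2I : (2 : ℝ) ^ I ≤ 2 * X := by rw [hI, pow_succ]; linarith
  have hI0 : (0 : ℝ) ≤ I := Nat.cast_nonneg I
  set Ast : ℝ := 160 * K2 * (1 + u + I) with hAst
  have hAst1 : 1 ≤ Ast := aux2 hK2' hu0 hI0
  have hAst0 : 0 < Ast := by linarith
  set T0 : ℝ := (15 / 2) ^ (I + 8) * Ast with hT0
  have hT0p : 0 < T0 := by positivity
  have hT01 : 1 ≤ T0 := by
    rw [hT0]
    exact one_le_mul_of_one_le_of_one_le (one_le_pow₀ (by norm_num)) hAst1
  have hL : (0 : ℝ) < (I : ℝ) + 9 := by positivity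
  have hθ0 : 0 < T0 / n := by positivity
  -- the initial bound
  have hθ0l : - log (T0 / n) + u ≤ l + u := by
    rw [Real.log_div (by positivity) (by positivity)]
    have := Real.log_nonneg hT01
    linarith
  have hlu : ∀ j : ℕ, (- log (T0 / n) + u) / 2 ^ j ≤ 2 ^ I / 2 ^ j * (1 + u) := by
    intro j
    have h2 : l + u ≤ 2 ^ I * (1 + u) := by
      have : X * (1 + u) ≤ 2 ^ I * (1 + u) := by gcongr
      linarith
    calc (- log (T0 / n) + u) / 2 ^ j ≤ (2 ^ I * (1 + u)) / 2 ^ j := by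
          gcongr; linarith
      _ = _ := by ring
  set θ : ℕ → ℝ := th C0 q (I + 9) (T0 / n) with hθ
  have hθp : ∀ j, 0 < θ j := th_pos hC0 hq hL hθ0
  -- existence of h
  have hfull : π ≤ Rf q (I + 9) (I + 8) (θ (I + 8)) := by
    apply range_full hC0 hq hθ0 hq1 I
    have := hlu I
    rwa [div_self (by positivity), one_mul] at this
  have hex : ∃ j, π ≤ Rf q (I + 9) j (θ j) := ⟨I + 8, hfull⟩
  obtain ⟨h, hhI, hhspec, hhmin⟩ : ∃ h ≤ I + 8, π ≤ Rf q (I + 9) h (θ h) ∧
      ∀ j < h, Rf q (I + 9) j (θ j) < π := by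
    classical
    refine ⟨Nat.find hex, Nat.find_min' hex hfull, Nat.find_spec hex,
      fun j hj => not_le.1 (Nat.find_min hex hj)⟩
  -- notation for A
  have hAj : ∀ j ≤ I + 8, 1 ≤ T0 * (2 / 15 : ℝ) ^ j := by
    intro j hj
    have := (A_lower (Ast := Ast) (v := 0) hAst0.le le_rfl hAst0.le hj).1
    rw [← hT0] at this
    linarith
  -- the bound B
  set B : ℕ → ℝ := fun j => 2 ^ I / 2 ^ j * (1 + u) + j * log (10 / 3) +
    log (65536 * C0 ^ 2 * (I + 9)) with hB
  have hlc2 : 1 ≤ 65536 * C0 ^ 2 * ((I : ℝ) + 9) := aux1 hC0s hI0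
  have hB0 : ∀ j, 0 ≤ B j := by
    intro j
    have h1 : 0 ≤ log (10 / 3 : ℝ) := Real.log_nonneg (by norm_num)
    have h2 : 0 ≤ log (65536 * C0 ^ 2 * ((I : ℝ) + 9)) := Real.log_nonneg hlc2
    simp only [hB]
    positivity
  have hθB : ∀ j, 1 / θ j ≤ Real.exp (B j) := by
    intro j
    have h1 := log_bound hC0 hq hL hθ0 hlc2 j
    have h2 := hlu j
    have h3 : - log (θ j) ≤ B j := by
      simp only [hB, hθ]
      linarith
    calc 1 / θ j = Real.exp (- log (θ j)) := by rw [Real.exp_neg, Real.exp_log (hθp j), one_div]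
      _ ≤ _ := Real.exp_le_exp.2 h3
  have hkey : ∀ j ≤ I + 8, 5 * B j + (C1 + C2 + 40) ≤ T0 * (2 / 15 : ℝ) ^ j / 80 := by
    intro j hj
    have := key hC0 hC1 hC2 hu0 hj
    rw [← hK2, ← hAst, ← hT0] at this
    exact this
  have hr : ∀ j, 0 < min (Rf q (I + 9) j (θ j)) π := fun j =>
    lt_min (Rf_pos hq (hθp j)) Real.pi_pos
  refine ⟨sch C0 q n I h Ast, ?_, ?_, ?_, ?_, ?_, ?_⟩
  · -- basic conditions
    intro j hj
    have hj' : j ≤ I + 8 := le_trans hj hhI
    simp only [sch]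
    rw [← hT0, ← hθ]
    have hA := hAj j hj'
    refine ⟨?_, hA, ?_, hr j, min_le_right _ _, ?_⟩
    · have := hθp j
      positivity
    · have := hθp j
      positivity
    · exact min_cond hq (hθp j) (hr j) (min_le_left _ _) hhI
  · simp only [sch]
    rw [← hT0, ← hθ]
    exact min_eq_right hhspec
  · intro j hj
    have hj1 : j ≤ I + 8 := by have : j < h := hj
                               omega
    have hj2 : j + 1 ≤ I + 8 := by have : j < h := hj
                                   omega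
    have haa : T0 * (2 / 15 : ℝ) ^ j = 15 / 2 * (T0 * (2 / 15 : ℝ) ^ (j + 1)) := by
      rw [pow_succ]; ring
    have ha' : 0 < T0 * (2 / 15 : ℝ) ^ (j + 1) := by positivity
    obtain ⟨g0, g1, g2, g3, g4⟩ := growth hC0 hq hL hθ0 hq1 j _ _ ha' haa (hhmin j hj)
    obtain ⟨l1, l2⟩ := level_ineq (x := min (Rf q (I + 9) j (θ j)) π) hC1 hC2 (hθp j)
      (hθp (j + 1)) g0 ha' haa (hAj j hj1) (hB0 j) (hθB j) (hr j).le
      ((min_le_right _ _).trans Real.pi_le_four) (hkey j hj1)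
    simp only [sch]
    rw [← hT0]
    exact ⟨g1, g2, g3, g4, l1, l2⟩
  · simp only [sch]
    rw [← hT0]
    exact last_ineq hC1 hC2 (hθp h) (hAj h hhI) (hB0 h) (hθB h) (hkey h hhI)
  · have hlogj : ∀ j ≤ h, |log (th C0 q (I + 9) ((15 / 2) ^ (I + 8) * Ast / n) j)| ≤
        (15 / 2) ^ (I + 8) * Ast * (2 / 15) ^ j := by
      intro j hj
      rw [← hT0, ← hθ]
      have hj' : j ≤ I + 8 := hj.trans hhI
      have haj := hAj j hj'
      have hk := hkey j hj'
      have hBj := hB0 j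
      rw [abs_le]
      constructor
      · have h1 := log_bound hC0 hq hL hθ0 hlc2 j
        have h2 := hlu j
        have h3 : - log (θ j) ≤ B j := by
          simp only [hB, hθ]
          linarith
        linarith
      · rcases Nat.eq_zero_or_pos j with h0 | h0
        · subst h0
          have h4 : θ 0 = T0 / n := rfl
          have h5 : θ 0 ≤ T0 := by
            rw [h4]; exact div_le_self hT0p.le (by linarith)
          have h6 := Real.log_le_sub_one_of_pos (hθp 0)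
          rw [pow_zero, mul_one]
          linarith
        · obtain ⟨k, rfl⟩ := Nat.exists_eq_add_of_le' h0
          have hk2 : k < h := by omega
          have haa : T0 * (2 / 15 : ℝ) ^ k = 15 / 2 * (T0 * (2 / 15 : ℝ) ^ (k + 1)) := by
            rw [pow_succ]; ring
          have ha' : 0 < T0 * (2 / 15 : ℝ) ^ (k + 1) := by positivity
          obtain ⟨g0, _⟩ := growth hC0 hq hL hθ0 hq1 k _ _ ha' haa (hhmin k hk2)
          have h7 : log (θ (k + 1)) ≤ 0 := Real.log_nonpos (hθp _).le g0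
          linarith
    have h1 := cost_le (q := q) (Ast := Ast) hC0 hq (by omega : 1 ≤ n) hAst1 hhI hlogj
    refine h1.trans ?_
    rw [← hT0]
    have h2 := T0_le (u := u) (X := X) (K := 160 * K2) (I := I) hu0 (by positivity) h2I
    rw [← hAst, ← hT0] at h2
    have h3 : X * (1 + u) ≤ (4 + 2 * U0) * l := by rw [hXu]; exact aux5 hl2 hU0' hul
    have h4 : T0 ≤ (15 / 2) ^ 8 * (160 * K2) * 128 * (X ^ 2 * ((4 + 2 * U0) * l)) := by
      refine h2.trans ?_
      gcongr
    have h5 : 0 ≤ (4 : ℝ) ^ 10 * (l * X ^ 2) := by positivity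
    calc 14000 * T0 ≤ 14000 * ((15 / 2) ^ 8 * (160 * K2) * 128 * (X ^ 2 * ((4 + 2 * U0) * l))) := by
          gcongr
      _ ≤ 14000 * ((15 / 2) ^ 8 * (160 * K2) * 128 * (X ^ 2 * ((4 + 2 * U0) * l))) +
          (4 : ℝ) ^ 10 * (l * X ^ 2) := by linarith
      _ = CC * (l * X ^ 2) := by rw [hCC]; ring
  · have e5 : (sch C0 q n I h Ast).h = h := rfl
    rw [e5]
    have h1 : (4 : ℝ) ^ (h + 1) ≤ 4 ^ 10 * X ^ 2 := by
      calc (4 : ℝ) ^ (h + 1) ≤ 4 ^ (I + 9) := pow_le_pow_right₀ (by norm_num) (by omega)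
        _ = 4 ^ 9 * (2 ^ I) ^ 2 := by
          rw [← pow_mul, mul_comm I 2, pow_mul, pow_add]; norm_num; ring
        _ ≤ 4 ^ 9 * (2 * X) ^ 2 := by gcongr
        _ = _ := by ring
    have h2 : 0 ≤ 14000 * ((15 / 2) ^ 8 * (160 * K2) * 128 * (4 + 2 * U0)) * (l * X ^ 2) := by
      positivity
    calc (4 : ℝ) ^ (h + 1) * l ≤ 4 ^ 10 * X ^ 2 * l := by gcongr
      _ ≤ 14000 * ((15 / 2) ^ 8 * (160 * K2) * 128 * (4 + 2 * U0)) * (l * X ^ 2) +
          4 ^ 10 * X ^ 2 * l := by linarith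
      _ = CC * (l * X ^ 2) := by rw [hCC]; ring

end

end Crest.Agent.R300U.SchedP

namespace Crest.Agent.R300U

/-- The schedule exists. -/
theorem schedStatement : SchedStatement := SchedP.sched

end Crest.Agent.R300U
private theorem rz_391cbcf591 : type_of% @_root_.Crest.Agent.R300U.SchedP.th.eq_def := @_root_.Crest.Agent.R300U.SchedP.th.eq_def -- L19
private theorem rz_9b7eb5b32a : type_of% @_root_.Crest.Agent.R300U.SchedP.th.eq_1 := @_root_.Crest.Agent.R300U.SchedP.th.eq_1 -- L19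
end

-- ▼ part R300/U/UFin
/-!
Row 300, upper bound: the main theorem.
-/
set_option autoImplicit false

namespace Crest.Agent.R300U

theorem uMain : UMainStatement :=
  u_main levelStep finalStep superposition access (pureOfData tForm) schedStatement

end Crest.Agent.R300U
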